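import Vale.Agent.P042.H461.LFinal
import Vale.Agent.P042.H482.Trunc

/-! Truncation by a length function (`ℓ i = log p_i`): the laws of the inserted sets, and the
components of a family from its planted mass. -/

namespace Vale.Agent.P042.H779.Ab.Ll

open Finset Vale.Agent.P042.H482

set_option linter.unusedSectionVars false

section
variable {ι : Type*} [Fintype ι] [DecidableEq ι]

/-- length of a set -/
noncomputable def len (ℓ : ι → ℝ) (R : Finset ι) : ℝ := ∑ i ∈ R, ℓ i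

lemma len_mono {ℓ : ι → ℝ} (h : ∀ i, 0 ≤ ℓ i) {A R : Finset ι} (hAR : A ⊆ R) :
    len ℓ A ≤ len ℓ R :=
  sum_le_sum_of_subset_of_nonneg hAR fun i _ _ => h i

lemma len_nonneg {ℓ : ι → ℝ} (h : ∀ i, 0 ≤ ℓ i) (R : Finset ι) : 0 ≤ len ℓ R :=
  sum_nonneg fun i _ => h i

lemma len_union_le {ℓ : ι → ℝ} (h : ∀ i, 0 ≤ ℓ i) (A R : Finset ι) :
    len ℓ (A ∪ R) ≤ len ℓ A + len ℓ R := by
  unfold len
  rw [← sum_union_inter]
  have := sum_nonneg (s := A ∩ R) (f := ℓ) fun i _ => h i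
  linarith

lemma bt_mem (t : ι → ℝ) (i : ι) :
    ∑ R ∈ (univ : Finset ι).powerset, bt t R * (if i ∈ R then 1 else 0) = t i := by
  rw [bt_avg t i (fun R => if i ∈ R then (1 : ℝ) else 0)]
  have : ∀ R ∈ (univ : Finset ι).powerset, bt t R *
      ((1 - t i) * (if i ∈ R.erase i then (1 : ℝ) else 0) +
        t i * (if i ∈ insert i R then (1 : ℝ) else 0)) = bt t R * t i := by
    intro R _
    simp
  rw [sum_congr rfl this, ← sum_mul, bt_sum, one_mul]

lemma bt_mem2 (t : ι → ℝ) {i j : ι} (hij : j ≠ i) :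
    ∑ R ∈ (univ : Finset ι).powerset, bt t R * ((if i ∈ R then 1 else 0) *
      (if j ∈ R then 1 else 0)) = t i * t j := by
  rw [bt_avg t j (fun R => (if i ∈ R then (1 : ℝ) else 0) * (if j ∈ R then 1 else 0))]
  have : ∀ R ∈ (univ : Finset ι).powerset, bt t R *
      ((1 - t j) * ((if i ∈ R.erase j then (1 : ℝ) else 0) * (if j ∈ R.erase j then 1 else 0)) +
        t j * ((if i ∈ insert j R then (1 : ℝ) else 0) * (if j ∈ insert j R then 1 else 0)))
      = bt t R * (if i ∈ R then 1 else 0) * t j := by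
    intro R _
    have h1 : j ∉ R.erase j := notMem_erase j R
    have h2 : (i ∈ insert j R) ↔ i ∈ R := by
      rw [mem_insert]
      constructor
      · rintro (h | h)
        · exact absurd h.symm hij
        · exact h
      · exact Or.inr
    simp only [h1, h2, if_false, mem_insert_self, if_true]
    ring
  rw [sum_congr rfl this, ← sum_mul, bt_mem]

lemma bt_len (t ℓ : ι → ℝ) :
    ∑ R ∈ (univ : Finset ι).powerset, bt t R * len ℓ R = ∑ i, t i * ℓ i := by
  have e1 : ∀ R ∈ (univ : Finset ι).powerset, bt t R * len ℓ R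
      = ∑ i, bt t R * (if i ∈ R then 1 else 0) * ℓ i := by
    intro R _
    unfold len
    rw [mul_sum]
    have : ∀ i, bt t R * (if i ∈ R then (1 : ℝ) else 0) * ℓ i
        = if i ∈ R then bt t R * ℓ i else 0 := fun i => by split_ifs <;> ring
    rw [sum_congr rfl fun i _ => this i, sum_ite_mem, univ_inter]
  rw [sum_congr rfl e1, sum_comm]
  refine sum_congr rfl fun i _ => ?_
  rw [← sum_mul, bt_mem]

lemma bt_mem_len {t ℓ : ι → ℝ} (h0 : ∀ i, 0 ≤ t i) (hℓ : ∀ i, 0 ≤ ℓ i) (i : ι) :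
    ∑ R ∈ (univ : Finset ι).powerset, bt t R * ((if i ∈ R then 1 else 0) * len ℓ R)
      ≤ t i * (ℓ i + ∑ j, t j * ℓ j) := by
  have e1 : ∀ R ∈ (univ : Finset ι).powerset, bt t R * ((if i ∈ R then 1 else 0) * len ℓ R)
      = ∑ j, bt t R * ((if i ∈ R then 1 else 0) * (if j ∈ R then 1 else 0)) * ℓ j := by
    intro R _
    unfold len
    rw [mul_sum, mul_sum]
    have : ∀ j, bt t R * ((if i ∈ R then (1 : ℝ) else 0) * (if j ∈ R then 1 else 0)) * ℓ j
        = if j ∈ R then bt t R * ((if i ∈ R then 1 else 0) * ℓ j) else 0 := fun j => by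
      by_cases hj : j ∈ R <;> by_cases hi : i ∈ R <;> simp [hi, hj]
    rw [sum_congr rfl fun i _ => this i, sum_ite_mem, univ_inter]
  rw [sum_congr rfl e1, sum_comm]
  have e2 : ∀ j, ∑ R ∈ (univ : Finset ι).powerset,
      bt t R * ((if i ∈ R then 1 else 0) * (if j ∈ R then 1 else 0)) * ℓ j
      ≤ t i * (t j * ℓ j) + if j = i then t i * ℓ i else 0 := by
    intro j
    rw [← sum_mul]
    by_cases hij : j = i
    · subst hij
      have e3 : ∀ R ∈ (univ : Finset ι).powerset,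
          bt t R * ((if j ∈ R then 1 else 0) * (if j ∈ R then 1 else 0))
          = bt t R * (if j ∈ R then 1 else 0) := fun R _ => by split_ifs <;> simp
      rw [sum_congr rfl e3, bt_mem, if_pos rfl]
      have := mul_nonneg (h0 j) (mul_nonneg (h0 j) (hℓ j))
      linarith
    · rw [bt_mem2 t hij, if_neg hij]
      linarith
  refine (sum_le_sum fun j _ => e2 j).trans (le_of_eq ?_)
  rw [sum_add_distrib, ← mul_sum, sum_ite_eq', if_pos (mem_univ _)]
  ring

/-- the truncated weights used for the inserted sets -/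
theorem wts_len {t v ℓ : ι → ℝ} {Λ ε : ℝ} (t0 : ∀ i, 0 ≤ t i) (t1 : ∀ i, t i ≤ 1)
    (v0 : ∀ i, 0 ≤ v i) (v1 : ∀ i, v i ≤ 1) (hℓ : ∀ i, 0 ≤ ℓ i) (hΛ : 0 < Λ)
    (hℓΛ : ∀ i, 4 * ℓ i ≤ Λ) (hv : 4 * ∑ i, v i * ℓ i ≤ Λ)
    (hε : (∑ i, v i * ℓ i) / Λ ≤ ε) [DecidablePred fun R : Finset ι => len ℓ R ≤ Λ] :
    Wts (rw' t (fun R => len ℓ R ≤ Λ)) (rw' v (fun R => len ℓ R ≤ Λ)) t v
      (fun R => len ℓ R ≤ 2 * Λ) ε where
  b0 := (wt_rw' t t0 t1).nonneg
  b1 := by
    intro R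
    unfold rw'
    split_ifs
    · exact le_rfl
    · exact bt_nonneg t0 t1 R
  b0' := (wt_rw' v v0 v1).nonneg
  b1' := by
    intro R
    unfold rw'
    split_ifs
    · exact le_rfl
    · exact bt_nonneg v0 v1 R
  hok := by
    intro R hR S hS
    have h1 := (wt_rw' (ok := fun R => len ℓ R ≤ Λ) t t0 t1).okb R hR
    have h2 := (wt_rw' (ok := fun R => len ℓ R ≤ Λ) v v0 v1).okb S hS
    have := len_union_le hℓ R S
    linarith
  mass := by
    have h1 : ∀ R ∈ (univ : Finset ι).powerset, bt v R - bt v R * len ℓ R / Λ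
        ≤ rw' v (fun R => len ℓ R ≤ Λ) R := by
      intro R _
      have hb := bt_nonneg v0 v1 R
      have hl := len_nonneg hℓ R
      unfold rw'
      split_ifs with h
      · have : 0 ≤ bt v R * len ℓ R / Λ := by positivity
        change bt v R - _ ≤ bt v R
        linarith
      · have h2 : 1 ≤ len ℓ R / Λ := (one_le_div hΛ).mpr (not_le.mp h).le
        have h3 := mul_le_mul_of_nonneg_left h2 hb
        rw [mul_div_assoc]
        linarith
    refine le_trans ?_ (sum_le_sum h1)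
    rw [sum_sub_distrib, bt_sum, ← sum_div, bt_len]
    linarith
  pt := by
    intro i
    have h1 : ∀ R ∈ (univ : Finset ι).powerset, bt v R * (if i ∈ R then 1 else 0)
        - bt v R * ((if i ∈ R then 1 else 0) * len ℓ R) / Λ
        ≤ rw' v (fun R => len ℓ R ≤ Λ) R * (if i ∈ R then 1 else 0) := by
      intro R _
      have hb := bt_nonneg v0 v1 R
      have hl := len_nonneg hℓ R
      by_cases hi : i ∈ R
      · simp only [if_pos hi, one_mul, mul_one]
        unfold rw'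
        split_ifs with h
        · have : 0 ≤ bt v R * len ℓ R / Λ := by positivity
          change bt v R - _ ≤ bt v R
          linarith
        · have h2 : 1 ≤ len ℓ R / Λ := (one_le_div hΛ).mpr (not_le.mp h).le
          have h3 := mul_le_mul_of_nonneg_left h2 hb
          rw [mul_div_assoc]
          linarith
      · simp [if_neg hi]
    refine le_trans ?_ (sum_le_sum h1)
    rw [sum_sub_distrib, bt_mem, ← sum_div]
    have h2 := bt_mem_len v0 hℓ i
    have h3 : (∑ R ∈ (univ : Finset ι).powerset, bt v R * ((if i ∈ R then 1 else 0) * len ℓ R))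
        / Λ ≤ v i / 2 := by
      rw [div_le_iff₀ hΛ]
      have h4 : v i * (ℓ i + ∑ j, v j * ℓ j) ≤ v i * (Λ / 2) :=
        mul_le_mul_of_nonneg_left (by linarith [hℓΛ i]) (v0 i)
      linarith
    linarith

lemma fw_len (s ℓ : ι → ℝ) (U : Finset ι) :
    ∑ R ∈ U.powerset, fw s U R * len ℓ R = ∑ i ∈ U, s i * ℓ i := by
  induction U using Finset.induction_on with
  | empty => simp [len]
  | insert a U ha ih =>
    rw [sum_powerset_insert ha, ← sum_add_distrib, sum_insert ha]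
    have e1 : ∀ R ∈ U.powerset, fw s (insert a U) R * len ℓ R
        + fw s (insert a U) (insert a R) * len ℓ (insert a R)
        = fw s U R * len ℓ R + s a * ℓ a * fw s U R := by
      intro R hR
      rw [mem_powerset] at hR
      have hl : len ℓ (insert a R) = ℓ a + len ℓ R := by
        unfold len
        rw [sum_insert (fun h => ha (hR h))]
      rw [fw_insert_left hR ha, fw_insert_both hR ha, hl]
      ring
    rw [sum_congr rfl e1, sum_add_distrib, ih, ← mul_sum, fw_sum]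
    ring

lemma fw_markov_len {s ℓ : ι → ℝ} (hs0 : ∀ i, 0 ≤ s i) (hs1 : ∀ i, s i ≤ 1)
    (hℓ : ∀ i, 0 ≤ ℓ i) (U : Finset ι) {K : ℝ} (hK : 0 < K) :
    1 - (∑ i, s i * ℓ i) / K ≤ ∑ R ∈ U.powerset, if len ℓ R ≤ K then fw s U R else 0 := by
  have h1 : ∀ R ∈ U.powerset, fw s U R - fw s U R * len ℓ R / K
      ≤ if len ℓ R ≤ K then fw s U R else 0 := by
    intro R _
    have h2 := fw_nonneg hs0 hs1 U R
    have hl := len_nonneg hℓ R
    split_ifs with h3
    · have : 0 ≤ fw s U R * len ℓ R / K := by positivity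
      linarith
    · push Not at h3
      have h4 : fw s U R * 1 ≤ fw s U R * (len ℓ R / K) :=
        mul_le_mul_of_nonneg_left ((one_le_div hK).mpr h3.le) h2
      rw [mul_one] at h4
      rw [mul_div_assoc]
      linarith
  refine le_trans ?_ (sum_le_sum h1)
  rw [sum_sub_distrib, fw_sum, ← sum_div, fw_len]
  have h5 : ∑ i ∈ U, s i * ℓ i ≤ ∑ i, s i * ℓ i :=
    sum_le_sum_of_subset_of_nonneg (subset_univ U) fun i _ _ => mul_nonneg (hs0 i) (hℓ i)
  have h6 : (∑ i ∈ U, s i * ℓ i) / K ≤ (∑ i, s i * ℓ i) / K :=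
    div_le_div_of_nonneg_right h5 hK.le
  linarith

/-- the truncated Bernoulli weight of the sets containing `B` -/
lemma rw'_up_len {s ℓ : ι → ℝ} (hs0 : ∀ i, 0 ≤ s i) (hs1 : ∀ i, s i ≤ 1)
    (hℓ : ∀ i, 0 ≤ ℓ i) {Λ : ℝ} (hΛ : 0 < Λ) (B : Finset ι)
    (hB : 2 * len ℓ B ≤ Λ) [DecidablePred fun R : Finset ι => len ℓ R ≤ Λ] :
    (∏ i ∈ B, s i) * (1 - 2 * (∑ i, s i * ℓ i) / Λ) ≤
      ∑ R ∈ (univ : Finset ι).powerset.filter (fun R => B ⊆ R),
        rw' s (fun R => len ℓ R ≤ Λ) R := by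
  rw [sum_supersets (subset_univ B)]
  have h1 := fw_markov_len hs0 hs1 hℓ (univ \ B) (K := Λ / 2) (by positivity)
  have h0 : 0 ≤ ∏ i ∈ B, s i := prod_nonneg fun i _ => hs0 i
  have h2 := mul_le_mul_of_nonneg_left h1 h0
  have e1 : (∑ i, s i * ℓ i) / (Λ / 2) = 2 * (∑ i, s i * ℓ i) / Λ := by field_simp
  rw [e1] at h2
  refine h2.trans ?_
  rw [mul_sum]
  refine sum_le_sum fun A hA => ?_
  rw [mem_powerset] at hA
  have hd2 : Disjoint B A := disjoint_left.mpr fun j hj hjA => (mem_sdiff.mp (hA hjA)).2 hj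
  have e2 : (∏ i ∈ B ∪ A, s i) * ∏ i ∈ univ \ (B ∪ A), (1 - s i)
      = (∏ i ∈ B, s i) * fw s (univ \ B) A := by
    unfold fw
    rw [prod_union hd2]
    have : univ \ (B ∪ A) = (univ \ B) \ A := by
      ext j
      simp only [mem_sdiff, mem_univ, true_and, mem_union, not_or]
    rw [this]
    ring
  unfold rw'
  by_cases h3 : len ℓ A ≤ Λ / 2
  · rw [if_pos h3]
    have h4 : len ℓ (B ∪ A) ≤ Λ := by
      have := len_union_le hℓ B A
      linarith
    rw [if_pos h4, e2]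
  · rw [if_neg h3, mul_zero]
    split_ifs
    · rw [e2]
      exact mul_nonneg h0 (fw_nonneg hs0 hs1 _ _)
    · exact le_rfl

end

section
variable {ι : Type*} [Fintype ι] [DecidableEq ι] {V : ι → Type*} [∀ i, Fintype (V i)]
  {w : ∀ i, V i → ℝ} {g : Finset ι → (∀ i, V i) → ℝ} {ok : Finset ι → Prop}
  {β : Finset ι → ℝ}

lemma bw_up (τ : ι → ℝ) {B R : Finset ι} (hB : B ⊆ R) :
    ∑ A ∈ R.powerset.filter (fun A => B ⊆ A), bw τ R A = ∏ i ∈ B, τ i := by
  rw [sum_supersets hB]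
  have e1 : ∀ A ∈ (R \ B).powerset, bw τ R (B ∪ A) = (∏ i ∈ B, τ i) * bw τ (R \ B) A := by
    intro A hA
    rw [mem_powerset] at hA
    unfold bw
    have hd : Disjoint B A := disjoint_left.mpr fun j hj hjA => (mem_sdiff.mp (hA hjA)).2 hj
    have e2 : R \ (B ∪ A) = (R \ B) \ A := by
      ext j
      simp only [mem_union, mem_sdiff]
      tauto
    rw [prod_union hd, e2]
    ring
  rw [sum_congr rfl e1, ← mul_sum, bw_sum, mul_one]

/-- the mass of the planted law in terms of the components -/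
theorem Gm_eq_nh (F : Fam w g ok) (hβ : ∀ R, β R ≠ 0 → ok R) (τ : ι → ℝ) :
    Gm w g β τ = ∑ B ∈ (univ : Finset ι).powerset, nh w g B * (∏ i ∈ B, τ i) *
      ∑ R ∈ (univ : Finset ι).powerset.filter (fun R => B ⊆ R), β R := by
  have e1 : Gm w g β τ = ∑ R ∈ (univ : Finset ι).powerset,
      ∑ B ∈ (univ : Finset ι).powerset,
        if B ⊆ R then nh w g B * (∏ i ∈ B, τ i) * β R else 0 := by
    unfold Gm
    refine sum_congr rfl fun R _ => ?_
    by_cases hR : β R = 0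
    · rw [hR, zero_mul]
      symm
      refine sum_eq_zero fun B _ => ?_
      split_ifs
      · rw [mul_zero]
      · rfl
    have hok := hβ R hR
    have e2 : ∑ A ∈ R.powerset, bw τ R A * Wq w g A
        = ∑ B ∈ R.powerset, nh w g B * (∏ i ∈ B, τ i) := by
      have e3 : ∀ A ∈ R.powerset, bw τ R A * Wq w g A
          = ∑ B ∈ R.powerset, if B ⊆ A then bw τ R A * nh w g B else 0 := by
        intro A hA
        have hA' := mem_powerset.mp hA
        rw [wq_eq F (F.ok_down _ _ hA' hok), mul_sum, ← sum_filter]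
        refine sum_congr ?_ fun _ _ => rfl
        ext B
        simp only [mem_powerset, mem_filter]
        exact ⟨fun h => ⟨h.trans hA', h⟩, fun h => h.2⟩
      rw [sum_congr rfl e3, sum_comm]
      refine sum_congr rfl fun B hB => ?_
      rw [← sum_filter, ← sum_mul, bw_up τ (mem_powerset.mp hB)]
      ring
    rw [e2, mul_sum, ← sum_filter]
    refine sum_congr ?_ fun B _ => by ring
    ext B
    simp only [mem_powerset, mem_filter]
    exact ⟨fun h => ⟨subset_univ B, h⟩, fun h => h.2⟩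
  rw [e1, sum_comm]
  refine sum_congr rfl fun B _ => ?_
  rw [← sum_filter, mul_sum]

/-- the components of length at most `Λ/2`, with the defect of the truncation -/
theorem trunc_len {ℓ s τ : ι → ℝ} {Λ : ℝ} [DecidablePred fun R : Finset ι => len ℓ R ≤ Λ]
    (F : Fam w g (fun R => len ℓ R ≤ Λ)) (hs0 : ∀ i, 0 ≤ s i)
    (hs1 : ∀ i, s i ≤ 1) (hℓ : ∀ i, 0 ≤ ℓ i) (h0 : ∀ i, 0 ≤ τ i) (hΛ : 0 < Λ)
    (D : Finset (Finset ι)) (hD : ∀ B ∈ D, 2 * len ℓ B ≤ Λ) :
    (1 - 2 * (∑ i, s i * ℓ i) / Λ) * ∑ B ∈ D, (∏ i ∈ B, τ i * s i) * nh w g B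
      ≤ Gm w g (rw' s (fun R => len ℓ R ≤ Λ)) τ := by
  have hβ := (wt_rw' (ok := fun R : Finset ι => len ℓ R ≤ Λ) s hs0 hs1)
  rw [Gm_eq_nh F hβ.okb, mul_sum]
  have hrw0 : ∀ B : Finset ι, 0 ≤ ∑ R ∈ (univ : Finset ι).powerset.filter (fun R => B ⊆ R),
      rw' s (fun R => len ℓ R ≤ Λ) R := fun B => sum_nonneg fun R _ => hβ.nonneg R
  have hp0 : ∀ B : Finset ι, 0 ≤ ∏ i ∈ B, τ i := fun B => prod_nonneg fun i _ => h0 i
  have h1 : ∀ B ∈ D,
      (1 - 2 * (∑ i, s i * ℓ i) / Λ) * ((∏ i ∈ B, τ i * s i) * nh w g B)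
      ≤ nh w g B * (∏ i ∈ B, τ i) *
        ∑ R ∈ (univ : Finset ι).powerset.filter (fun R => B ⊆ R),
          rw' s (fun R => len ℓ R ≤ Λ) R := by
    intro B hB
    have h2 := rw'_up_len hs0 hs1 hℓ hΛ B (hD B hB)
    have h3 : 0 ≤ nh w g B * ∏ i ∈ B, τ i := mul_nonneg (nh_nonneg F B) (hp0 B)
    have h4 := mul_le_mul_of_nonneg_left h2 h3
    refine le_trans (le_of_eq ?_) h4
    rw [prod_mul_distrib]
    ring
  refine (sum_le_sum h1).trans ?_
  exact sum_le_sum_of_subset_of_nonneg (fun B _ => by simp) fun B _ _ =>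
    mul_nonneg (mul_nonneg (nh_nonneg F B) (hp0 B)) (hrw0 B)

/-- the components of length at most `Λ/2` -/
theorem trunc_len' {ℓ s τ : ι → ℝ} {Λ : ℝ} [DecidablePred fun R : Finset ι => len ℓ R ≤ Λ]
    (F : Fam w g (fun R => len ℓ R ≤ Λ)) (hs0 : ∀ i, 0 ≤ s i)
    (hs1 : ∀ i, s i ≤ 1) (hℓ : ∀ i, 0 ≤ ℓ i) (h0 : ∀ i, 0 ≤ τ i) (hΛ : 0 < Λ)
    (D : Finset (Finset ι)) (hD : ∀ B ∈ D, 2 * len ℓ B ≤ Λ) (hsum : 8 * ∑ i, s i * ℓ i ≤ Λ) :
    ∑ B ∈ D, (∏ i ∈ B, τ i * s i) * nh w g B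
      ≤ 2 * Gm w g (rw' s (fun R => len ℓ R ≤ Λ)) τ := by
  have hs : 0 ≤ ∑ i, s i * ℓ i := sum_nonneg fun i _ => mul_nonneg (hs0 i) (hℓ i)
  have h1 := trunc_len F hs0 hs1 hℓ h0 hΛ D hD
  have h2 : 2 * (∑ i, s i * ℓ i) / Λ ≤ 1 / 4 := by
    rw [div_le_iff₀ hΛ]
    linarith
  have h3 : 0 ≤ ∑ B ∈ D, (∏ i ∈ B, τ i * s i) * nh w g B :=
    sum_nonneg fun B _ => mul_nonneg (prod_nonneg fun i _ => mul_nonneg (h0 i) (hs0 i))
      (nh_nonneg F B)
  nlinarith

/-- the nonempty components of length at most `Λ/2` -/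
theorem trunc_len'' {ℓ s τ : ι → ℝ} {Λ : ℝ} [DecidablePred fun R : Finset ι => len ℓ R ≤ Λ]
    (F : Fam w g (fun R => len ℓ R ≤ Λ)) (hs0 : ∀ i, 0 ≤ s i)
    (hs1 : ∀ i, s i ≤ 1) (hℓ : ∀ i, 0 ≤ ℓ i) (h0 : ∀ i, 0 ≤ τ i) (hΛ : 0 < Λ)
    (D : Finset (Finset ι)) (hD : ∀ B ∈ D, 2 * len ℓ B ≤ Λ) (hDe : ∅ ∉ D)
    (hsum : 8 * ∑ i, s i * ℓ i ≤ Λ) :
    ∑ B ∈ D, (∏ i ∈ B, τ i * s i) * nh w g B
      ≤ 2 * (Gm w g (rw' s (fun R => len ℓ R ≤ Λ)) τ - 1 + 2 * (∑ i, s i * ℓ i) / Λ) := by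
  have hs : 0 ≤ ∑ i, s i * ℓ i := sum_nonneg fun i _ => mul_nonneg (hs0 i) (hℓ i)
  have h1 := trunc_len F hs0 hs1 hℓ h0 hΛ (insert ∅ D) (by
    intro B hB
    rcases mem_insert.mp hB with rfl | hB
    · simp [len, hΛ.le]
    · exact hD B hB)
  rw [sum_insert hDe, nh_empty F, prod_empty, one_mul] at h1
  have h2 : 2 * (∑ i, s i * ℓ i) / Λ ≤ 1 / 4 := by
    rw [div_le_iff₀ hΛ]
    linarith
  have h3 : 0 ≤ ∑ B ∈ D, (∏ i ∈ B, τ i * s i) * nh w g B :=
    sum_nonneg fun B _ => mul_nonneg (prod_nonneg fun i _ => mul_nonneg (h0 i) (hs0 i))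
      (nh_nonneg F B)
  nlinarith

end

end Vale.Agent.P042.H779.Ab.Ll
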