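import Mathlib.Analysis.SpecialFunctions.Log.NegMulLog
import Mathlib.Analysis.SpecialFunctions.Log.Deriv
import Mathlib.Tactic

/-!
# P042: entropy on finite spaces

`Ph y = y log y - y + 1`; Donsker-Varadhan inequality and tensorisation of the entropy for weights on
finite types (finite sums only).
-/

set_option autoImplicit false
set_option linter.unusedSectionVars false

namespace Vale.Agent.P042.H461

open Finset Function

/-! ### the function `Ph` -/

/-- `y log y - y + 1` -/
noncomputable def Ph (y : ℝ) : ℝ := y * Real.log y - y + 1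

theorem Ph_zero : Ph 0 = 1 := by simp [Ph]

theorem Ph_one : Ph 1 = 0 := by simp [Ph]

theorem Ph_nonneg {y : ℝ} (hy : 0 ≤ y) : 0 ≤ Ph y := by
  unfold Ph
  rcases hy.eq_or_lt with h | h
  · rw [← h]; simp
  · have h1 := Real.one_sub_inv_le_log_of_pos h
    have h2 : y * (1 - y⁻¹) ≤ y * Real.log y := mul_le_mul_of_nonneg_left h1 h.le
    have h3 : y * (1 - y⁻¹) = y - 1 := by
      field_simp
    linarith

theorem Ph_le_sq {y : ℝ} (hy : 0 ≤ y) : Ph y ≤ (y - 1) ^ 2 := by
  unfold Ph
  rcases hy.eq_or_lt with h | h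
  · rw [← h]; simp
  · have h1 := Real.log_le_sub_one_of_pos h
    have h2 : y * Real.log y ≤ y * (y - 1) := mul_le_mul_of_nonneg_left h1 h.le
    nlinarith

theorem convexOn_Ph : ConvexOn ℝ (Set.Ici 0) Ph := by
  have h1 := Real.convexOn_mul_log
  have h2 : ConvexOn ℝ (Set.Ici (0 : ℝ)) fun y : ℝ => -y + 1 :=
    ⟨convex_Ici 0, fun x _ y _ a b _ _ hab => by
      simp only [smul_eq_mul]
      nlinarith⟩
  have h3 := h1.add h2
  refine h3.congr fun y _ => ?_
  simp only [Pi.add_apply, Ph]
  ring

/-- `Ph` is at least quadratic on bounded sets. -/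
theorem sq_le_Ph {y K : ℝ} (hy : 0 ≤ y) (hyK : y ≤ K) (hK : 1 ≤ K) : (y - 1) ^ 2 ≤ 2 * K * Ph y := by
  have hP := Ph_nonneg hy
  rcases le_total y 1 with h | h
  · -- `2 Ph y ≥ (y - 1) ^ 2`
    have key : (y - 1) ^ 2 ≤ 2 * Ph y := by
      rcases hy.eq_or_lt with h0 | h0
      · rw [← h0]; norm_num [Ph]
      · unfold Ph
        -- `-y log y ≤ (1 - y ^ 2) / 2`
        have h1 : ∀ z : ℝ, 1 ≤ z → Real.log z ≤ (z - z⁻¹) / 2 := by
          intro z hz
          have hz0 : 0 < z := by linarith
          have h2 : AntitoneOn (fun z : ℝ => Real.log z - (z - z⁻¹) / 2) (Set.Ici 1) := by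
            refine antitoneOn_of_deriv_nonpos (convex_Ici 1) ?_ ?_ ?_
            · refine ContinuousOn.sub ?_ ?_
              · exact Real.continuousOn_log.mono fun w hw => by
                  have : (1 : ℝ) ≤ w := hw
                  exact ne_of_gt (by linarith)
              · refine ContinuousOn.div_const (continuousOn_id.sub ?_) 2
                exact continuousOn_inv₀.mono fun w hw => by
                  have : (1 : ℝ) ≤ w := hw
                  exact ne_of_gt (by linarith)
            · intro w hw
              rw [interior_Ici] at hw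
              have hw0 : w ≠ 0 := ne_of_gt (by have : (1 : ℝ) < w := hw; linarith)
              exact ((Real.differentiableAt_log hw0).sub
                ((differentiableAt_id.sub (differentiableAt_inv hw0)).div_const 2)).differentiableWithinAt
            · intro w hw
              rw [interior_Ici] at hw
              have hw1 : (1 : ℝ) < w := hw
              have hw0 : w ≠ 0 := ne_of_gt (by linarith)
              have h3 : HasDerivAt (fun z : ℝ => Real.log z - (z - z⁻¹) / 2)
                  (w⁻¹ - (1 - (-(w ^ 2)⁻¹)) / 2) w :=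
                (Real.hasDerivAt_log hw0).sub (((hasDerivAt_id w).sub (hasDerivAt_inv hw0)).div_const 2)
              rw [h3.deriv]
              have h4 : w⁻¹ - (1 - (-(w ^ 2)⁻¹)) / 2 = -(w⁻¹ - 1) ^ 2 / 2 := by
                field_simp
                ring
              rw [h4]
              have := sq_nonneg (w⁻¹ - 1)
              linarith
          have h5 := h2 (Set.mem_Ici.2 le_rfl) (Set.mem_Ici.2 hz) hz
          simp only [Real.log_one, inv_one, sub_self, zero_div] at h5
          linarith
        have h6 := h1 y⁻¹ ((one_le_inv₀ h0).2 h)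
        rw [Real.log_inv, inv_inv] at h6
        have h7 : y * (-Real.log y) ≤ y * ((y⁻¹ - y) / 2) := mul_le_mul_of_nonneg_left h6 h0.le
        have h8 : y * ((y⁻¹ - y) / 2) = (1 - y ^ 2) / 2 := by
          field_simp
        nlinarith
    nlinarith
  · -- `log y ≥ 2 (y - 1) / (y + 1)`
    have hy0 : 0 < y := by linarith
    have h1 : MonotoneOn (fun z : ℝ => Real.log z - 2 * (z - 1) / (z + 1)) (Set.Ici 1) := by
      refine monotoneOn_of_deriv_nonneg (convex_Ici 1) ?_ ?_ ?_
      · refine ContinuousOn.sub ?_ ?_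
        · exact Real.continuousOn_log.mono fun w hw => by
            have : (1 : ℝ) ≤ w := hw
            exact ne_of_gt (by linarith)
        · refine ContinuousOn.div (by fun_prop) (by fun_prop) fun w hw => ?_
          have : (1 : ℝ) ≤ w := hw
          exact ne_of_gt (by linarith)
      · intro w hw
        rw [interior_Ici] at hw
        have hw1 : (1 : ℝ) < w := hw
        have hw0 : w ≠ 0 := ne_of_gt (by linarith)
        have hw2 : w + 1 ≠ 0 := ne_of_gt (by linarith)
        exact ((Real.differentiableAt_log hw0).sub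
          (((differentiableAt_id.sub_const 1).const_mul 2).div
            (differentiableAt_id.add_const 1) hw2)).differentiableWithinAt
      · intro w hw
        rw [interior_Ici] at hw
        have hw1 : (1 : ℝ) < w := hw
        have hw0 : w ≠ 0 := ne_of_gt (by linarith)
        have hw2 : w + 1 ≠ 0 := ne_of_gt (by linarith)
        have h3 : HasDerivAt (fun z : ℝ => Real.log z - 2 * (z - 1) / (z + 1))
            (w⁻¹ - (2 * 1 * (w + 1) - 2 * (w - 1) * 1) / (w + 1) ^ 2) w :=
          (Real.hasDerivAt_log hw0).sub ((((hasDerivAt_id w).sub_const 1).const_mul 2).div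
            ((hasDerivAt_id w).add_const 1) hw2)
        rw [h3.deriv]
        have h4 : w⁻¹ - (2 * 1 * (w + 1) - 2 * (w - 1) * 1) / (w + 1) ^ 2 =
            (w - 1) ^ 2 / (w * (w + 1) ^ 2) := by
          field_simp
          ring
        rw [h4]
        positivity
    have h5 := h1 (Set.mem_Ici.2 le_rfl) (Set.mem_Ici.2 h) h
    simp only [Real.log_one, sub_self, mul_zero, zero_div] at h5
    have h6 : y * (2 * (y - 1) / (y + 1)) ≤ y * Real.log y :=
      mul_le_mul_of_nonneg_left (by linarith) hy0.le
    have h7 : y * (2 * (y - 1) / (y + 1)) = (y - 1) ^ 2 / (y + 1) + y - 1 := by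
      field_simp
      ring
    have h8 : (y - 1) ^ 2 / (y + 1) ≤ Ph y := by
      unfold Ph
      linarith
    rw [div_le_iff₀ (by linarith)] at h8
    nlinarith

/-- the tail of `Ph` -/
theorem mul_le_Ph {y K : ℝ} (hK : 0 < K) (h : K ≤ y) : y * (Real.log K - 1) ≤ Ph y := by
  have h1 := Real.log_le_log hK h
  have hy : 0 < y := lt_of_lt_of_le hK h
  unfold Ph
  nlinarith [mul_le_mul_of_nonneg_left h1 hy.le]

theorem Ph_le_mul_log {y : ℝ} (h : 1 ≤ y) : Ph y ≤ y * Real.log y := by
  unfold Ph
  linarith

/-! ### Gibbs and Donsker-Varadhan -/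

section DV

variable {α : Type*} [Fintype α]

/-- pointwise form of Donsker-Varadhan -/
theorem mul_log_le {f h : ℝ} (hf : 0 ≤ f) (hh : 0 < f → 0 < h) :
    f * Real.log h ≤ f * Real.log f - f + (if 0 < f then h else 0) := by
  rcases hf.eq_or_lt with h0 | h0
  · rw [← h0]; simp
  · have hh' := hh h0
    simp only [h0, if_true]
    have h1 := Real.log_le_sub_one_of_pos (div_pos hh' h0)
    rw [Real.log_div hh'.ne' h0.ne'] at h1
    have h2 := mul_le_mul_of_nonneg_left h1 h0.le
    have h3 : f * (h / f - 1) = h - f := by field_simp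
    nlinarith

/-- **Donsker-Varadhan**: `E f log h ≤ Ent f` if `E h ≤ 1`. -/
theorem dv {w f h : α → ℝ} (hw : ∀ a, 0 ≤ w a) (hf : ∀ a, 0 ≤ f a) (hh : ∀ a, 0 ≤ h a)
    (hp : ∀ a, 0 < w a → 0 < f a → 0 < h a) (h1 : ∑ a, w a * h a ≤ 1) :
    ∑ a, w a * (f a * Real.log (h a)) ≤
      ∑ a, w a * (f a * Real.log (f a)) -
        (∑ a, w a * f a) * Real.log (∑ a, w a * f a) := by
  set m := ∑ a, w a * f a with hm
  have hm0 : 0 ≤ m := Finset.sum_nonneg fun a _ => mul_nonneg (hw a) (hf a)
  rcases hm0.eq_or_lt with h0 | h0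
  · have h2 : ∀ a, w a * f a = 0 := fun a => by
      have := (Finset.sum_eq_zero_iff_of_nonneg (s := univ) (f := fun a => w a * f a)
        fun a _ => mul_nonneg (hw a) (hf a)).1 (by rw [← hm, ← h0]) a (Finset.mem_univ a)
      exact this
    rw [← h0, zero_mul, sub_zero]
    refine le_of_eq (Finset.sum_congr rfl fun a _ => ?_)
    rw [← mul_assoc, ← mul_assoc, h2 a, zero_mul, zero_mul]
  · have key : ∀ a, w a * (f a * Real.log (h a)) ≤
        w a * (f a * Real.log (f a)) - w a * f a * Real.log m - w a * f a + m * (w a * h a) := by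
      intro a
      rcases (hw a).eq_or_lt with h3 | h3
      · rw [← h3]; simp
      rcases (hf a).eq_or_lt with h4 | h4
      · rw [← h4]
        simp only [zero_mul, mul_zero, sub_zero, zero_add]
        exact mul_nonneg hm0 (mul_nonneg (hw a) (hh a))
      have h5 := hp a h3 h4
      have h6 := mul_log_le (f := f a) (h := m * h a) (hf a) fun _ => mul_pos h0 h5
      simp only [h4, if_true] at h6
      rw [Real.log_mul h0.ne' h5.ne'] at h6
      nlinarith [mul_le_mul_of_nonneg_left h6 h3.le]
    refine (Finset.sum_le_sum fun a _ => key a).trans ?_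
    rw [Finset.sum_add_distrib, Finset.sum_sub_distrib, Finset.sum_sub_distrib, ← Finset.sum_mul,
      ← Finset.mul_sum, ← hm]
    nlinarith [mul_le_mul_of_nonneg_left h1 hm0]

/-- the entropy is at most the Bregman sum with any constant `c` -/
theorem ent_le {w f : α → ℝ} {c : ℝ} (hw : ∀ a, 0 ≤ w a) (hw1 : ∑ a, w a = 1)
    (hf : ∀ a, 0 ≤ f a) (hc : 0 < c) :
    ∑ a, w a * (f a * Real.log (f a)) - (∑ a, w a * f a) * Real.log (∑ a, w a * f a) ≤
      ∑ a, w a * (c * Ph (f a / c)) := by
  set m := ∑ a, w a * f a with hm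
  have hm0 : 0 ≤ m := Finset.sum_nonneg fun a _ => mul_nonneg (hw a) (hf a)
  have h1 : ∀ y : ℝ, 0 ≤ y → c * Ph (y / c) = y * Real.log y - y * Real.log c - y + c := by
    intro y hy
    rcases hy.eq_or_lt with h0 | h0
    · rw [← h0]; simp [Ph]
    · unfold Ph
      rw [Real.log_div h0.ne' hc.ne']
      field_simp
  have h2 : ∑ a, w a * (c * Ph (f a / c)) =
      ∑ a, w a * (f a * Real.log (f a)) - m * Real.log c - m + c := by
    have h3 : ∀ a, w a * (c * Ph (f a / c)) = w a * (f a * Real.log (f a)) -
        w a * f a * Real.log c - w a * f a + c * w a := by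
      intro a
      rw [h1 _ (hf a)]
      ring
    simp only [h3]
    rw [Finset.sum_add_distrib, Finset.sum_sub_distrib, Finset.sum_sub_distrib, ← Finset.sum_mul,
      ← Finset.mul_sum, ← hm, hw1, mul_one]
  rw [h2]
  have h4 := mul_nonneg hc.le (Ph_nonneg (div_nonneg hm0 hc.le))
  rw [h1 m hm0] at h4
  linarith

end DV

/-! ### tensorisation -/

section Tens

variable {ι : Type*} [Fintype ι] [DecidableEq ι] {V : ι → Type*} [∀ i, Fintype (V i)]
  [∀ i, DecidableEq (V i)]

/-- the average over the coordinate `i` -/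
noncomputable def av (lam : ∀ i, V i → ℝ) (i : ι) (F : (∀ i, V i) → ℝ) (x : ∀ i, V i) : ℝ :=
  ∑ a, lam i a * F (update x i a)

/-- the product weight -/
noncomputable def W (lam : ∀ i, V i → ℝ) (x : ∀ i, V i) : ℝ := ∏ i, lam i (x i)

variable {lam : ∀ i, V i → ℝ} {F G : (∀ i, V i) → ℝ}

theorem W_update (x : ∀ i, V i) (i : ι) (a : V i) :
    W lam (update x i a) * lam i (x i) = W lam x * lam i a := by
  unfold W
  rw [← Finset.mul_prod_erase univ (fun j => lam j (update x i a j)) (Finset.mem_univ i),
    ← Finset.mul_prod_erase univ (fun j => lam j (x j)) (Finset.mem_univ i)]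
  have h1 : ∏ j ∈ univ.erase i, lam j (update x i a j) = ∏ j ∈ univ.erase i, lam j (x j) :=
    Finset.prod_congr rfl fun j hj => by rw [update_of_ne (Finset.ne_of_mem_erase hj)]
  rw [h1, update_self]
  ring

/-- the exchange of a coordinate with a fresh value -/
def exch (i : ι) : (∀ i, V i) × V i ≃ (∀ i, V i) × V i where
  toFun p := (update p.1 i p.2, p.1 i)
  invFun p := (update p.1 i p.2, p.1 i)
  left_inv p := by simp
  right_inv p := by simp

/-- `av i` is self-adjoint -/
theorem sum_av (i : ι) (F G : (∀ i, V i) → ℝ) :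
    ∑ x, W lam x * (G x * av lam i F x) = ∑ x, W lam x * (F x * av lam i G x) := by
  have h1 : ∀ F G : (∀ i, V i) → ℝ, ∑ x, W lam x * (G x * av lam i F x) =
      ∑ p : (∀ i, V i) × V i, W lam p.1 * lam i p.2 * (G p.1 * F (update p.1 i p.2)) := by
    intro F G
    rw [Fintype.sum_prod_type]
    refine Finset.sum_congr rfl fun x _ => ?_
    unfold av
    rw [Finset.mul_sum, Finset.mul_sum]
    exact Finset.sum_congr rfl fun a _ => by ring
  rw [h1, h1]
  refine Fintype.sum_equiv (exch i) _ _ fun p => ?_
  show _ = W lam (update p.1 i p.2) * lam i (p.1 i) * (F (update p.1 i p.2) *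
    G (update (update p.1 i p.2) i (p.1 i)))
  rw [W_update, update_idem, update_eq_self]
  ring

theorem av_one (h1 : ∀ i, ∑ a, lam i a = 1) (i : ι) (x : ∀ i, V i) :
    av lam i (fun _ => 1) x = 1 := by
  unfold av
  simp [h1]

theorem sum_av' (h1 : ∀ i, ∑ a, lam i a = 1) (i : ι) (F : (∀ i, V i) → ℝ) :
    ∑ x, W lam x * av lam i F x = ∑ x, W lam x * F x := by
  have h2 := sum_av (lam := lam) i F fun _ => 1
  simp only [one_mul] at h2
  rw [h2]
  exact Finset.sum_congr rfl fun x _ => by rw [av_one h1, mul_one]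

theorem W_nonneg (h0 : ∀ i a, 0 ≤ lam i a) (x : ∀ i, V i) : 0 ≤ W lam x :=
  Finset.prod_nonneg fun i _ => h0 i _

theorem sum_W (h1 : ∀ i, ∑ a, lam i a = 1) : ∑ x, W lam x = 1 := by
  have h2 := Finset.prod_univ_sum (fun i => (univ : Finset (V i))) lam
  rw [Fintype.piFinset_univ] at h2
  unfold W
  rw [← h2]
  simp [h1]

theorem av_nonneg (h0 : ∀ i a, 0 ≤ lam i a) {F : (∀ i, V i) → ℝ} (hF : ∀ x, 0 ≤ F x) (i : ι)
    (x : ∀ i, V i) : 0 ≤ av lam i F x :=
  Finset.sum_nonneg fun a _ => mul_nonneg (h0 i a) (hF _)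

/-- independence of the coordinate `i` -/
def Inv (i : ι) (G : (∀ i, V i) → ℝ) : Prop := ∀ x (a : V i), G (update x i a) = G x

theorem inv_av (i : ι) (F : (∀ i, V i) → ℝ) : Inv i (av lam i F) := by
  intro x a
  unfold av
  exact Finset.sum_congr rfl fun b _ => by rw [update_idem]

theorem inv_av' {i j : ι} {F : (∀ i, V i) → ℝ} (h : Inv j F) : Inv j (av lam i F) := by
  rcases eq_or_ne i j with rfl | hij
  · exact inv_av _ _
  · intro x a
    unfold av
    refine Finset.sum_congr rfl fun b _ => ?_
    rw [update_comm hij.symm, h]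

theorem av_of_inv (h1 : ∀ i, ∑ a, lam i a = 1) {i : ι} {F : (∀ i, V i) → ℝ} (h : Inv i F) :
    av lam i F = F := by
  funext x
  unfold av
  simp only [h x]
  rw [← Finset.sum_mul, h1, one_mul]

theorem const_of_inv {G : (∀ i, V i) → ℝ} (h : ∀ i, Inv i G) (x y : ∀ i, V i) : G x = G y := by
  have key : ∀ s : Finset ι, G (fun i => if i ∈ s then y i else x i) = G x := by
    intro s
    induction s using Finset.induction_on with
    | empty => simp
    | @insert j s hj ih =>
      rw [← ih, ← h j (fun i => if i ∈ s then y i else x i) (y j)]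
      congr 1
      funext i
      by_cases hij : i = j
      · subst hij
        simp
      · simp [hij]
  have := key univ
  simp only [Finset.mem_univ, if_true] at this
  exact this.symm

/-- the average over a list of coordinates -/
noncomputable def avs (lam : ∀ i, V i → ℝ) (l : List ι) (F : (∀ i, V i) → ℝ) : (∀ i, V i) → ℝ :=
  l.foldr (av lam) F

theorem avs_inv {l : List ι} {j : ι} (hj : j ∈ l) : Inv j (avs lam l F) := by
  induction l with
  | nil => simp at hj
  | cons i l ih =>
    show Inv j (av lam i (avs lam l F))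
    rcases List.mem_cons.1 hj with rfl | h
    · exact inv_av _ _
    · exact inv_av' (ih h)

theorem avs_nonneg (h0 : ∀ i a, 0 ≤ lam i a) (hF : ∀ x, 0 ≤ F x) (l : List ι) (x : ∀ i, V i) :
    0 ≤ avs lam l F x := by
  induction l generalizing x with
  | nil => exact hF x
  | cons i l ih => exact av_nonneg h0 ih i x

theorem av_pos (h0 : ∀ i a, 0 ≤ lam i a) {F : (∀ i, V i) → ℝ} (hF : ∀ x, 0 ≤ F x) (i : ι)
    {x : ∀ i, V i} (hx : 0 < W lam x) (h : 0 < F x) : 0 < av lam i F x := by
  have h1 : 0 < lam i (x i) := by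
    rcases (h0 i (x i)).eq_or_lt with h2 | h2
    · exfalso
      unfold W at hx
      rw [Finset.prod_eq_zero (Finset.mem_univ i) h2.symm] at hx
      exact lt_irrefl _ hx
    · exact h2
  have h2 := Finset.single_le_sum (f := fun a => lam i a * F (update x i a))
    (fun a _ => mul_nonneg (h0 i a) (hF _)) (Finset.mem_univ (x i))
  rw [update_eq_self] at h2
  exact lt_of_lt_of_le (mul_pos h1 h) h2

theorem avs_pos (h0 : ∀ i a, 0 ≤ lam i a) (hF : ∀ x, 0 ≤ F x) (l : List ι) {x : ∀ i, V i}
    (hx : 0 < W lam x) (h : 0 < F x) : 0 < avs lam l F x := by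
  induction l with
  | nil => exact h
  | cons i l ih => exact av_pos h0 (avs_nonneg h0 hF l) i hx ih

theorem sum_avs (h1 : ∀ i, ∑ a, lam i a = 1) (l : List ι) :
    ∑ x, W lam x * avs lam l F x = ∑ x, W lam x * F x := by
  induction l with
  | nil => rfl
  | cons i l ih =>
    rw [← ih]
    exact sum_av' h1 i _

/-- the entropy of the coordinate `i` -/
noncomputable def enti (lam : ∀ i, V i → ℝ) (i : ι) (F : (∀ i, V i) → ℝ) (x : ∀ i, V i) : ℝ :=
  av lam i (fun y => F y * Real.log (F y)) x - av lam i F x * Real.log (av lam i F x)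

/-- one step of the tensorisation -/
theorem tens_step (h0 : ∀ i a, 0 ≤ lam i a) (h1 : ∀ i, ∑ a, lam i a = 1) (hF : ∀ x, 0 ≤ F x)
    (hG : ∀ x, 0 ≤ G x) (hp : ∀ x, 0 < W lam x → 0 < F x → 0 < G x) (i : ι) :
    ∑ x, W lam x * (F x * Real.log (G x)) - ∑ x, W lam x * (F x * Real.log (av lam i G x)) ≤
      ∑ x, W lam x * enti lam i F x := by
  have e1 := sum_av' (lam := lam) h1 i fun x => F x * Real.log (G x)
  have e2 := sum_av' (lam := lam) h1 i fun x => F x * Real.log (av lam i G x)
  rw [← e1, ← e2, ← Finset.sum_sub_distrib]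
  refine Finset.sum_le_sum fun x _ => ?_
  rcases (W_nonneg h0 x).eq_or_lt with hx | hx
  · rw [← hx]; simp
  rw [← mul_sub]
  refine mul_le_mul_of_nonneg_left ?_ hx.le
  -- weights of the points of the line
  have hline : ∀ a : V i, 0 < lam i a → 0 < W lam (update x i a) := by
    intro a ha
    have h2 := W_update (lam := lam) x i a
    have h3 : 0 < W lam x * lam i a := mul_pos hx ha
    rw [← h2] at h3
    exact pos_of_mul_pos_left h3 (h0 i _)
  set g := av lam i G x with hg
  have hinv : ∀ a : V i, av lam i G (update x i a) = g := fun a => inv_av i G x a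
  have hg0 : 0 ≤ g := av_nonneg h0 hG i x
  rcases hg0.eq_or_lt with h2 | h2
  · -- everything vanishes
    have h3 : ∀ a : V i, lam i a * F (update x i a) = 0 := by
      intro a
      rcases (h0 i a).eq_or_lt with h4 | h4
      · rw [← h4, zero_mul]
      rcases (hF (update x i a)).eq_or_lt with h5 | h5
      · rw [← h5, mul_zero]
      exfalso
      have h6 := hp _ (hline a h4) h5
      have h7 : 0 < g := by
        have h8 := Finset.single_le_sum (f := fun a => lam i a * G (update x i a))
          (fun a _ => mul_nonneg (h0 i a) (hG _)) (Finset.mem_univ a)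
        exact lt_of_lt_of_le (mul_pos h4 h6) h8
      linarith
    have h4 : ∀ L : V i → ℝ, ∑ a, lam i a * (F (update x i a) * L a) = 0 := fun L =>
      Finset.sum_eq_zero fun a _ => by rw [← mul_assoc, h3 a, zero_mul]
    have h5 : av lam i F x = 0 := Finset.sum_eq_zero fun a _ => h3 a
    have h6 : enti lam i F x = 0 := by
      unfold enti
      rw [h5, zero_mul, sub_zero]
      exact h4 _
    rw [h6]
    refine le_of_eq ?_
    unfold av
    rw [h4, h4, sub_zero]
  · have h3 := dv (w := lam i) (f := fun a => F (update x i a))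
      (h := fun a => G (update x i a) / g) (h0 i) (fun a => hF _)
      (fun a => div_nonneg (hG _) hg0) (fun a ha hfa => div_pos (hp _ (hline a ha) hfa) h2) (by
        have h4 : ∀ a, lam i a * (G (update x i a) / g) = lam i a * G (update x i a) / g :=
          fun a => by ring
        simp only [h4]
        rw [← Finset.sum_div]
        show g / g ≤ 1
        exact (div_self h2.ne').le)
    refine le_trans (le_of_eq ?_) h3
    unfold av
    rw [← Finset.sum_sub_distrib]
    refine Finset.sum_congr rfl fun a _ => ?_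
    have h5 : ∑ b, lam i b * G (update (update x i a) i b) = g := hinv a
    show lam i a * (F (update x i a) * Real.log (G (update x i a))) -
      lam i a * (F (update x i a) * Real.log (∑ b, lam i b * G (update (update x i a) i b))) = _
    rw [h5, ← mul_sub, ← mul_sub]
    rcases (h0 i a).eq_or_lt with h6 | h6
    · rw [← h6]; simp
    rcases (hF (update x i a)).eq_or_lt with h7 | h7
    · rw [← h7]; simp
    rw [Real.log_div (hp _ (hline a h6) h7).ne' h2.ne']

/-- **Tensorisation of the entropy** -/
theorem tens (h0 : ∀ i a, 0 ≤ lam i a) (h1 : ∀ i, ∑ a, lam i a = 1) (hF : ∀ x, 0 ≤ F x) :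
    ∑ x, W lam x * (F x * Real.log (F x)) -
      (∑ x, W lam x * F x) * Real.log (∑ x, W lam x * F x) ≤
      ∑ i, ∑ x, W lam x * enti lam i F x := by
  have key : ∀ l : List ι, ∑ x, W lam x * (F x * Real.log (F x)) -
      ∑ x, W lam x * (F x * Real.log (avs lam l F x)) ≤
      (l.map fun i => ∑ x, W lam x * enti lam i F x).sum := by
    intro l
    induction l with
    | nil => simp [avs]
    | cons i l ih =>
      rw [List.map_cons, List.sum_cons]
      have h2 := tens_step (lam := lam) (F := F) (G := avs lam l F) h0 h1 hF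
        (avs_nonneg h0 hF l) (fun x hx h => avs_pos h0 hF l hx h) i
      have h3 : avs lam (i :: l) F = av lam i (avs lam l F) := rfl
      rw [h3]
      linarith
  have h2 := key univ.toList
  rw [Finset.sum_map_toList] at h2
  refine le_trans (le_of_eq ?_) h2
  congr 1
  -- the total average is constant
  have h3 : ∀ x, avs lam univ.toList F x = ∑ x, W lam x * F x := by
    intro x
    have h4 : ∀ y, avs lam univ.toList F y = avs lam univ.toList F x := fun y =>
      const_of_inv (fun i => avs_inv (Finset.mem_toList.2 (Finset.mem_univ i))) y x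
    rw [← sum_avs h1 univ.toList]
    simp only [h4]
    rw [← Finset.sum_mul, sum_W h1, one_mul]
  simp only [h3]
  rw [Finset.sum_mul]
  exact Finset.sum_congr rfl fun x _ => by ring

end Tens

end Vale.Agent.P042.H461
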