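import Vale.Agent.P042.H461.LF1
import Vale.Agent.P042.H482.Bil1

/-! (F1*) for the pair sums of two laws, kernels with one-body parts, individual radii. -/

namespace Vale.Agent.P042.H779.Ab.Ll

open Finset Vale.Agent.P042.H482 Vale.Agent.P042.H461.LNum
open Vale.Agent.P042.H461 (W av Inv Em gm Hc ip)

set_option linter.unusedSectionVars false

section
variable {ι : Type*} [Fintype ι] [DecidableEq ι] {V : ι → Type*} [∀ i, Fintype (V i)]
  [∀ i, DecidableEq (V i)] {w : ∀ i, V i → ℝ} {μ μ' : (∀ i, V i) → ℝ}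
  {K : ∀ i, V i → V i → ℝ}

omit [∀ i, DecidableEq (V i)] in
/-- kernels multiplied by individual factors -/
theorem OB_smul {c : ι → ℝ} {u u' : ∀ i, V i → ℝ} {s : ∀ i, V i → V i → ℝ} {rho e : ι → ℝ}
    (hK : H365.OB w K c u u' s rho e) {χ : ι → ℝ} (hχ : ∀ i, 0 ≤ χ i) :
    H365.OB w (fun i a b => χ i * K i a b) (fun i => χ i * c i) (fun i a => χ i * u i a)
      (fun i b => χ i * u' i b) (fun i a b => χ i * s i a b) (fun i => χ i * rho i)
      (fun i => χ i * e i) where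
  rho0 := fun i => mul_nonneg (hχ i) (hK.rho0 i)
  e0 := fun i => mul_nonneg (hχ i) (hK.e0 i)
  split := fun i a b => by rw [hK.split]; ring
  sl := fun i b => by
    have := hK.sl i b
    calc ∑ a, w i a * (χ i * s i a b) = χ i * ∑ a, w i a * s i a b := by
          rw [mul_sum]; exact sum_congr rfl fun a _ => by ring
      _ = 0 := by rw [this, mul_zero]
  sr := fun i a => by
    have := hK.sr i a
    calc ∑ b, w i b * (χ i * s i a b) = χ i * ∑ b, w i b * s i a b := by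
          rw [mul_sum]; exact sum_congr rfl fun a _ => by ring
      _ = 0 := by rw [this, mul_zero]
  ul := fun i => by
    have := hK.ul i
    calc ∑ a, w i a * (χ i * u i a) = χ i * ∑ a, w i a * u i a := by
          rw [mul_sum]; exact sum_congr rfl fun a _ => by ring
      _ = 0 := by rw [this, mul_zero]
  ur := fun i => by
    have := hK.ur i
    calc ∑ b, w i b * (χ i * u' i b) = χ i * ∑ b, w i b * u' i b := by
          rw [mul_sum]; exact sum_congr rfl fun a _ => by ring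
      _ = 0 := by rw [this, mul_zero]
  cn := fun i => by
    rw [abs_mul, abs_of_nonneg (hχ i)]
    exact mul_le_mul_of_nonneg_left (hK.cn i) (hχ i)
  un := fun i => by
    have h := mul_le_mul_of_nonneg_left (hK.un i) (mul_nonneg (hχ i) (hχ i))
    calc ∑ a, w i a * (χ i * u i a) ^ 2 = χ i * χ i * ∑ a, w i a * u i a ^ 2 := by
          rw [mul_sum]; exact sum_congr rfl fun a _ => by ring
      _ ≤ χ i * χ i * (rho i * e i) := h
      _ = _ := by ring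
  un' := fun i => by
    have h := mul_le_mul_of_nonneg_left (hK.un' i) (mul_nonneg (hχ i) (hχ i))
    calc ∑ a, w i a * (χ i * u' i a) ^ 2 = χ i * χ i * ∑ a, w i a * u' i a ^ 2 := by
          rw [mul_sum]; exact sum_congr rfl fun a _ => by ring
      _ ≤ χ i * χ i * (rho i * e i) := h
      _ = _ := by ring
  sn := fun i f => by
    have h := mul_le_mul_of_nonneg_left (hK.sn i f) (mul_nonneg (hχ i) (hχ i))
    calc ∑ a, w i a * (∑ b, w i b * (χ i * s i a b * f b)) ^ 2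
        = χ i * χ i * ∑ a, w i a * (∑ b, w i b * (s i a b * f b)) ^ 2 := by
          rw [mul_sum]
          refine sum_congr rfl fun a _ => ?_
          have : ∑ b, w i b * (χ i * s i a b * f b) = χ i * ∑ b, w i b * (s i a b * f b) := by
            rw [mul_sum]; exact sum_congr rfl fun b _ => by ring
          rw [this]; ring
      _ ≤ χ i * χ i * (rho i ^ 2 * ∑ b, w i b * f b ^ 2) := h
      _ = _ := by ring

/-- the pair sums with individual radii, in terms of the energies of the two laws -/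
theorem pair_radii (H : Ref w μ) (H' : Ref w μ') {c : ι → ℝ} {u u' : ∀ i, V i → ℝ}
    {s : ∀ i, V i → V i → ℝ} {rho e : ι → ℝ} (hK : H365.OB w K c u u' s rho e)
    {χ : ι → ℝ} (hχ : ∀ i, 0 ≤ χ i) (D : Finset (Finset ι)) (hD : ∀ B ∈ D, ∀ C ⊆ B, C ∈ D) :
    ∑ B ∈ D, |pr μ μ' K B| * ∏ i ∈ B, χ i
      ≤ Real.exp (2 * ∑ i, χ i * e i) *
        (√(∑ C ∈ D, (∏ i ∈ C, 2 * (χ i * rho i)) * nh w (gdw w μ) C) *
          √(∑ C ∈ D, (∏ i ∈ C, 2 * (χ i * rho i)) * nh w (gdw w μ') C)) := by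
  have h1 := H365.onebody_sum_le H.w_nonneg H.w_sum (OB_smul hK hχ) D hD
    (h := Hc w (gdw w μ univ)) (h' := Hc w (gdw w μ' univ))
    (fun C i hi => H461.Hc_inv hi _) (fun C _ i hi => H461.av_Hc H.w_sum hi _)
    (fun C i hi => H461.Hc_inv hi _) (fun C _ i hi => H461.av_Hc H.w_sum hi _)
    (R := 1) zero_le_one
  simp only [one_pow, one_mul, mul_one] at h1
  have e1 : ∀ B ∈ D, |H365.Ph2 w (fun i a b => χ i * K i a b) B
      (∑ C ∈ B.powerset, Hc w (gdw w μ univ) C)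
      (∑ C ∈ B.powerset, Hc w (gdw w μ' univ) C)| = |pr μ μ' K B| * ∏ i ∈ B, χ i := fun B _ => by
    rw [← pr_Ph2 H H']
    have : pr μ μ' (fun i a b => χ i * K i a b) B = (∏ i ∈ B, χ i) * pr μ μ' K B := by
      unfold pr
      rw [mul_sum]
      refine sum_congr rfl fun x _ => ?_
      rw [mul_sum]
      refine sum_congr rfl fun y _ => ?_
      rw [prod_mul_distrib]; ring
    rw [this, abs_mul, abs_of_nonneg (prod_nonneg fun i _ => hχ i), mul_comm]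
  rw [sum_congr rfl e1] at h1
  refine h1.trans (le_of_eq ?_)
  have e2 : ∀ C ∈ D, (∏ i ∈ C, 2 * (χ i * rho i)) *
      ip w (Hc w (gdw w μ univ) C) (Hc w (gdw w μ univ) C)
      = (∏ i ∈ C, 2 * (χ i * rho i)) * nh w (gdw w μ) C := fun C _ => by rw [ip_Hc_gdw H]
  have e3 : ∀ C ∈ D, (∏ i ∈ C, 2 * (χ i * rho i)) *
      ip w (Hc w (gdw w μ' univ) C) (Hc w (gdw w μ' univ) C)
      = (∏ i ∈ C, 2 * (χ i * rho i)) * nh w (gdw w μ') C := fun C _ => by rw [ip_Hc_gdw H']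
  rw [sum_congr rfl e2, sum_congr rfl e3]

end

/-- **(F1*) for two laws and kernels with one-body parts**, radii by scale. -/
theorem F1_pair {b γ ρ A0 η : ℝ} (hb : 0 < b) (hγ : 0 < γ) (hρ : 8 * γ + ρ ≤ 3 * b / 8)
    (hA : 1 ≤ A0) (hη : 0 < η) (hη1 : η ≤ 1) : ∃ s1 : ℕ, ∀ {ι : Type*} [Fintype ι]
    [DecidableEq ι] {V : ι → Type*} [∀ i, Fintype (V i)] [∀ i, DecidableEq (V i)]
    {w : ∀ i, V i → ℝ} {μ μ' : (∀ i, V i) → ℝ} {sc : ι → ℕ} {ns : ℕ} {ℓ : ι → ℝ} {Λ : ℝ}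
    {L gH L' gH' : ι → ℝ} {lam a lam' a' : ℕ → ℝ} {c c' : ℕ → ι → ℝ}
    {K : ∀ i, V i → V i → ℝ} {ck : ι → ℝ} {u u' : ∀ i, V i → ℝ} {s : ∀ i, V i → V i → ℝ}
    {rho e : ι → ℝ},
    Law b γ A0 w μ sc ns ℓ Λ L gH lam a c → Law b γ A0 w μ' sc ns ℓ Λ L' gH' lam' a' c' →
    (∀ i, s1 ≤ sc i) → H365.OB w K ck u u' s rho e →
    (∀ i, 2 * rho i ≤ Real.exp ((-(b / 2) + γ) * sc i)) →
    ∀ {r : ℕ → ℝ}, (∀ s, 0 ≤ r s) → (∀ s : ℕ, r s ≤ Real.exp (ρ * s)) →
    16 * ∑ i, rho i * r (sc i) * Real.exp (4 * γ * sc i + 1) * ℓ i ≤ Λ →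
    ∀ D : Finset (Finset ι), (∀ B ∈ D, ∀ C ⊆ B, C ∈ D) → (∀ B ∈ D, 2 * len ℓ B ≤ Λ) →
    ∑ B ∈ D, |pr μ μ' K B| * ∏ i ∈ B, r (sc i)
      ≤ 2 * Real.exp (2 * ∑ i, r (sc i) * e i + η
        + ∑ j ∈ range ns, Real.exp (19 * γ * j) * r j ^ 2) := by
  obtain ⟨s1, hs1⟩ := F1 hb hγ hρ hA hη hη1
  refine ⟨s1, ?_⟩
  intro ι _ _ V _ _ w μ μ' sc ns ℓ Λ L gH L' gH' lam a lam' a' c c' K ck u u' s rho e Lw Lw' hsc
    hK hrho r r0 r1 hcap D hDc hD
  have hσ0 : ∀ i, 0 ≤ 2 * (r (sc i) * rho i) := fun i =>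
    mul_nonneg zero_le_two (mul_nonneg (r0 _) (hK.rho0 i))
  have hσ1 : ∀ i, 2 * (r (sc i) * rho i) ≤ Real.exp ((-(b / 2) + γ) * sc i) * r (sc i) := by
    intro i
    have := mul_le_mul_of_nonneg_right (hrho i) (r0 (sc i))
    linarith
  have hcap' : 8 * ∑ i, 2 * (r (sc i) * rho i) * Real.exp (4 * γ * sc i + 1) * ℓ i ≤ Λ := by
    refine le_trans (le_of_eq ?_) hcap
    rw [mul_sum, mul_sum]
    exact sum_congr rfl fun i _ => by ring
  have h1 := (hs1 Lw hsc hσ0 r0 r1 hσ1 hcap' D hD).1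
  have h2 := (hs1 Lw' hsc hσ0 r0 r1 hσ1 hcap' D hD).1
  have h3 := pair_radii Lw.ref Lw'.ref hK (χ := fun i => r (sc i)) (fun i => r0 _) D hDc
  obtain ⟨Q, hQ⟩ : ∃ Q, Q = ∑ j ∈ range ns, Real.exp (19 * γ * j) * r j ^ 2 := ⟨_, rfl⟩
  rw [← hQ] at h1 h2 ⊢
  refine h3.trans ?_
  have hE : 0 ≤ 2 * Real.exp (η + Q) := by positivity
  have h4 := mul_le_mul (Real.sqrt_le_sqrt h1) (Real.sqrt_le_sqrt h2) (Real.sqrt_nonneg _)
    (Real.sqrt_nonneg _)
  rw [Real.mul_self_sqrt hE] at h4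
  refine (mul_le_mul_of_nonneg_left h4 (Real.exp_nonneg _)).trans (le_of_eq ?_)
  have : 2 * ∑ i, r (sc i) * e i + η + Q = 2 * ∑ i, r (sc i) * e i + (η + Q) := by ring
  rw [this, Real.exp_add (2 * ∑ i, r (sc i) * e i)]
  ring

/-- the radii by type as radii by scale -/
noncomputable def rs {J : Type*} (scJ : J → ℕ) (r : J → ℝ) (s : ℕ) : ℝ := by
  classical
  exact if h : ∃ j, scJ j = s then r h.choose else 0

lemma rs_apply {J : Type*} {scJ : J → ℕ} (hinj : Function.Injective scJ) (r : J → ℝ) (j : J) :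
    rs scJ r (scJ j) = r j := by
  unfold rs
  have h : ∃ j', scJ j' = scJ j := ⟨j, rfl⟩
  rw [dif_pos h]
  exact congrArg r (hinj h.choose_spec)

lemma rs_prop {J : Type*} {scJ : J → ℕ} {r : J → ℝ} {p : ℕ → ℝ → Prop} (h0 : ∀ s, p s 0)
    (h : ∀ j, p (scJ j) (r j)) (s : ℕ) : p s (rs scJ r s) := by
  unfold rs
  split_ifs with h1
  · have := h h1.choose
    rw [h1.choose_spec] at this
    exact this
  · exact h0 s

lemma rs_sum {J : Type*} [Fintype J] {scJ : J → ℕ} (hinj : Function.Injective scJ) (r : J → ℝ)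
    (f : ℕ → ℝ) (hf : ∀ s, 0 ≤ f s) (n : ℕ) :
    ∑ s ∈ range n, f s * rs scJ r s ^ 2 ≤ ∑ j, f (scJ j) * r j ^ 2 := by
  classical
  have e1 : ∑ j, f (scJ j) * r j ^ 2 = ∑ s ∈ (univ : Finset J).image scJ, f s * rs scJ r s ^ 2 := by
    rw [sum_image fun x _ y _ h => hinj h]
    exact sum_congr rfl fun j _ => by rw [rs_apply hinj]
  rw [e1]
  have e2 : ∑ s ∈ range n, f s * rs scJ r s ^ 2
      = ∑ s ∈ (range n).filter (fun s => s ∈ (univ : Finset J).image scJ),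
        f s * rs scJ r s ^ 2 := by
    rw [sum_filter]
    refine sum_congr rfl fun s _ => ?_
    split_ifs with h
    · rfl
    · have : rs scJ r s = 0 := by
        unfold rs
        rw [dif_neg]
        rintro ⟨j, hj⟩
        exact h (mem_image.mpr ⟨j, mem_univ _, hj⟩)
      rw [this]; simp
  rw [e2]
  exact sum_le_sum_of_subset_of_nonneg (fun s hs => (mem_filter.mp hs).2)
    fun s _ _ => mul_nonneg (hf s) (sq_nonneg _)

/-- **(F1*) for two laws and kernels with one-body parts**, radii by type. -/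
theorem F1_types {b γ ρ A0 η : ℝ} (hb : 0 < b) (hγ : 0 < γ) (hρ : 8 * γ + ρ ≤ 3 * b / 8)
    (hA : 1 ≤ A0) (hη : 0 < η) (hη1 : η ≤ 1) : ∃ s1 : ℕ, ∀ {ι : Type*} [Fintype ι]
    [DecidableEq ι] {V : ι → Type*} [∀ i, Fintype (V i)] [∀ i, DecidableEq (V i)]
    {J : Type*} [Fintype J] {scJ : J → ℕ} {ty : ι → J}
    {w : ∀ i, V i → ℝ} {μ μ' : (∀ i, V i) → ℝ} {ns : ℕ} {ℓ : ι → ℝ} {Λ : ℝ}
    {L gH L' gH' : ι → ℝ} {lam a lam' a' : ℕ → ℝ} {c c' : ℕ → ι → ℝ}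
    {K : ∀ i, V i → V i → ℝ} {ck : ι → ℝ} {u u' : ∀ i, V i → ℝ} {s : ∀ i, V i → V i → ℝ}
    {rho e : ι → ℝ}, Function.Injective scJ →
    Law b γ A0 w μ (fun i => scJ (ty i)) ns ℓ Λ L gH lam a c →
    Law b γ A0 w μ' (fun i => scJ (ty i)) ns ℓ Λ L' gH' lam' a' c' →
    (∀ j, s1 ≤ scJ j) → H365.OB w K ck u u' s rho e →
    (∀ i, 2 * rho i ≤ Real.exp ((-(b / 2) + γ) * scJ (ty i))) →
    ∀ {r : J → ℝ}, (∀ j, 0 ≤ r j) → (∀ j, r j ≤ Real.exp (ρ * scJ j)) →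
    16 * ∑ i, rho i * r (ty i) * Real.exp (4 * γ * scJ (ty i) + 1) * ℓ i ≤ Λ →
    ∀ D : Finset (Finset ι), (∀ B ∈ D, ∀ C ⊆ B, C ∈ D) → (∀ B ∈ D, 2 * len ℓ B ≤ Λ) →
    ∑ B ∈ D, |pr μ μ' K B| * ∏ i ∈ B, r (ty i)
      ≤ 2 * Real.exp (2 * ∑ i, r (ty i) * e i + η
        + ∑ j, Real.exp (19 * γ * scJ j) * r j ^ 2) := by
  obtain ⟨s1, hs1⟩ := F1_pair hb hγ hρ hA hη hη1
  refine ⟨s1, ?_⟩
  intro ι _ _ V _ _ J _ scJ ty w μ μ' ns ℓ Λ L gH L' gH' lam a lam' a' c c' K ck u u' s rho e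
    hinj Lw Lw' hsc hK hrho r r0 r1 hcap D hDc hD
  have hr : ∀ i, rs scJ r (scJ (ty i)) = r (ty i) := fun i => rs_apply hinj r (ty i)
  have h1 := hs1 Lw Lw' (fun i => hsc (ty i)) hK hrho (r := rs scJ r)
    (rs_prop (p := fun _ x => 0 ≤ x) (fun _ => le_rfl) r0)
    (rs_prop (p := fun (s : ℕ) x => x ≤ Real.exp (ρ * s)) (fun _ => Real.exp_nonneg _) r1)
    (by simpa only [hr] using hcap) D hDc hD
  simp only [hr] at h1
  refine h1.trans ?_
  refine mul_le_mul_of_nonneg_left (Real.exp_le_exp.mpr ?_) zero_le_two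
  have := rs_sum hinj r (fun s => Real.exp (19 * γ * s)) (fun _ => Real.exp_nonneg _) ns
  linarith

/-- the capacity from the number of sites and a common bound of the radii -/
theorem cap_of {ι : Type*} [Fintype ι] [DecidableEq ι] {b γ : ℝ} (hb : 0 < b) (hγ : 0 < γ)
    {sc : ι → ℕ} {ns : ℕ} (scn : ∀ i, sc i < ns)
    (hcard : ∀ s : ℕ, ((At sc s).card : ℝ) ≤ Real.exp (b * s)) {rho r ℓ : ι → ℝ}
    (hrho0 : ∀ i, 0 ≤ rho i)
    (hrho : ∀ i, 2 * rho i ≤ Real.exp ((-(b / 2) + γ) * sc i)) {Rm Λ : ℝ}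
    (r0 : ∀ i, 0 ≤ r i) (r1 : ∀ i, r i ≤ Rm) (hRm : 0 ≤ Rm) (ℓ0 : ∀ i, 0 ≤ ℓ i)
    (ℓ1 : ∀ i, ℓ i ≤ 2 * b * sc i)
    (hΛ : 16 * Real.exp 1 * b * Rm * ns ^ 2 * Real.exp ((b / 2 + 5 * γ) * ns) ≤ Λ) :
    16 * ∑ i, rho i * r i * Real.exp (4 * γ * sc i + 1) * ℓ i ≤ Λ := by
  refine le_trans ?_ hΛ
  have h1 : ∑ i, rho i * r i * Real.exp (4 * γ * sc i + 1) * ℓ i
      ≤ ∑ s ∈ range ns, if s < 0 then 0 else Real.exp (b * s) *
        (1 / 2 * Real.exp ((-(b / 2) + γ) * s) * Rm * Real.exp (4 * γ * s + 1) * (2 * b * s)) := by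
    refine site_sum hcard (fun i => Nat.zero_le _) univ (fun i _ => scn i)
      (F := fun s : ℕ => 1 / 2 * Real.exp ((-(b / 2) + γ) * s) * Rm *
        Real.exp (4 * γ * s + 1) * (2 * b * s)) (fun s => by positivity) fun i _ => ?_
    have h2 : rho i * r i ≤ 1 / 2 * Real.exp ((-(b / 2) + γ) * sc i) * Rm :=
      mul_le_mul (by linarith [hrho i]) (r1 i) (r0 i) (by positivity)
    refine mul_le_mul (mul_le_mul_of_nonneg_right h2 (Real.exp_nonneg _)) (ℓ1 i) (ℓ0 i)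
      (by positivity)
  have h2 : ∀ s ∈ range ns, (if s < 0 then 0 else Real.exp (b * s) *
        (1 / 2 * Real.exp ((-(b / 2) + γ) * s) * Rm * Real.exp (4 * γ * s + 1) * (2 * b * s)))
      ≤ Real.exp 1 * b * Rm * ns * Real.exp ((b / 2 + 5 * γ) * ns) := by
    intro s hs
    have hs' : (s : ℝ) ≤ ns := by
      have := (mem_range.mp hs).le
      exact_mod_cast this
    rw [if_neg (Nat.not_lt_zero s)]
    have e1 : Real.exp (b * s) * (1 / 2 * Real.exp ((-(b / 2) + γ) * s) * Rm *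
        Real.exp (4 * γ * s + 1) * (2 * b * s))
        = b * Rm * s * (Real.exp (b * s) * Real.exp ((-(b / 2) + γ) * s) *
          Real.exp (4 * γ * s + 1)) := by ring
    have e2 : Real.exp (b * s) * Real.exp ((-(b / 2) + γ) * s) * Real.exp (4 * γ * s + 1)
        = Real.exp 1 * Real.exp ((b / 2 + 5 * γ) * s) := by
      rw [← Real.exp_add, ← Real.exp_add, ← Real.exp_add]
      congr 1
      ring
    rw [e1, e2]
    have h3 : Real.exp ((b / 2 + 5 * γ) * s) ≤ Real.exp ((b / 2 + 5 * γ) * ns) :=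
      Real.exp_le_exp.mpr (mul_le_mul_of_nonneg_left hs' (by positivity))
    calc b * Rm * s * (Real.exp 1 * Real.exp ((b / 2 + 5 * γ) * s))
        ≤ b * Rm * ns * (Real.exp 1 * Real.exp ((b / 2 + 5 * γ) * ns)) := by
          refine mul_le_mul (mul_le_mul_of_nonneg_left hs' (by positivity))
            (mul_le_mul_of_nonneg_left h3 (Real.exp_nonneg _)) (by positivity) (by positivity)
      _ = _ := by ring
  have h3 := h1.trans (sum_le_sum h2)
  rw [sum_const, card_range, nsmul_eq_mul] at h3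
  have h4 := mul_le_mul_of_nonneg_left h3 (by norm_num : (0 : ℝ) ≤ 16)
  refine h4.trans (le_of_eq ?_)
  ring

end Vale.Agent.P042.H779.Ab.Ll
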