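import Vale.Agent.P042.H461.Fam

/-!
# P042: the core inequality for abstract families, steps 1 and 2

Step 1: `G log G ≤ ∑ beta (R) E g_R T log T`.  Step 2: the posterior entropy controls the number of
points which are common to `m + 1` independent posterior samples.
-/

set_option autoImplicit false
set_option linter.unusedSectionVars false

namespace Vale.Agent.P042.H461

open Finset Function

variable {ι : Type*} [Fintype ι] [DecidableEq ι] {V : ι → Type*} [∀ i, Fintype (V i)]
  [∀ i, DecidableEq (V i)] {lam : ∀ i, V i → ℝ} {ok : Finset ι → Prop}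
  {g : Finset ι → (∀ i, V i) → ℝ}

/-- the total mass `G` -/
noncomputable def Gb (lam : ∀ i, V i → ℝ) (tau : ℝ) (beta : Finset ι → ℝ)
    (g : Finset ι → (∀ i, V i) → ℝ) : ℝ :=
  ∑ R, beta R * ∑ x, W lam x * (g R x * Tt tau g R x)

/-- **Step 1** -/
theorem step1 (h : Fam lam ok g) {tau : ℝ} (h0 : 0 ≤ tau) (h1 : tau < 1) {beta : Finset ι → ℝ}
    (hb0 : ∀ R, 0 ≤ beta R) (hbd : ∀ R, ¬ok R → beta R = 0) (hb1 : ∑ R, beta R ≤ 1) :
    Gb lam tau beta g * Real.log (Gb lam tau beta g)
      ≤ ∑ R, beta R * ∑ x, W lam x * (g R x * (Tt tau g R x * Real.log (Tt tau g R x))) := by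
  have hdv := dv (α := Finset ι × (∀ i, V i)) (w := fun p => beta p.1 * (W lam p.2 * g p.1 p.2))
    (f := fun p => Tt tau g p.1 p.2) (h := fun _ => 1)
    (fun p => mul_nonneg (hb0 _) (mul_nonneg (W_nonneg h.l0 _) (h.nonneg _ _)))
    (fun p => (h.Tt_pos h0 h1 _ _).le) (fun _ => zero_le_one) (fun _ _ _ => one_pos) ?_
  · have e1 : Gb lam tau beta g
        = ∑ p : Finset ι × (∀ i, V i), beta p.1 * (W lam p.2 * g p.1 p.2) * Tt tau g p.1 p.2 := by
      unfold Gb
      rw [Fintype.sum_prod_type]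
      refine Finset.sum_congr rfl fun R _ => ?_
      rw [Finset.mul_sum]
      exact Finset.sum_congr rfl fun x _ => by ring
    have e2 : ∑ R, beta R * ∑ x, W lam x * (g R x * (Tt tau g R x * Real.log (Tt tau g R x)))
        = ∑ p : Finset ι × (∀ i, V i), beta p.1 * (W lam p.2 * g p.1 p.2)
          * (Tt tau g p.1 p.2 * Real.log (Tt tau g p.1 p.2)) := by
      rw [Fintype.sum_prod_type]
      refine Finset.sum_congr rfl fun R _ => ?_
      rw [Finset.mul_sum]
      exact Finset.sum_congr rfl fun x _ => by ring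
    rw [e1, e2]
    simp only [Real.log_one, mul_zero, Finset.sum_const_zero] at hdv
    linarith
  · rw [Fintype.sum_prod_type]
    refine le_trans (le_of_eq ?_) hb1
    refine Finset.sum_congr rfl fun R _ => ?_
    simp only [mul_one]
    rw [← Finset.mul_sum]
    by_cases hR : ok R
    · rw [h.sum_W_mul R hR, mul_one]
    · rw [hbd R hR, zero_mul]

/-! ### Step 2 -/

theorem sum_pt_prod (tau : ℝ) (R : Finset ι) (y : ι → ℝ) :
    ∑ A, pt tau R A * ∏ i ∈ A, y i = ∏ i ∈ R, (1 - tau + tau * y i) := by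
  induction R using Finset.induction_on with
  | empty =>
    rw [Finset.prod_empty, Finset.sum_eq_single ∅]
    · rw [pt_of_subset (Finset.Subset.refl _)]
      simp
    · intro A _ hA
      rw [pt_of_not fun h => hA (Finset.subset_empty.1 h), zero_mul]
    · intro h
      exact absurd (Finset.mem_univ _) h
  | insert i R hi ih =>
    rw [sum_pt_insert hi, Finset.prod_insert hi, ← ih, Finset.mul_sum]
    refine Finset.sum_congr rfl fun A _ => ?_
    by_cases hA : i ∈ A
    · rw [pt_eq_zero_of_mem hi hA]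
      ring
    · rw [Finset.prod_insert hA]
      ring

/-- marginal inclusion probability of a law `p` on finite sets -/
noncomputable def inc (p : Finset ι → ℝ) (i : ι) : ℝ := ∑ A, if i ∈ A then p A else 0

theorem inc_nonneg {p : Finset ι → ℝ} (hp : ∀ A, 0 ≤ p A) (i : ι) : 0 ≤ inc p i :=
  Finset.sum_nonneg fun A _ => by split_ifs <;> [exact hp A; exact le_rfl]

theorem inc_le {p : Finset ι → ℝ} (hp : ∀ A, 0 ≤ p A) (i : ι) : inc p i ≤ ∑ A, p A :=
  Finset.sum_le_sum fun A _ => by split_ifs <;> [exact le_rfl; exact hp A]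

/-- **Step 2**: the entropy of a law on subsets of `R` relative to the `tau`-random subset -/
theorem step2 {tau θ : ℝ} (ht0 : 0 < tau) (ht1 : tau < 1) (hθ0 : 0 < θ)
    (R : Finset ι) {u : Finset ι → ℝ} (hu : ∀ A, 0 ≤ u A) (hu1 : ∑ A, pt tau R A * u A = 1)
    (m : ℕ) (hc : 0 ≤ Real.log (θ / tau) - 1) :
    (Real.log (θ / tau) - 1) * ∑ i ∈ R, inc (fun A => pt tau R A * u A) i ^ (m + 1)
      ≤ ∑ A, pt tau R A * (u A * Real.log (u A))
        + (Real.log (θ / tau) - 1) * θ ^ m * ∑ i ∈ R, inc (fun A => pt tau R A * u A) i := by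
  set p : Finset ι → ℝ := fun A => pt tau R A * u A with hp
  have hp0 : ∀ A, 0 ≤ p A := fun A => mul_nonneg (pt_nonneg ht0.le ht1.le R A) (hu A)
  have hi0 : ∀ i, 0 ≤ inc p i := inc_nonneg hp0
  have hi1 : ∀ i, inc p i ≤ 1 := fun i => (inc_le hp0 i).trans (le_of_eq hu1)
  set H := R.filter fun i => θ ≤ inc p i with hH
  -- the test tilt
  set y : ι → ℝ := fun i => if i ∈ H then inc p i / tau else 1 with hy
  have hy0 : ∀ i, 0 < y i := by
    intro i
    simp only [hy]
    split_ifs with h
    · exact div_pos (hθ0.trans_le (Finset.mem_filter.1 h).2) ht0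
    · exact one_pos
  set Z : ℝ := ∏ i ∈ R, (1 - tau + tau * y i) with hZ
  have hZ0 : 0 < Z := Finset.prod_pos fun i _ => by
    have := mul_pos ht0 (hy0 i)
    linarith
  have hZ1 : Real.log Z ≤ ∑ i ∈ H, inc p i := by
    rw [hZ, Real.log_prod fun i _ => (by
      have := mul_pos ht0 (hy0 i)
      linarith : (0 : ℝ) < 1 - tau + tau * y i).ne']
    rw [hH, Finset.sum_filter]
    refine Finset.sum_le_sum fun i hi => ?_
    have h1 := Real.log_le_sub_one_of_pos (by
      have := mul_pos ht0 (hy0 i)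
      linarith : (0 : ℝ) < 1 - tau + tau * y i)
    refine h1.trans ?_
    by_cases h : θ ≤ inc p i
    · have hm : i ∈ H := Finset.mem_filter.2 ⟨hi, h⟩
      simp only [hy, if_pos hm, if_pos h]
      rw [mul_div_cancel₀ _ ht0.ne']
      linarith
    · have hm : i ∉ H := fun h' => h (Finset.mem_filter.1 h').2
      simp only [hy, if_neg hm, if_neg h]
      linarith
  have hdv := dv (w := pt tau R) (f := u) (h := fun A => (∏ i ∈ A, y i) / Z)
    (pt_nonneg ht0.le ht1.le R) hu
    (fun A => div_nonneg (Finset.prod_nonneg fun i _ => (hy0 i).le) hZ0.le)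
    (fun A _ _ => div_pos (Finset.prod_pos fun i _ => hy0 i) hZ0) (by
      have h1 : ∀ A, pt tau R A * ((∏ i ∈ A, y i) / Z) = pt tau R A * (∏ i ∈ A, y i) / Z :=
        fun A => by ring
      rw [Finset.sum_congr rfl fun A _ => h1 A, ← Finset.sum_div, sum_pt_prod, ← hZ,
        div_self hZ0.ne'])
  rw [hu1, Real.log_one, mul_zero, sub_zero] at hdv
  -- the left-hand side
  have e1 : ∑ A, pt tau R A * (u A * Real.log ((∏ i ∈ A, y i) / Z))
      = ∑ i ∈ H, inc p i * Real.log (inc p i / tau) - Real.log Z := by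
    have h1 : ∀ A, pt tau R A * (u A * Real.log ((∏ i ∈ A, y i) / Z))
        = ∑ i, (if i ∈ A then p A else 0) * Real.log (y i) - p A * Real.log Z := by
      intro A
      rw [Real.log_div (Finset.prod_pos fun i _ => hy0 i).ne' hZ0.ne',
        Real.log_prod fun i _ => (hy0 i).ne']
      have h2 : ∑ i, (if i ∈ A then p A else 0) * Real.log (y i)
          = p A * ∑ i ∈ A, Real.log (y i) := by
        simp only [ite_mul, zero_mul]
        rw [← Finset.sum_filter, Finset.filter_mem_eq_inter, Finset.univ_inter, Finset.mul_sum]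
      rw [h2, hp]
      ring
    rw [Finset.sum_congr rfl fun A _ => h1 A, Finset.sum_sub_distrib, ← Finset.sum_mul,
      Finset.sum_comm]
    have h3 : ∑ A, p A = 1 := hu1
    rw [h3, one_mul]
    congr 1
    have h4 : ∀ i, ∑ A, (if i ∈ A then p A else 0) * Real.log (y i)
        = if i ∈ H then inc p i * Real.log (inc p i / tau) else 0 := by
      intro i
      rw [← Finset.sum_mul]
      by_cases h : i ∈ H
      · rw [if_pos h]
        simp only [hy, if_pos h]
        rfl
      · rw [if_neg h]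
        simp only [hy, if_neg h, Real.log_one, mul_zero]
    rw [Finset.sum_congr rfl fun i _ => h4 i, ← Finset.sum_filter, Finset.filter_mem_eq_inter,
      Finset.univ_inter]
  rw [e1] at hdv
  -- lower bound on `H`
  have h5 : (Real.log (θ / tau) - 1) * ∑ i ∈ H, inc p i
      ≤ ∑ A, pt tau R A * (u A * Real.log (u A)) := by
    refine le_trans ?_ hdv
    have h6 : ∑ i ∈ H, inc p i * Real.log (θ / tau)
        ≤ ∑ i ∈ H, inc p i * Real.log (inc p i / tau) := by
      refine Finset.sum_le_sum fun i hi => mul_le_mul_of_nonneg_left ?_ (hi0 i)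
      exact Real.log_le_log (div_pos hθ0 ht0)
        (div_le_div_of_nonneg_right (Finset.mem_filter.1 hi).2 ht0.le)
    rw [← Finset.sum_mul] at h6
    linarith
  -- powers
  have h7 : ∑ i ∈ R, inc p i ^ (m + 1) ≤ ∑ i ∈ H, inc p i + θ ^ m * ∑ i ∈ R, inc p i := by
    rw [hH, Finset.sum_filter, Finset.mul_sum, ← Finset.sum_add_distrib]
    refine Finset.sum_le_sum fun i _ => ?_
    by_cases h : θ ≤ inc p i
    · rw [if_pos h]
      have h8 : inc p i ^ (m + 1) ≤ inc p i := by
        calc inc p i ^ (m + 1) ≤ inc p i ^ 1 :=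
              pow_le_pow_of_le_one (hi0 i) (hi1 i) (by omega)
          _ = inc p i := pow_one _
      have h9 : 0 ≤ θ ^ m * inc p i := mul_nonneg (pow_nonneg hθ0.le m) (hi0 i)
      linarith
    · rw [if_neg h, zero_add, pow_succ]
      exact mul_le_mul_of_nonneg_right (pow_le_pow_left₀ (hi0 i) (not_le.1 h).le m) (hi0 i)
  have h10 := mul_le_mul_of_nonneg_left h7 hc
  calc _ ≤ (Real.log (θ / tau) - 1) * (∑ i ∈ H, inc p i + θ ^ m * ∑ i ∈ R, inc p i) := h10
    _ = (Real.log (θ / tau) - 1) * ∑ i ∈ H, inc p i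
        + (Real.log (θ / tau) - 1) * θ ^ m * ∑ i ∈ R, inc p i := by ring
    _ ≤ _ := add_le_add h5 le_rfl

/-! ### the core of `m + 1` samples -/

/-- points of `A` which belong to all `B j` -/
def Mc {m : ℕ} (A : Finset ι) (B : Fin m → Finset ι) : Finset ι := A.filter fun i => ∀ j, i ∈ B j

theorem Mc_subset {m : ℕ} (A : Finset ι) (B : Fin m → Finset ι) : Mc A B ⊆ A :=
  Finset.filter_subset _ _

/-- product weights over `m` samples -/
theorem sum_pi_prod {Ω : Type*} [Fintype Ω] (m : ℕ) (f : Ω → ℝ) :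
    ∑ B : Fin m → Ω, ∏ j, f (B j) = (∑ b, f b) ^ m := by
  have h := (Finset.prod_univ_sum (fun _ : Fin m => (Finset.univ : Finset Ω))
    (fun _ b => f b)).symm
  rw [Fintype.piFinset_univ, Finset.prod_const, Finset.card_univ, Fintype.card_fin] at h
  exact h

/-- expected size of the core -/
theorem sum_card_Mc {m : ℕ} (p : Finset ι → ℝ) :
    ∑ A, ∑ B : Fin m → Finset ι, p A * (∏ j, p (B j)) * ((Mc A B).card : ℝ)
      = ∑ i, inc p i ^ (m + 1) := by
  have h1 : ∀ (A : Finset ι) (B : Fin m → Finset ι),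
      p A * (∏ j, p (B j)) * ((Mc A B).card : ℝ)
        = ∑ i, (if i ∈ A then p A else 0) * ∏ j, (if i ∈ B j then p (B j) else 0) := by
    intro A B
    rw [Mc, Finset.card_eq_sum_ones, Nat.cast_sum, Finset.sum_filter, Finset.mul_sum,
      ← Finset.sum_subset (Finset.subset_univ A)]
    · refine Finset.sum_congr rfl fun i hi => ?_
      rw [if_pos hi]
      by_cases h : ∀ j, i ∈ B j
      · rw [if_pos h, Finset.prod_congr rfl fun j _ => if_pos (h j)]
        simp
      · rw [if_neg h, mul_zero]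
        obtain ⟨j, hj⟩ := not_forall.1 h
        rw [Finset.prod_eq_zero (Finset.mem_univ j) (if_neg hj), mul_zero]
    · intro i _ hi
      rw [if_neg hi, zero_mul]
  simp only [h1]
  rw [Finset.sum_congr rfl fun A _ => Finset.sum_comm, Finset.sum_comm]
  refine Finset.sum_congr rfl fun i _ => ?_
  have h2 := sum_pi_prod m fun b : Finset ι => if i ∈ b then p b else 0
  rw [Finset.sum_congr rfl fun A _ => (Finset.mul_sum _ _ _).symm, ← Finset.sum_mul, h2, pow_succ,
    mul_comm]
  rfl

end Vale.Agent.P042.H461
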