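import Vale.Agent.P042.H461.Core1

/-!
# P042: the core inequality for abstract families, step 3 (separation)
-/

set_option autoImplicit false
set_option linter.unusedSectionVars false

namespace Vale.Agent.P042.H461

open Finset Function

variable {ι : Type*} [Fintype ι] [DecidableEq ι] {V : ι → Type*} [∀ i, Fintype (V i)]
  [∀ i, DecidableEq (V i)] {lam : ∀ i, V i → ℝ} {ok : Finset ι → Prop}
  {g : Finset ι → (∀ i, V i) → ℝ}

/-! ### telescoping -/

theorem tele {e : ι → ℕ} (he : Injective e) (F : Finset ι → ℝ) (M : Finset ι) (U : Finset ι) :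
    F (M ∪ U) - F M = ∑ i ∈ U, (F (insert i (M ∪ U.filter fun u => e u < e i))
      - F (M ∪ U.filter fun u => e u < e i)) := by
  induction U using Finset.induction_on_max_value e with
  | empty => simp
  | insert a U ha hmax ih =>
    rw [Finset.sum_insert ha]
    have h1 : (insert a U).filter (fun u => e u < e a) = U := by
      rw [Finset.filter_insert, if_neg (lt_irrefl _), Finset.filter_eq_self]
      intro x hx
      exact lt_of_le_of_ne (hmax x hx) fun h => ha (he h ▸ hx)
    have h2 : ∀ i ∈ U, (insert a U).filter (fun u => e u < e i)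
        = U.filter fun u => e u < e i := by
      intro i hi
      rw [Finset.filter_insert, if_neg (not_lt.2 (hmax i hi))]
    rw [h1, Finset.sum_congr rfl fun i hi => by rw [h2 i hi], ← ih, Finset.union_insert]
    ring

/-- the past of `i` in the core/planted order -/
def Qp {m : ℕ} (e : ι → ℕ) (A : Finset ι) (B : Fin m → Finset ι) (i : ι) : Finset ι :=
  Mc A B ∪ A.filter fun u => e u < e i

theorem Qp_subset {m : ℕ} (e : ι → ℕ) (A : Finset ι) (B : Fin m → Finset ι) (i : ι) :
    Qp e A B i ⊆ A := Finset.union_subset (Mc_subset A B) (Finset.filter_subset _ _)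

theorem tele' {m : ℕ} {e : ι → ℕ} (he : Injective e) (F : Finset ι → ℝ) (A : Finset ι)
    (B : Fin m → Finset ι) :
    F A - F (Mc A B) = ∑ i ∈ A \ Mc A B, (F (insert i (Qp e A B i)) - F (Qp e A B i)) := by
  have h1 := tele he F (Mc A B) (A \ Mc A B)
  rw [Finset.union_sdiff_of_subset (Mc_subset A B)] at h1
  rw [h1]
  have h2 : ∀ i, Mc A B ∪ (A \ Mc A B).filter (fun u => e u < e i) = Qp e A B i := by
    intro i
    ext u
    simp only [Qp, Finset.mem_union, Finset.mem_filter, Finset.mem_sdiff]
    constructor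
    · rintro (h | ⟨⟨h, _⟩, h'⟩)
      · exact Or.inl h
      · exact Or.inr ⟨h, h'⟩
    · rintro (h | ⟨h, h'⟩)
      · exact Or.inl h
      · by_cases hu : u ∈ Mc A B
        · exact Or.inl hu
        · exact Or.inr ⟨⟨h, hu⟩, h'⟩
  exact Finset.sum_congr rfl fun i _ => by rw [h2 i]

theorem notMem_Qp {m : ℕ} {e : ι → ℕ} {A : Finset ι} {B : Fin m → Finset ι} {i : ι}
    (hi : i ∉ Mc A B) : i ∉ Qp e A B i := by
  unfold Qp
  rw [Finset.mem_union, Finset.mem_filter]
  rintro (h | ⟨_, h⟩)
  · exact hi h
  · exact lt_irrefl _ h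

/-- removing `i` everywhere does not change the past of `i`, if `i` is not in the core -/
theorem Qp_erase {m : ℕ} {e : ι → ℕ} {A : Finset ι} {B : Fin m → Finset ι} {i : ι}
    (hi : i ∉ Mc A B) : Qp e (A.erase i) (fun j => (B j).erase i) i = Qp e A B i := by
  ext u
  simp only [Qp, Mc, Finset.mem_union, Finset.mem_filter, Finset.mem_erase]
  constructor
  · rintro (⟨⟨h1, h2⟩, h3⟩ | ⟨⟨h1, h2⟩, h3⟩)
    · exact Or.inl ⟨h2, fun j => (h3 j).2⟩
    · exact Or.inr ⟨h2, h3⟩
  · rintro (⟨h1, h2⟩ | ⟨h1, h2⟩)
    · have hu : u ≠ i := by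
        rintro rfl
        exact hi (Finset.mem_filter.2 ⟨h1, h2⟩)
      exact Or.inl ⟨⟨hu, h1⟩, fun j => ⟨hu, h2 j⟩⟩
    · have hu : u ≠ i := by
        rintro rfl
        exact lt_irrefl _ h2
      exact Or.inr ⟨⟨hu, h1⟩, h2⟩

/-! ### the combinatorial identity -/

theorem sum_fibre {i : ι} (f : Finset ι → ℝ) (C : Finset ι) :
    ∑ b with b.erase i = C, f b = if i ∉ C then f C + f (insert i C) else 0 := by
  by_cases h : i ∈ C
  · rw [if_neg (not_not.2 h)]
    refine Finset.sum_eq_zero fun b hb => ?_
    have := (Finset.mem_filter.1 hb).2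
    rw [← this] at h
    exact absurd h (Finset.notMem_erase i b)
  · rw [if_pos h]
    have h1 : (Finset.univ.filter fun b : Finset ι => b.erase i = C) = {C, insert i C} := by
      ext b
      simp only [Finset.mem_filter, Finset.mem_univ, true_and, Finset.mem_insert,
        Finset.mem_singleton]
      constructor
      · intro hb
        by_cases hi : i ∈ b
        · right
          rw [← hb, Finset.insert_erase hi]
        · left
          rw [← hb, Finset.erase_eq_of_notMem hi]
      · rintro (rfl | rfl)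
        · exact Finset.erase_eq_of_notMem h
        · exact Finset.erase_insert h
    have h2 : C ≠ insert i C := fun h' => h (by rw [h']; exact Finset.mem_insert_self i C)
    rw [h1, Finset.sum_pair h2]

/-- ratio and survival factors -/
noncomputable def rat (G : Finset ι → ℝ) (i : ι) (A : Finset ι) : ℝ := G (insert i A) / G A

/-- `1 - tau + tau r` -/
noncomputable def qf (tau : ℝ) (G : Finset ι → ℝ) (i : ι) (A : Finset ι) : ℝ :=
  1 - tau + tau * rat G i A

/-- the replica factor -/
noncomputable def rep {m : ℕ} (tau : ℝ) (G : Finset ι → ℝ) (i : ι) (B : Fin m → Finset ι) : ℝ :=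
  ∏ j, qf tau G i (B j) - ∏ j, (tau * rat G i (B j))

theorem comb_B {m : ℕ} {tau : ℝ} {R : Finset ι} {i : ι} (hi : i ∉ R) {G : Finset ι → ℝ}
    (hG : ∀ A, A ⊆ R → G A = 0 → G (insert i A) = 0) (Ψ : (Fin m → Finset ι) → ℝ) :
    ∑ B : Fin m → Finset ι, (∏ j, pt tau (insert i R) (B j) * G (B j))
        * (if ∀ j, i ∈ B j then 0 else Ψ fun j => (B j).erase i)
      = ∑ B : Fin m → Finset ι, (∏ j, pt tau R (B j) * G (B j)) * (rep tau G i B * Ψ B) := by
  have h1 : ∀ B : Fin m → Finset ι, (∏ j, pt tau (insert i R) (B j) * G (B j))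
        * (if ∀ j, i ∈ B j then 0 else Ψ fun j => (B j).erase i)
      = (∏ j, pt tau (insert i R) (B j) * G (B j)) * (Ψ fun j => (B j).erase i)
        - (∏ j, if i ∈ B j then pt tau (insert i R) (B j) * G (B j) else 0)
          * (Ψ fun j => (B j).erase i) := by
    intro B
    by_cases h : ∀ j, i ∈ B j
    · rw [if_pos h, Finset.prod_congr rfl fun j _ => if_pos (h j)]
      ring
    · rw [if_neg h]
      obtain ⟨j, hj⟩ := not_forall.1 h
      have h2 : (∏ j, if i ∈ B j then pt tau (insert i R) (B j) * G (B j) else 0) = 0 :=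
        Finset.prod_eq_zero (Finset.mem_univ j) (if_neg hj)
      rw [h2]
      ring
  rw [Finset.sum_congr rfl fun B _ => h1 B, Finset.sum_sub_distrib,
    sum_prod_comp m (fun b : Finset ι => b.erase i)
      (fun b => pt tau (insert i R) b * G b) Ψ,
    sum_prod_comp m (fun b : Finset ι => b.erase i)
      (fun b => if i ∈ b then pt tau (insert i R) b * G b else 0) Ψ, ← Finset.sum_sub_distrib]
  refine Finset.sum_congr rfl fun C _ => ?_
  have key : ∀ b : Finset ι, pt tau R b * G b * rat G i b = pt tau R b * G (insert i b) := by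
    intro b
    by_cases hb : b ⊆ R
    · unfold rat
      by_cases h0 : G b = 0
      · rw [hG b hb h0, h0]
        ring
      · field_simp
    · rw [pt_of_not hb]
      ring
  have e1 : ∀ b : Finset ι, ∑ c with c.erase i = b, pt tau (insert i R) c * G c
      = pt tau R b * G b * qf tau G i b := by
    intro b
    rw [sum_fibre]
    by_cases h : i ∈ b
    · rw [if_neg (not_not.2 h), pt_eq_zero_of_mem hi h]
      ring
    · rw [if_pos h, pt_insert_of_notMem hi h, pt_insert_insert hi h]
      unfold qf
      linear_combination (-tau) * key b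
  have e2 : ∀ b : Finset ι, ∑ c with c.erase i = b,
      (if i ∈ c then pt tau (insert i R) c * G c else 0) = pt tau R b * G b * (tau * rat G i b) := by
    intro b
    rw [sum_fibre]
    by_cases h : i ∈ b
    · rw [if_neg (not_not.2 h), pt_eq_zero_of_mem hi h]
      ring
    · rw [if_pos h, if_neg h, if_pos (Finset.mem_insert_self i b), pt_insert_insert hi h]
      linear_combination (-tau) * key b
  rw [Finset.prod_congr rfl fun j _ => e1 (C j), Finset.prod_congr rfl fun j _ => e2 (C j),
    Finset.prod_mul_distrib, Finset.prod_mul_distrib (f := fun j => pt tau R (C j) * G (C j))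
      (g := fun j => tau * rat G i (C j))]
  unfold rep
  ring

theorem comb_A {tau : ℝ} {R : Finset ι} {i : ι} (hi : i ∉ R) {G : Finset ι → ℝ}
    (hG : ∀ A, A ⊆ R → G A = 0 → G (insert i A) = 0) (Ψ : Finset ι → ℝ) :
    ∑ A, pt tau (insert i R) A * G A * (if i ∈ A then Ψ (A.erase i) else 0)
      = ∑ A, pt tau R A * G A * (tau * rat G i A * Ψ A) := by
  rw [sum_split i]
  have h0 : ∀ A, pt tau R A * G A * (tau * rat G i A * Ψ A)
      = pt tau R A * (G A * (tau * rat G i A * Ψ A)) := fun A => by ring
  rw [Finset.sum_congr rfl fun A _ => h0 A, ← sum_pt_restrict hi]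
  refine Finset.sum_congr rfl fun A hA => ?_
  have hA' := (Finset.mem_filter.1 hA).2
  rw [if_neg hA', if_pos (Finset.mem_insert_self i A), Finset.erase_insert hA',
    pt_insert_insert hi hA']
  by_cases hb : A ⊆ R
  · unfold rat
    by_cases h0 : G A = 0
    · rw [hG A hb h0, h0]
      ring
    · field_simp
      ring
  · rw [pt_of_not hb]
    ring

/-- the combinatorial identity -/
theorem comb {m : ℕ} {tau : ℝ} {R : Finset ι} {i : ι} (hi : i ∉ R) {G : Finset ι → ℝ}
    (hG : ∀ A, A ⊆ R → G A = 0 → G (insert i A) = 0)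
    (Ψ : Finset ι → (Fin m → Finset ι) → ℝ) :
    ∑ A, ∑ B : Fin m → Finset ι, pt tau (insert i R) A * G A
        * (∏ j, pt tau (insert i R) (B j) * G (B j))
        * (if i ∈ A \ Mc A B then Ψ (A.erase i) (fun j => (B j).erase i) else 0)
      = ∑ A, ∑ B : Fin m → Finset ι, pt tau R A * G A * (∏ j, pt tau R (B j) * G (B j))
        * (tau * rat G i A * rep tau G i B * Ψ A B) := by
  have h1 : ∀ A : Finset ι, ∑ B : Fin m → Finset ι, pt tau (insert i R) A * G A
        * (∏ j, pt tau (insert i R) (B j) * G (B j))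
        * (if i ∈ A \ Mc A B then Ψ (A.erase i) (fun j => (B j).erase i) else 0)
      = pt tau (insert i R) A * G A * (if i ∈ A then
          ∑ B : Fin m → Finset ι, (∏ j, pt tau R (B j) * G (B j))
            * (rep tau G i B * Ψ (A.erase i) B) else 0) := by
    intro A
    by_cases hA : i ∈ A
    · rw [if_pos hA, ← comb_B hi hG, Finset.mul_sum]
      refine Finset.sum_congr rfl fun B _ => ?_
      by_cases h : ∀ j, i ∈ B j
      · have h' : i ∉ A \ Mc A B := fun h' =>
          (Finset.mem_sdiff.1 h').2 (Finset.mem_filter.2 ⟨hA, h⟩)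
        rw [if_pos h, if_neg h']
        ring
      · have h' : i ∈ A \ Mc A B :=
          Finset.mem_sdiff.2 ⟨hA, fun h' => h (Finset.mem_filter.1 h').2⟩
        rw [if_neg h, if_pos h']
        ring
    · rw [if_neg hA, mul_zero]
      refine Finset.sum_eq_zero fun B _ => ?_
      rw [if_neg fun h' => hA (Finset.mem_sdiff.1 h').1, mul_zero]
  rw [Finset.sum_congr rfl fun A _ => h1 A,
    comb_A hi hG fun A => ∑ B : Fin m → Finset ι, (∏ j, pt tau R (B j) * G (B j))
      * (rep tau G i B * Ψ A B)]
  refine Finset.sum_congr rfl fun A _ => ?_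
  rw [Finset.mul_sum, Finset.mul_sum]
  exact Finset.sum_congr rfl fun B _ => by ring

end Vale.Agent.P042.H461
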