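import Vale.Agent.P042.H461.Core2

/-!
# P042: the core inequality for abstract families, step 3 (separation), the inequality
-/

set_option autoImplicit false
set_option linter.unusedSectionVars false

namespace Vale.Agent.P042.H461

open Finset Function

variable {ι : Type*} [Fintype ι] [DecidableEq ι] {V : ι → Type*} [∀ i, Fintype (V i)]
  [∀ i, DecidableEq (V i)] {lam : ∀ i, V i → ℝ} {ok : Finset ι → Prop}
  {g : Finset ι → (∀ i, V i) → ℝ}

/-- weight of a configuration: background `R`, sample `A`, extra samples `B` -/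
noncomputable def wA {m : ℕ} (tau : ℝ) (g : Finset ι → (∀ i, V i) → ℝ) (R : Finset ι)
    (x : ∀ i, V i) (A : Finset ι) (B : Fin m → Finset ι) : ℝ :=
  g R x * (pt tau R A * g A x * ∏ j, (pt tau R (B j) * g (B j) x)) / Tt tau g R x ^ m

/-- the normaliser ratio -/
noncomputable def eta (tau : ℝ) (g : Finset ι → (∀ i, V i) → ℝ) (R : Finset ι) (i : ι)
    (x : ∀ i, V i) : ℝ := Tt tau g (insert i R) x / Tt tau g R x

/-- the density ratio of adding `i` -/
noncomputable def rr {m : ℕ} (tau : ℝ) (g : Finset ι → (∀ i, V i) → ℝ) (R : Finset ι) (i : ι)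
    (A : Finset ι) (B : Fin m → Finset ι) (x : ∀ i, V i) : ℝ :=
  rat (fun C => g C x) i R * rat (fun C => g C x) i A * rep tau (fun C => g C x) i B
    / eta tau g R i x ^ m

theorem Fam.rat_nonneg (h : Fam lam ok g) (x : ∀ i, V i) (i : ι) (A : Finset ι) :
    0 ≤ rat (fun C => g C x) i A := div_nonneg (h.nonneg _ _) (h.nonneg _ _)

theorem Fam.rep_nonneg (h : Fam lam ok g) {m : ℕ} {tau : ℝ} (h0 : 0 ≤ tau) (h1 : tau ≤ 1)
    (x : ∀ i, V i) (i : ι) (B : Fin m → Finset ι) : 0 ≤ rep tau (fun C => g C x) i B := by
  unfold rep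
  refine sub_nonneg.2 (Finset.prod_le_prod (fun _ _ => mul_nonneg h0 (h.rat_nonneg x i _))
    fun _ _ => ?_)
  unfold qf
  linarith

theorem Fam.eta_pos (h : Fam lam ok g) {tau : ℝ} (h0 : 0 ≤ tau) (h1 : tau < 1) (R : Finset ι)
    (i : ι) (x : ∀ i, V i) : 0 < eta tau g R i x :=
  div_pos (h.Tt_pos h0 h1 _ _) (h.Tt_pos h0 h1 _ _)

theorem Fam.rr_nonneg (h : Fam lam ok g) {m : ℕ} {tau : ℝ} (h0 : 0 ≤ tau) (h1 : tau < 1)
    (R : Finset ι) (i : ι) (A : Finset ι) (B : Fin m → Finset ι) (x : ∀ i, V i) :
    0 ≤ rr tau g R i A B x :=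
  div_nonneg (mul_nonneg (mul_nonneg (h.rat_nonneg x i R) (h.rat_nonneg x i A))
    (h.rep_nonneg h0 h1.le x i B)) (pow_nonneg (h.eta_pos h0 h1 R i x).le m)

theorem Fam.wA_nonneg (h : Fam lam ok g) {m : ℕ} {tau : ℝ} (h0 : 0 ≤ tau) (h1 : tau < 1)
    (R : Finset ι) (A : Finset ι) (B : Fin m → Finset ι) (x : ∀ i, V i) :
    0 ≤ wA tau g R x A B :=
  div_nonneg (mul_nonneg (h.nonneg _ _) (mul_nonneg (mul_nonneg (pt_nonneg h0 h1.le R A)
    (h.nonneg _ _)) (Finset.prod_nonneg fun j _ => mul_nonneg (pt_nonneg h0 h1.le R _)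
      (h.nonneg _ _)))) (pow_nonneg (h.Tt_pos h0 h1 R x).le m)

/-- `G A = 0 → G (insert i A) = 0` on the support -/
theorem Fam.zero_insert (h : Fam lam ok g) {x : ∀ i, V i} (hx : W lam x ≠ 0) {R : Finset ι} {i : ι}
    (hi : i ∉ R) (hR : ok (insert i R)) {A : Finset ι} (hA : A ⊆ R) (h0 : g A x = 0) :
    g (insert i A) x = 0 := by
  by_contra hc
  exact h.pos_of_insert (fun h' => hi (hA h'))
    (h.down _ _ (Finset.insert_subset_insert i hA) hR) hx hc h0

theorem Tt_inv (h : Fam lam ok g) {tau : ℝ} {R : Finset ι} {i : ι} (hi : i ∉ R) :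
    Inv i (Tt tau g R) := by
  intro x a
  unfold Tt
  refine Finset.sum_congr rfl fun A _ => ?_
  by_cases hA : A ⊆ R
  · rw [h.inv A i (fun h' => hi (hA h')) x a]
  · rw [pt_of_not hA, zero_mul, zero_mul]

/-- the pointwise identity for adding `i` -/
theorem add_one (h : Fam lam ok g) {m : ℕ} {tau : ℝ} (h0 : 0 ≤ tau) (h1 : tau < 1) {e : ι → ℕ}
    {R : Finset ι} {i : ι} (hi : i ∉ R) (hR : ok (insert i R)) {x : ∀ i, V i} (hx : W lam x ≠ 0) :
    ∑ A, ∑ B : Fin m → Finset ι, wA tau g (insert i R) x A B
        * (if i ∈ A \ Mc A B then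
            Real.log (g (insert i (Qp e A B i)) x / g (Qp e A B i) x) else 0)
      = ∑ A, ∑ B : Fin m → Finset ι, wA tau g R x A B * (tau * (rr tau g R i A B x
          * Real.log (g (insert i (Qp e A B i)) x / g (Qp e A B i) x))) := by
  have hT := h.Tt_pos h0 h1 R x
  have hT' := h.Tt_pos h0 h1 (insert i R) x
  have hc := comb (m := m) (tau := tau) hi (G := fun C => g C x)
    (fun A hA h0 => h.zero_insert hx hi hR hA h0)
    (fun A B => Real.log (g (insert i (Qp e A B i)) x / g (Qp e A B i) x))
  -- the left-hand side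
  have e1 : ∀ (A : Finset ι) (B : Fin m → Finset ι), wA tau g (insert i R) x A B
        * (if i ∈ A \ Mc A B then
            Real.log (g (insert i (Qp e A B i)) x / g (Qp e A B i) x) else 0)
      = (g (insert i R) x / Tt tau g (insert i R) x ^ m) * (pt tau (insert i R) A * g A x
        * (∏ j, pt tau (insert i R) (B j) * g (B j) x)
        * (if i ∈ A \ Mc A B then Real.log (g (insert i (Qp e (A.erase i)
            (fun j => (B j).erase i) i)) x / g (Qp e (A.erase i) (fun j => (B j).erase i) i) x)
          else 0)) := by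
    intro A B
    unfold wA
    by_cases hA : i ∈ A \ Mc A B
    · rw [if_pos hA, if_pos hA, Qp_erase (Finset.mem_sdiff.1 hA).2]
      ring
    · rw [if_neg hA, if_neg hA, mul_zero, mul_zero, mul_zero]
  simp only [e1]
  simp only [← Finset.mul_sum]
  rw [hc]
  simp only [Finset.mul_sum]
  refine Finset.sum_congr rfl fun A _ => Finset.sum_congr rfl fun B _ => ?_
  -- scalar identity
  have hgR : g (insert i R) x = g R x * rat (fun C => g C x) i R := by
    unfold rat
    by_cases h2 : g R x = 0
    · rw [h2, zero_mul]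
      exact h.zero_insert hx hi hR (Finset.Subset.refl R) h2
    · field_simp
  have hη : Tt tau g (insert i R) x = Tt tau g R x * eta tau g R i x := by
    unfold eta
    field_simp
  have hη0 := h.eta_pos h0 h1 R i x
  unfold wA rr
  rw [hη, hgR, mul_pow]
  have hTm := pow_pos hT m
  have hηm := pow_pos hη0 m
  field_simp

/-- **Step 3** for one pair `(R, i)` -/
theorem step3_pair (h : Fam lam ok g) {m : ℕ} {tau : ℝ} (h0 : 0 ≤ tau) (h1 : tau < 1) {e : ι → ℕ}
    {R : Finset ι} {i : ι} (hi : i ∉ R) (hR : ok (insert i R)) :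
    ∑ x, W lam x * ∑ A, ∑ B : Fin m → Finset ι, wA tau g (insert i R) x A B
        * (if i ∈ A \ Mc A B then
            Real.log (g (insert i (Qp e A B i)) x / g (Qp e A B i) x) else 0)
      ≤ tau * ∑ x, W lam x * ∑ A, ∑ B : Fin m → Finset ι, wA tau g R x A B
          * Ph (rr tau g R i A B x) := by
  -- pointwise
  have hpt : ∀ x, W lam x * ∑ A, ∑ B : Fin m → Finset ι, wA tau g (insert i R) x A B
        * (if i ∈ A \ Mc A B then
            Real.log (g (insert i (Qp e A B i)) x / g (Qp e A B i) x) else 0)
      ≤ tau * (W lam x * ∑ A, ∑ B : Fin m → Finset ι, wA tau g R x A B * Ph (rr tau g R i A B x))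
        + tau * ∑ A, ∑ B : Fin m → Finset ι, W lam x * (wA tau g R x A B
          * (g (insert i (Qp e A B i)) x / g (Qp e A B i) x - 1)) := by
    intro x
    by_cases hx : W lam x = 0
    · rw [hx]
      simp
    · rw [add_one h h0 h1 hi hR hx]
      have e2 : tau * (W lam x * ∑ A, ∑ B : Fin m → Finset ι,
            wA tau g R x A B * Ph (rr tau g R i A B x))
          + tau * ∑ A, ∑ B : Fin m → Finset ι, W lam x * (wA tau g R x A B
            * (g (insert i (Qp e A B i)) x / g (Qp e A B i) x - 1))
          = W lam x * ∑ A, ∑ B : Fin m → Finset ι, wA tau g R x A B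
            * (tau * (Ph (rr tau g R i A B x)
              + (g (insert i (Qp e A B i)) x / g (Qp e A B i) x - 1))) := by
        simp only [Finset.mul_sum, ← Finset.sum_add_distrib]
        refine Finset.sum_congr rfl fun A _ => Finset.sum_congr rfl fun B _ => ?_
        ring
      rw [e2]
      refine mul_le_mul_of_nonneg_left (Finset.sum_le_sum fun A _ => Finset.sum_le_sum
        fun B _ => ?_) (W_nonneg h.l0 x)
      by_cases hw : wA tau g R x A B = 0
      · rw [hw, zero_mul, zero_mul]
      · refine mul_le_mul_of_nonneg_left (mul_le_mul_of_nonneg_left ?_ h0)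
          (h.wA_nonneg h0 h1 R A B x)
        -- the support
        have hAR : A ⊆ R := by
          by_contra hc
          exact hw (by unfold wA; rw [pt_of_not hc]; simp)
        have hiA : i ∉ A := fun h' => hi (hAR h')
        have hr0 := h.rr_nonneg (m := m) h0 h1 R i A B x
        have h3 := mul_log_le (f := rr tau g R i A B x)
          (h := g (insert i (Qp e A B i)) x / g (Qp e A B i) x) hr0 (by
            intro hpos
            have h4 : rat (fun C => g C x) i A ≠ 0 := by
              intro h5
              unfold rr at hpos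
              rw [h5] at hpos
              simp at hpos
            have h6 : g (insert i A) x ≠ 0 := by
              intro h7
              apply h4
              change g (insert i A) x / g A x = 0
              rw [h7, zero_div]
            have hc1 : ok (insert i A) := h.down _ _ (Finset.insert_subset_insert i hAR) hR
            have hQA := Qp_subset e A B i
            have h8 := h.ne_of_subset hx (Finset.insert_subset_insert i hQA) hc1 h6
            have h9 := h.ne_of_subset hx (hQA.trans (Finset.subset_insert i A)) hc1 h6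
            exact div_pos (lt_of_le_of_ne (h.nonneg _ _) h8.symm)
              (lt_of_le_of_ne (h.nonneg _ _) h9.symm))
        have h10 : (if 0 < rr tau g R i A B x then
            g (insert i (Qp e A B i)) x / g (Qp e A B i) x else 0)
            ≤ g (insert i (Qp e A B i)) x / g (Qp e A B i) x := by
          split_ifs
          · exact le_rfl
          · exact div_nonneg (h.nonneg _ _) (h.nonneg _ _)
        unfold Ph
        linarith
  -- the linear term integrates to something nonpositive
  have hlin : ∀ (A : Finset ι) (B : Fin m → Finset ι), ∑ x, W lam x * (wA tau g R x A B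
      * (g (insert i (Qp e A B i)) x / g (Qp e A B i) x - 1)) ≤ 0 := by
    intro A B
    by_cases hAR : A ⊆ R
    swap
    · refine le_of_eq (Finset.sum_eq_zero fun x _ => ?_)
      unfold wA
      rw [pt_of_not hAR]
      simp
    by_cases hBR : ∀ j, B j ⊆ R
    swap
    · obtain ⟨j, hj⟩ := not_forall.1 hBR
      refine le_of_eq (Finset.sum_eq_zero fun x _ => ?_)
      unfold wA
      rw [Finset.prod_eq_zero (Finset.mem_univ j) (by rw [pt_of_not hj, zero_mul])]
      simp
    have hiA : i ∉ A := fun h' => hi (hAR h')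
    set Q := Qp e A B i with hQ
    have hQA : Q ⊆ A := Qp_subset e A B i
    have hiQ : i ∉ Q := fun h' => hiA (hQA h')
    have hQc : ok (insert i Q) := h.down _ _ (Finset.insert_subset_insert i (hQA.trans hAR)) hR
    have hinv : Inv i fun x => wA tau g R x A B / g Q x := by
      intro x a
      change wA tau g R (update x i a) A B / g Q (update x i a) = _
      unfold wA
      rw [h.inv R i hi x a, h.inv A i hiA x a, h.inv Q i hiQ x a, Tt_inv h hi x a,
        Finset.prod_congr rfl fun j _ => by rw [h.inv (B j) i (fun h' => hi (hBR j h')) x a]]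
    have h2 := h.sum_mart hiQ hQc hinv
    have h3 : ∀ x, W lam x * (wA tau g R x A B * (g (insert i Q) x / g Q x - 1))
        = W lam x * (wA tau g R x A B / g Q x * g (insert i Q) x)
          - W lam x * wA tau g R x A B := fun x => by ring
    rw [Finset.sum_congr rfl fun x _ => h3 x, Finset.sum_sub_distrib, h2, ← Finset.sum_sub_distrib]
    refine Finset.sum_nonpos fun x _ => ?_
    rw [← mul_sub]
    refine mul_nonpos_of_nonneg_of_nonpos (W_nonneg h.l0 x) ?_
    by_cases h4 : g Q x = 0
    · rw [h4, mul_zero, zero_sub]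
      linarith [h.wA_nonneg (m := m) h0 h1 R A B x]
    · rw [div_mul_cancel₀ _ h4, sub_self]
  calc _ ≤ ∑ x, (tau * (W lam x * ∑ A, ∑ B : Fin m → Finset ι,
            wA tau g R x A B * Ph (rr tau g R i A B x))
        + tau * ∑ A, ∑ B : Fin m → Finset ι, W lam x * (wA tau g R x A B
          * (g (insert i (Qp e A B i)) x / g (Qp e A B i) x - 1))) :=
        Finset.sum_le_sum fun x _ => hpt x
    _ = tau * ∑ x, W lam x * ∑ A, ∑ B : Fin m → Finset ι, wA tau g R x A B
          * Ph (rr tau g R i A B x)
        + tau * ∑ A, ∑ B : Fin m → Finset ι, ∑ x, W lam x * (wA tau g R x A B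
          * (g (insert i (Qp e A B i)) x / g (Qp e A B i) x - 1)) := by
        rw [Finset.sum_add_distrib, ← Finset.mul_sum, ← Finset.mul_sum]
        congr 2
        rw [Finset.sum_comm]
        exact Finset.sum_congr rfl fun A _ => Finset.sum_comm
    _ ≤ _ := by
        have : tau * ∑ A, ∑ B : Fin m → Finset ι, ∑ x, W lam x * (wA tau g R x A B
          * (g (insert i (Qp e A B i)) x / g (Qp e A B i) x - 1)) ≤ 0 :=
          mul_nonpos_of_nonneg_of_nonpos h0 (Finset.sum_nonpos fun A _ =>
            Finset.sum_nonpos fun B _ => hlin A B)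
        linarith

end Vale.Agent.P042.H461
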