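import Vale.Agent.P042.H461.Core3
import Vale.Agent.P042.H779.Star5

/-!
# P042: the core inequality for abstract families: the four inequalities

Unnormalised form: all quantities are integrals against the planted measure of total mass
`G = Gb lam tau beta g`.
-/

set_option autoImplicit false
set_option linter.unusedSectionVars false

namespace Vale.Agent.P042.H461

open Finset Function

variable {ι : Type*} [Fintype ι] [DecidableEq ι] {V : ι → Type*} [∀ i, Fintype (V i)]
  [∀ i, DecidableEq (V i)] {lam : ∀ i, V i → ℝ} {ok : Finset ι → Prop}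
  {g : Finset ι → (∀ i, V i) → ℝ}

/-- integral of `f (background, sample, point)` against the planted measure -/
noncomputable def SJ (lam : ∀ i, V i → ℝ) (tau : ℝ) (beta : Finset ι → ℝ)
    (g : Finset ι → (∀ i, V i) → ℝ) (f : Finset ι → Finset ι → (∀ i, V i) → ℝ) : ℝ :=
  ∑ R, beta R * ∑ x, W lam x * ∑ A, g R x * (pt tau R A * g A x) * f R A x

/-- posterior density of the sample -/
noncomputable def ud (tau : ℝ) (g : Finset ι → (∀ i, V i) → ℝ) (R : Finset ι) (x : ∀ i, V i)
    (A : Finset ι) : ℝ := g A x / Tt tau g R x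

/-- posterior probability of the sample -/
noncomputable def po (tau : ℝ) (g : Finset ι → (∀ i, V i) → ℝ) (R : Finset ι) (x : ∀ i, V i)
    (A : Finset ι) : ℝ := pt tau R A * ud tau g R x A

/-- the expected size of the core, unnormalised -/
noncomputable def EMc (lam : ∀ i, V i → ℝ) (tau : ℝ) (m : ℕ) (beta : Finset ι → ℝ)
    (g : Finset ι → (∀ i, V i) → ℝ) : ℝ :=
  ∑ R, beta R * ∑ x, W lam x * (g R x * (Tt tau g R x * ∑ i ∈ R, inc (po tau g R x) i ^ (m + 1)))

/-- the separation functional, unnormalised -/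
noncomputable def kapf (lam : ∀ i, V i → ℝ) (tau : ℝ) (m : ℕ) (beta : Finset ι → ℝ)
    (g : Finset ι → (∀ i, V i) → ℝ) : ℝ :=
  ∑ R, ∑ i with i ∉ R, beta (insert i R) * (tau * ∑ x, W lam x * ∑ A,
    ∑ B : Fin m → Finset ι, wA tau g R x A B * Ph (rr tau g R i A B x))

theorem Gb_eq_SJ (tau : ℝ) (beta : Finset ι → ℝ) :
    Gb lam tau beta g = SJ lam tau beta g fun _ _ _ => 1 := by
  unfold Gb SJ Tt
  refine Finset.sum_congr rfl fun R _ => ?_
  congr 1
  refine Finset.sum_congr rfl fun x _ => ?_
  congr 1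
  rw [Finset.mul_sum]
  exact Finset.sum_congr rfl fun A _ => by ring

theorem Fam.sum_po (h : Fam lam ok g) {tau : ℝ} (h0 : 0 ≤ tau) (h1 : tau < 1) (R : Finset ι)
    (x : ∀ i, V i) : ∑ A, po tau g R x A = 1 := by
  have hT := h.Tt_pos h0 h1 R x
  unfold po ud
  have e : ∀ A, pt tau R A * (g A x / Tt tau g R x) = pt tau R A * g A x / Tt tau g R x :=
    fun A => by ring
  rw [Finset.sum_congr rfl fun A _ => e A, ← Finset.sum_div]
  exact div_self hT.ne'

theorem Fam.po_nonneg (h : Fam lam ok g) {tau : ℝ} (h0 : 0 ≤ tau) (h1 : tau < 1) (R : Finset ι)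
    (x : ∀ i, V i) (A : Finset ι) : 0 ≤ po tau g R x A :=
  mul_nonneg (pt_nonneg h0 h1.le R A) (div_nonneg (h.nonneg _ _) (h.Tt_pos h0 h1 R x).le)

theorem po_of_not {tau : ℝ} {R : Finset ι} {x : ∀ i, V i} {A : Finset ι} (hA : ¬A ⊆ R) :
    po tau g R x A = 0 := by
  unfold po
  rw [pt_of_not hA, zero_mul]

/-- weights of configurations through the posterior -/
theorem Fam.wA_eq (h : Fam lam ok g) {m : ℕ} {tau : ℝ} (h0 : 0 ≤ tau) (h1 : tau < 1)
    (R : Finset ι) (x : ∀ i, V i) (A : Finset ι) (B : Fin m → Finset ι) :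
    wA tau g R x A B
      = g R x * Tt tau g R x * (po tau g R x A * ∏ j, po tau g R x (B j)) := by
  have hT := h.Tt_pos h0 h1 R x
  have e : ∏ j, po tau g R x (B j) = (∏ j, pt tau R (B j) * g (B j) x) / Tt tau g R x ^ m := by
    have e1 : ∀ j, po tau g R x (B j) = pt tau R (B j) * g (B j) x / Tt tau g R x := by
      intro j
      unfold po ud
      ring
    rw [Finset.prod_congr rfl fun j _ => e1 j, Finset.prod_div_distrib, Finset.prod_const,
      Finset.card_univ, Fintype.card_fin]
  rw [e]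
  unfold wA po ud
  have := pow_pos hT m
  field_simp

theorem Fam.sum_wA (h : Fam lam ok g) {m : ℕ} {tau : ℝ} (h0 : 0 ≤ tau) (h1 : tau < 1)
    (R : Finset ι) (x : ∀ i, V i) (A : Finset ι) :
    ∑ B : Fin m → Finset ι, wA tau g R x A B = g R x * (pt tau R A * g A x) := by
  have hT := h.Tt_pos h0 h1 R x
  simp only [h.wA_eq h0 h1]
  rw [← Finset.mul_sum, ← Finset.mul_sum, sum_pi_prod, h.sum_po h0 h1, one_pow]
  unfold po ud
  field_simp

/-- **Inequality 1** -/
theorem ineq1 (h : Fam lam ok g) {tau : ℝ} (h0 : 0 ≤ tau) (h1 : tau < 1) {beta : Finset ι → ℝ}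
    (hb0 : ∀ R, 0 ≤ beta R) (hbd : ∀ R, ¬ok R → beta R = 0) (hb1 : ∑ R, beta R ≤ 1) :
    Gb lam tau beta g * Real.log (Gb lam tau beta g)
      ≤ SJ lam tau beta g (fun _ A x => Real.log (g A x))
        - SJ lam tau beta g (fun R A x => Real.log (ud tau g R x A)) := by
  refine (step1 h h0 h1 hb0 hbd hb1).trans (le_of_eq ?_)
  unfold SJ
  rw [← Finset.sum_sub_distrib]
  refine Finset.sum_congr rfl fun R _ => ?_
  rw [← mul_sub, ← Finset.sum_sub_distrib]
  congr 1
  refine Finset.sum_congr rfl fun x _ => ?_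
  rw [← mul_sub, ← Finset.sum_sub_distrib]
  congr 1
  have hT := h.Tt_pos h0 h1 R x
  have e : ∀ A, g R x * (pt tau R A * g A x) * Real.log (g A x)
      - g R x * (pt tau R A * g A x) * Real.log (ud tau g R x A)
      = g R x * Real.log (Tt tau g R x) * (pt tau R A * g A x) := by
    intro A
    by_cases hA : g A x = 0
    · rw [hA]
      ring
    · unfold ud
      rw [Real.log_div hA hT.ne']
      ring
  rw [Finset.sum_congr rfl fun A _ => e A, ← Finset.mul_sum]
  change g R x * (Tt tau g R x * Real.log (Tt tau g R x))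
    = g R x * Real.log (Tt tau g R x) * Tt tau g R x
  ring

/-- **Inequality 3** -/
theorem ineq3 (h : Fam lam ok g) {tau θ : ℝ} (h0 : 0 < tau) (h1 : tau < 1) (hθ : 0 < θ) (m : ℕ)
    (hc : 0 ≤ Real.log (θ / tau) - 1) {beta : Finset ι → ℝ} (hb0 : ∀ R, 0 ≤ beta R) :
    (Real.log (θ / tau) - 1) * EMc lam tau m beta g
      ≤ SJ lam tau beta g (fun R A x => Real.log (ud tau g R x A))
        + (Real.log (θ / tau) - 1) * θ ^ m * SJ lam tau beta g (fun _ A _ => (A.card : ℝ)) := by
  unfold EMc SJ
  rw [Finset.mul_sum, Finset.mul_sum, ← Finset.sum_add_distrib]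
  refine Finset.sum_le_sum fun R _ => ?_
  have e1 : ∀ a b c e : ℝ, a * (b * c) = b * (a * c) := fun a b c e => by ring
  rw [e1 _ _ _ 0, e1 ((Real.log (θ / tau) - 1) * θ ^ m) _ _ 0, ← mul_add]
  refine mul_le_mul_of_nonneg_left ?_ (hb0 R)
  rw [Finset.mul_sum, Finset.mul_sum, ← Finset.sum_add_distrib]
  refine Finset.sum_le_sum fun x _ => ?_
  rw [e1 _ _ _ 0, e1 ((Real.log (θ / tau) - 1) * θ ^ m) _ _ 0, ← mul_add]
  refine mul_le_mul_of_nonneg_left ?_ (W_nonneg h.l0 x)
  have hT := h.Tt_pos h0.le h1 R x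
  have hs := step2 h0 h1 hθ R (u := fun A => ud tau g R x A)
    (fun A => div_nonneg (h.nonneg _ _) hT.le) (h.sum_po h0.le h1 R x) m hc
  have hs' := mul_le_mul_of_nonneg_left hs (mul_nonneg (h.nonneg R x) hT.le)
  have e2 : ∑ A, g R x * (pt tau R A * g A x) * Real.log (ud tau g R x A)
      = g R x * Tt tau g R x * ∑ A, pt tau R A * (ud tau g R x A * Real.log (ud tau g R x A)) := by
    rw [Finset.mul_sum]
    refine Finset.sum_congr rfl fun A _ => ?_
    unfold ud
    field_simp
  have e3 : ∑ A, g R x * (pt tau R A * g A x) * (A.card : ℝ)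
      = g R x * Tt tau g R x * ∑ i ∈ R, inc (po tau g R x) i := by
    unfold inc
    rw [Finset.sum_comm, Finset.mul_sum]
    refine Finset.sum_congr rfl fun A _ => ?_
    by_cases hA : A ⊆ R
    · have e4 : ∑ i ∈ R, (if i ∈ A then po tau g R x A else 0) = (A.card : ℝ) * po tau g R x A := by
        rw [← Finset.sum_filter, Finset.filter_mem_eq_inter, Finset.inter_eq_right.2 hA,
          Finset.sum_const, nsmul_eq_mul]
      rw [e4]
      unfold po ud
      field_simp
    · rw [pt_of_not hA, po_of_not hA]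
      simp
  rw [e2, e3]
  calc _ = g R x * Tt tau g R x * ((Real.log (θ / tau) - 1)
        * ∑ i ∈ R, inc (fun A => pt tau R A * ud tau g R x A) i ^ (m + 1)) := by
        change (Real.log (θ / tau) - 1) * (g R x * (Tt tau g R x
          * ∑ i ∈ R, inc (fun A => pt tau R A * ud tau g R x A) i ^ (m + 1))) = _
        ring
    _ ≤ _ := hs'
    _ = _ := by
        change g R x * Tt tau g R x * (_ + (Real.log (θ / tau) - 1) * θ ^ m
          * ∑ i ∈ R, inc (po tau g R x) i) = _
        ring

/-- **Inequality 2** -/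
theorem ineq2 (h : Fam lam ok g) {tau : ℝ} (h0 : 0 < tau) (h1 : tau < 1) (m : ℕ)
    {beta : Finset ι → ℝ} (hb0 : ∀ R, 0 ≤ beta R) (hbd : ∀ R, ¬ok R → beta R = 0) {gL : ℝ}
    (hgL : ∀ A, ok A → ∀ x, W lam x ≠ 0 → g A x ≤ Real.exp (gL * A.card)) :
    SJ lam tau beta g (fun _ A x => Real.log (g A x))
      ≤ gL * EMc lam tau m beta g + kapf lam tau m beta g := by
  classical
  -- an order of the coordinates
  obtain ⟨e, he⟩ : ∃ e : ι → ℕ, Injective e :=
    ⟨fun i => (Fintype.equivFin ι i : ℕ), fun i j hij =>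
      (Fintype.equivFin ι).injective (Fin.ext hij)⟩
  set ly : (∀ i, V i) → Finset ι → (Fin m → Finset ι) → ι → ℝ := fun x A B i =>
    Real.log (g (insert i (Qp e A B i)) x / g (Qp e A B i) x) with hly
  -- pointwise splitting
  have key : ∀ R x, ok R → W lam x ≠ 0 →
      ∑ A, g R x * (pt tau R A * g A x) * Real.log (g A x)
        ≤ gL * (g R x * (Tt tau g R x * ∑ i ∈ R, inc (po tau g R x) i ^ (m + 1)))
          + ∑ i ∈ R, ∑ A, ∑ B : Fin m → Finset ι, wA tau g R x A B
            * (if i ∈ A \ Mc A B then ly x A B i else 0) := by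
    intro R x hR hx
    have hT := h.Tt_pos h0.le h1 R x
    have e1 : ∑ A, g R x * (pt tau R A * g A x) * Real.log (g A x)
        = ∑ A, ∑ B : Fin m → Finset ι, wA tau g R x A B * Real.log (g A x) := by
      refine Finset.sum_congr rfl fun A _ => ?_
      rw [← Finset.sum_mul, h.sum_wA h0.le h1]
    have e2 : ∑ i ∈ R, ∑ A, ∑ B : Fin m → Finset ι, wA tau g R x A B
            * (if i ∈ A \ Mc A B then ly x A B i else 0)
        = ∑ A, ∑ B : Fin m → Finset ι, wA tau g R x A B
            * ∑ i ∈ R, (if i ∈ A \ Mc A B then ly x A B i else 0) := by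
      rw [Finset.sum_comm]
      refine Finset.sum_congr rfl fun A _ => ?_
      rw [Finset.sum_comm]
      refine Finset.sum_congr rfl fun B _ => ?_
      rw [Finset.mul_sum]
    have e3 : g R x * (Tt tau g R x * ∑ i ∈ R, inc (po tau g R x) i ^ (m + 1))
        = ∑ A, ∑ B : Fin m → Finset ι, wA tau g R x A B * ((Mc A B).card : ℝ) := by
      have e4 := sum_card_Mc (m := m) (po tau g R x)
      have e5 : ∑ i ∈ R, inc (po tau g R x) i ^ (m + 1)
          = ∑ i, inc (po tau g R x) i ^ (m + 1) := by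
        refine Finset.sum_subset (Finset.subset_univ R) fun i _ hi => ?_
        have : inc (po tau g R x) i = 0 := by
          refine Finset.sum_eq_zero fun A _ => ?_
          by_cases hA : i ∈ A
          · rw [if_pos hA, po_of_not fun h' => hi (h' hA)]
          · rw [if_neg hA]
        rw [this, zero_pow (by omega)]
      rw [e5, ← e4, Finset.mul_sum, Finset.mul_sum]
      refine Finset.sum_congr rfl fun A _ => ?_
      rw [Finset.mul_sum, Finset.mul_sum]
      refine Finset.sum_congr rfl fun B _ => ?_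
      rw [h.wA_eq h0.le h1]
      ring
    rw [e1, e2, e3, Finset.mul_sum, ← Finset.sum_add_distrib]
    refine Finset.sum_le_sum fun A _ => ?_
    rw [Finset.mul_sum, ← Finset.sum_add_distrib]
    refine Finset.sum_le_sum fun B _ => ?_
    by_cases hw : wA tau g R x A B = 0
    · rw [hw]
      simp
    have hw0 := h.wA_nonneg h0.le h1 R A B x
    have hAR : A ⊆ R := by
      by_contra hc
      exact hw (by unfold wA; rw [pt_of_not hc]; simp)
    have hgA : g A x ≠ 0 := by
      intro hc
      exact hw (by unfold wA; rw [hc]; simp)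
    have hokA : ok A := h.down _ _ hAR hR
    have hne : ∀ C, C ⊆ A → g C x ≠ 0 := fun C hC => h.ne_of_subset hx hC hokA hgA
    have e6 := tele' he (fun C => Real.log (g C x)) A B
    have e7 : ∑ i ∈ A \ Mc A B, (Real.log (g (insert i (Qp e A B i)) x)
        - Real.log (g (Qp e A B i) x)) = ∑ i ∈ R, (if i ∈ A \ Mc A B then ly x A B i else 0) := by
      rw [← Finset.sum_filter, Finset.filter_mem_eq_inter,
        Finset.inter_eq_right.2 (Finset.sdiff_subset.trans hAR)]
      refine Finset.sum_congr rfl fun i hi => ?_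
      have hiA := (Finset.mem_sdiff.1 hi).1
      simp only [hly]
      rw [Real.log_div]
      · exact hne _ (Finset.insert_subset hiA (Qp_subset e A B i))
      · exact hne _ (Qp_subset e A B i)
    have e8 : Real.log (g (Mc A B) x) ≤ gL * ((Mc A B).card : ℝ) := by
      have e9 := hgL (Mc A B) (h.down _ _ (Mc_subset A B) hokA) x hx
      have e10 : 0 < g (Mc A B) x := lt_of_le_of_ne (h.nonneg _ _) (hne _ (Mc_subset A B)).symm
      have e11 := Real.log_le_log e10 e9
      rwa [Real.log_exp] at e11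
    have e12 : Real.log (g A x) ≤ gL * ((Mc A B).card : ℝ)
        + ∑ i ∈ R, (if i ∈ A \ Mc A B then ly x A B i else 0) := by
      rw [← e7]
      have e6' : Real.log (g A x) - Real.log (g (Mc A B) x)
        = ∑ i ∈ A \ Mc A B, (Real.log (g (insert i (Qp e A B i)) x)
          - Real.log (g (Qp e A B i) x)) := e6
      linarith
    calc wA tau g R x A B * Real.log (g A x)
        ≤ wA tau g R x A B * (gL * ((Mc A B).card : ℝ)
          + ∑ i ∈ R, (if i ∈ A \ Mc A B then ly x A B i else 0)) :=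
          mul_le_mul_of_nonneg_left e12 hw0
      _ = _ := by ring
  -- summation
  have hsum : SJ lam tau beta g (fun _ A x => Real.log (g A x))
      ≤ gL * EMc lam tau m beta g + ∑ R, ∑ i ∈ R, beta R * ∑ x, W lam x * ∑ A,
          ∑ B : Fin m → Finset ι, wA tau g R x A B
            * (if i ∈ A \ Mc A B then ly x A B i else 0) := by
    unfold SJ EMc
    rw [Finset.mul_sum, ← Finset.sum_add_distrib]
    refine Finset.sum_le_sum fun R _ => ?_
    by_cases hR : ok R
    swap
    · rw [hbd R hR]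
      simp
    have e1 : ∑ i ∈ R, beta R * ∑ x, W lam x * ∑ A, ∑ B : Fin m → Finset ι, wA tau g R x A B
            * (if i ∈ A \ Mc A B then ly x A B i else 0)
        = beta R * ∑ x, W lam x * ∑ i ∈ R, ∑ A, ∑ B : Fin m → Finset ι, wA tau g R x A B
            * (if i ∈ A \ Mc A B then ly x A B i else 0) := by
      rw [← Finset.mul_sum, Finset.sum_comm]
      congr 1
      refine Finset.sum_congr rfl fun x _ => ?_
      rw [Finset.mul_sum]
    have e2 : ∀ a b c : ℝ, a * (b * c) = b * (a * c) := fun a b c => by ring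
    rw [e1, e2 gL, ← mul_add]
    refine mul_le_mul_of_nonneg_left ?_ (hb0 R)
    rw [Finset.mul_sum, ← Finset.sum_add_distrib]
    refine Finset.sum_le_sum fun x _ => ?_
    rw [e2 gL, ← mul_add]
    by_cases hx : W lam x = 0
    · rw [hx]
      simp
    · exact mul_le_mul_of_nonneg_left (key R x hR hx) (W_nonneg h.l0 x)
  refine hsum.trans (add_le_add le_rfl ?_)
  rw [sum_pairs (fun R i => beta R * ∑ x, W lam x * ∑ A, ∑ B : Fin m → Finset ι,
    wA tau g R x A B * (if i ∈ A \ Mc A B then ly x A B i else 0))]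
  unfold kapf
  refine Finset.sum_le_sum fun R _ => Finset.sum_le_sum fun i hi => ?_
  have hiR : i ∉ R := (Finset.mem_filter.1 hi).2
  by_cases hok : ok (insert i R)
  · exact mul_le_mul_of_nonneg_left (step3_pair h h0.le h1 hiR hok) (hb0 _)
  · rw [hbd _ hok, zero_mul, zero_mul]

end Vale.Agent.P042.H461
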