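import Vale.Agent.P042.H461.Core4

/-!
# P042: the core inequality for abstract families: the fourth inequality and the summary
-/

set_option autoImplicit false
set_option linter.unusedSectionVars false

namespace Vale.Agent.P042.H461

open Finset Function

variable {ι : Type*} [Fintype ι] [DecidableEq ι] {V : ι → Type*} [∀ i, Fintype (V i)]
  [∀ i, DecidableEq (V i)] {lam : ∀ i, V i → ℝ} {ok : Finset ι → Prop}
  {g : Finset ι → (∀ i, V i) → ℝ}

/-- the reaction functional, unnormalised: sum over `i` outside the background `R` of the relative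
entropies of the law of `x i` given the background, and given the sample -/
noncomputable def DJf (lam : ∀ i, V i → ℝ) (tau : ℝ) (beta : Finset ι → ℝ)
    (g : Finset ι → (∀ i, V i) → ℝ) : ℝ :=
  ∑ R, ∑ i with i ∉ R, beta (insert i R) * ∑ x, W lam x * ∑ A, g R x * (pt tau R A * g A x)
    * (Ph (g (insert i R) x / g R x) + Ph (g (insert i A) x / g A x))

theorem Fam.eta_eq (h : Fam lam ok g) {tau : ℝ} (h0 : 0 ≤ tau) (h1 : tau < 1) {R : Finset ι}
    {i : ι} (hi : i ∉ R) (hR : ok (insert i R)) {x : ∀ i, V i} (hx : W lam x ≠ 0) :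
    eta tau g R i x = 1 - tau + tau * ∑ A ∈ R.powerset, po tau g R x A * rat (fun C => g C x) i A := by
  have hT := h.Tt_pos h0 h1 R x
  have e1 : ∑ A ∈ R.powerset, po tau g R x A * rat (fun C => g C x) i A
      = ∑ A, po tau g R x A * rat (fun C => g C x) i A := by
    refine Finset.sum_subset (Finset.subset_univ _) fun A _ hA => ?_
    rw [po_of_not fun h' => hA (Finset.mem_powerset.2 h'), zero_mul]
  rw [e1]
  have e2 : ∀ A, po tau g R x A * rat (fun C => g C x) i A
      = pt tau R A * g (insert i A) x / Tt tau g R x := by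
    intro A
    by_cases hA : A ⊆ R
    · unfold po ud rat
      by_cases h2 : g A x = 0
      · rw [h2, h.zero_insert hx hi hR hA h2]
        simp
      · field_simp
    · rw [po_of_not hA, pt_of_not hA]
      simp
  rw [Finset.sum_congr rfl fun A _ => e2 A, ← Finset.sum_div]
  have e3 : 1 - tau = ∑ A, (1 - tau) * (pt tau R A * g A x) / Tt tau g R x := by
    rw [← Finset.sum_div, ← Finset.mul_sum]
    change 1 - tau = (1 - tau) * Tt tau g R x / Tt tau g R x
    rw [mul_div_cancel_right₀ _ hT.ne']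
  unfold eta
  rw [Tt_insert hi]
  rw [div_eq_iff hT.ne', add_mul, sub_mul, one_mul, mul_assoc, div_mul_cancel₀ _ hT.ne']
  have e4 : ∑ A, pt tau R A * ((1 - tau) * g A x + tau * g (insert i A) x)
      = (1 - tau) * Tt tau g R x + tau * ∑ A, pt tau R A * g (insert i A) x := by
    unfold Tt
    rw [Finset.mul_sum, Finset.mul_sum, ← Finset.sum_add_distrib]
    exact Finset.sum_congr rfl fun A _ => by ring
  rw [e4]
  ring

/-- the replica bound for one pair `(R, i)` and one point -/
theorem Fam.rep_bound (h : Fam lam ok g) {tau : ℝ} (h0 : 0 < tau) {m : ℕ}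
    (hm : 1 ≤ m) (hmt : 16 * m * tau ≤ 1) {L : ℝ} (hL : 1 ≤ L)
    (hatom : ∀ i a, lam i a = 0 ∨ Real.exp (-L) ≤ lam i a) {R : Finset ι}
    {i : ι} (hi : i ∉ R) (hR : ok (insert i R)) {x : ∀ i, V i} (hx : W lam x ≠ 0) :
    ∑ A, ∑ B : Fin m → Finset ι, wA tau g R x A B * Ph (rr tau g R i A B x)
      ≤ 1100 * (m ^ 2 * L / tau) * ∑ A, g R x * (pt tau R A * g A x)
          * (Ph (g (insert i R) x / g R x) + Ph (g (insert i A) x / g A x))
        + 4 * ((15 * tau) ^ m) ^ 2 * (g R x * Tt tau g R x) := by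
  have hm' : (1 : ℝ) ≤ m := by exact_mod_cast hm
  have h1 : tau < 1 := by nlinarith
  have hT := h.Tt_pos h0.le h1 R x
  have hat : Real.exp (-L) ≤ lam i (x i) := (hatom i (x i)).resolve_left (W_ne hx i)
  set s := R.powerset with hs
  set r : Finset ι → ℝ := fun A => rat (fun C => g C x) i A with hr
  have hst := H779.star (m := m) (τ := tau) (L := L) s (po tau g R x) r
    (sR := rat (fun C => g C x) i R) hm hL h0 hmt
    (fun A _ => h.po_nonneg h0.le h1 R x A)
    (by
      rw [hs, Finset.sum_subset (Finset.subset_univ _) (fun A _ hA =>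
        po_of_not fun h' => hA (Finset.mem_powerset.2 h'))]
      exact h.sum_po h0.le h1 R x)
    (fun A _ => h.rat_nonneg x i A)
    (fun A hA => by
      have hAR := Finset.mem_powerset.1 hA
      exact h.ratio_le (fun h' => hi (hAR h')) (h.down _ _ (Finset.insert_subset_insert i hAR) hR)
        hat)
    (h.rat_nonneg x i R) (h.ratio_le hi hR hat)
  -- the left-hand side
  have e1 : ∑ A, ∑ B : Fin m → Finset ι, wA tau g R x A B * Ph (rr tau g R i A B x)
      = g R x * Tt tau g R x * ∑ A ∈ s, po tau g R x A * ∑ α ∈ H779.reps m s,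
        (∏ j, po tau g R x (α j)) * H779.phi (rat (fun C => g C x) i R * r A
          * H779.PiQ tau (∑ A ∈ s, po tau g R x A * r A) (fun j => r (α j))) := by
    have e2 : ∀ A, ∑ B : Fin m → Finset ι, wA tau g R x A B * Ph (rr tau g R i A B x)
        = g R x * Tt tau g R x * (po tau g R x A * ∑ α ∈ H779.reps m s,
        (∏ j, po tau g R x (α j)) * H779.phi (rat (fun C => g C x) i R * r A
          * H779.PiQ tau (∑ A ∈ s, po tau g R x A * r A) (fun j => r (α j)))) := by
      intro A
      rw [Finset.mul_sum, Finset.mul_sum, ← Finset.sum_subset (Finset.subset_univ (H779.reps m s))]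
      · refine Finset.sum_congr rfl fun B _ => ?_
        rw [h.wA_eq h0.le h1]
        have e3 : rr tau g R i A B x = rat (fun C => g C x) i R * r A
          * H779.PiQ tau (∑ A ∈ s, po tau g R x A * r A) (fun j => r (B j)) := by
          unfold rr rep qf H779.PiQ
          rw [h.eta_eq h0.le h1 hi hR hx]
          simp only [hr, hs]
          ring
        rw [e3]
        change g R x * Tt tau g R x * (po tau g R x A * ∏ j, po tau g R x (B j)) * H779.phi _ = _
        ring
      · intro B _ hB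
        have hB' : ¬∀ j, B j ∈ s := fun h' => hB ((H779.mem_reps s).2 h')
        obtain ⟨j, hj⟩ := not_forall.1 hB'
        rw [h.wA_eq h0.le h1, Finset.prod_eq_zero (Finset.mem_univ j)
          (po_of_not fun h' => hj (Finset.mem_powerset.2 h'))]
        ring
    rw [Finset.sum_congr rfl fun A _ => e2 A, ← Finset.mul_sum]
    congr 1
    refine (Finset.sum_subset (Finset.subset_univ _) fun A _ hA => ?_).symm
    rw [po_of_not fun h' => hA (Finset.mem_powerset.2 h'), zero_mul]
  rw [e1]
  have e4 := mul_le_mul_of_nonneg_left hst (mul_nonneg (h.nonneg R x) hT.le)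
  refine e4.trans (le_of_eq ?_)
  -- the right-hand side
  have e5 : ∑ A, g R x * (pt tau R A * g A x)
          * (Ph (g (insert i R) x / g R x) + Ph (g (insert i A) x / g A x))
      = g R x * Tt tau g R x * (Ph (g (insert i R) x / g R x)
        + ∑ A ∈ s, po tau g R x A * Ph (g (insert i A) x / g A x)) := by
    have e6 : ∑ A ∈ s, po tau g R x A * Ph (g (insert i A) x / g A x)
        = ∑ A, po tau g R x A * Ph (g (insert i A) x / g A x) := by
      refine Finset.sum_subset (Finset.subset_univ _) fun A _ hA => ?_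
      rw [po_of_not fun h' => hA (Finset.mem_powerset.2 h'), zero_mul]
    have e7 : Ph (g (insert i R) x / g R x)
        = ∑ A, po tau g R x A * Ph (g (insert i R) x / g R x) := by
      rw [← Finset.sum_mul, h.sum_po h0.le h1, one_mul]
    rw [e6]
    conv_rhs => rw [e7, ← Finset.sum_add_distrib, Finset.mul_sum]
    refine Finset.sum_congr rfl fun A _ => ?_
    unfold po ud
    field_simp
  rw [e5]
  change g R x * Tt tau g R x * (1100 * (m ^ 2 * L / tau) * (Ph (g (insert i R) x / g R x)
    + ∑ A ∈ s, po tau g R x A * Ph (g (insert i A) x / g A x)) + 4 * ((15 * tau) ^ m) ^ 2) = _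
  ring

/-- **Inequality 4** -/
theorem ineq4 (h : Fam lam ok g) {tau : ℝ} (h0 : 0 < tau) {m : ℕ}
    (hm : 1 ≤ m) (hmt : 16 * m * tau ≤ 1) {L : ℝ} (hL : 1 ≤ L)
    (hatom : ∀ i a, lam i a = 0 ∨ Real.exp (-L) ≤ lam i a)
    {beta : Finset ι → ℝ} (hb0 : ∀ R, 0 ≤ beta R) (hbd : ∀ R, ¬ok R → beta R = 0) :
    kapf lam tau m beta g ≤ 1100 * (m ^ 2 * L) * DJf lam tau beta g
      + 4 * tau * ((15 * tau) ^ m) ^ 2
        * ∑ R, ∑ i with i ∉ R, beta (insert i R) * ∑ x, W lam x * (g R x * Tt tau g R x) := by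
  unfold kapf DJf
  rw [Finset.mul_sum, Finset.mul_sum, ← Finset.sum_add_distrib]
  refine Finset.sum_le_sum fun R _ => ?_
  rw [Finset.mul_sum, Finset.mul_sum, ← Finset.sum_add_distrib]
  refine Finset.sum_le_sum fun i hi => ?_
  have hiR : i ∉ R := (Finset.mem_filter.1 hi).2
  by_cases hok : ok (insert i R)
  swap
  · rw [hbd _ hok]
    simp
  have e1 : ∀ a b c : ℝ, a * (b * c) = b * (a * c) := fun a b c => by ring
  rw [e1 (1100 * (m ^ 2 * L)), e1 (4 * tau * ((15 * tau) ^ m) ^ 2), ← mul_add]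
  refine mul_le_mul_of_nonneg_left ?_ (hb0 _)
  rw [Finset.mul_sum, Finset.mul_sum, Finset.mul_sum, ← Finset.sum_add_distrib]
  refine Finset.sum_le_sum fun x _ => ?_
  rw [e1 tau, e1 (1100 * (m ^ 2 * L)), e1 (4 * tau * ((15 * tau) ^ m) ^ 2), ← mul_add]
  by_cases hx : W lam x = 0
  · rw [hx]
    simp
  refine mul_le_mul_of_nonneg_left ?_ (W_nonneg h.l0 x)
  have h2 := mul_le_mul_of_nonneg_left (h.rep_bound h0 hm hmt hL hatom hiR hok hx) h0.le
  refine h2.trans (le_of_eq ?_)
  have h3 : tau * (1100 * (m ^ 2 * L / tau)) = 1100 * (m ^ 2 * L) := by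
    field_simp
  rw [mul_add, ← mul_assoc, h3]
  ring

/-- the error term of inequality 4 -/
theorem err4 (h : Fam lam ok g) {tau : ℝ} (h0 : 0 ≤ tau) (h1 : tau < 1)
    {beta : Finset ι → ℝ} (hb0 : ∀ R, 0 ≤ beta R) {sr : ι → ℝ} (hs0 : ∀ i, 0 ≤ sr i)
    (hs : ∀ R i, i ∉ R → beta (insert i R) ≤ sr i * beta R) :
    ∑ R, ∑ i with i ∉ R, beta (insert i R) * ∑ x, W lam x * (g R x * Tt tau g R x)
      ≤ (∑ i, sr i) * Gb lam tau beta g := by
  unfold Gb
  rw [Finset.mul_sum]
  refine Finset.sum_le_sum fun R _ => ?_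
  have hn : 0 ≤ ∑ x, W lam x * (g R x * Tt tau g R x) :=
    Finset.sum_nonneg fun x _ => mul_nonneg (W_nonneg h.l0 x)
      (mul_nonneg (h.nonneg _ _) (h.Tt_pos h0 h1 R x).le)
  calc ∑ i with i ∉ R, beta (insert i R) * ∑ x, W lam x * (g R x * Tt tau g R x)
      ≤ ∑ i with i ∉ R, sr i * (beta R * ∑ x, W lam x * (g R x * Tt tau g R x)) := by
        refine Finset.sum_le_sum fun i hi => ?_
        rw [← mul_assoc]
        exact mul_le_mul_of_nonneg_right (hs R i (Finset.mem_filter.1 hi).2) hn
    _ ≤ ∑ i, sr i * (beta R * ∑ x, W lam x * (g R x * Tt tau g R x)) :=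
        Finset.sum_le_sum_of_subset_of_nonneg (Finset.subset_univ _) fun i _ _ =>
          mul_nonneg (hs0 i) (mul_nonneg (hb0 R) hn)
    _ = _ := by rw [← Finset.sum_mul]

end Vale.Agent.P042.H461
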