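import Vale.Agent.P042.H461.Core5

/-!
# P042: the core inequality for abstract families: normalised summary

`EJ f` = mean of `f (background R, sample A, point x)` under the planted law.
-/

set_option autoImplicit false
set_option linter.unusedSectionVars false

namespace Vale.Agent.P042.H461

open Finset Function

variable {ι : Type*} [Fintype ι] [DecidableEq ι] {V : ι → Type*} [∀ i, Fintype (V i)]
  [∀ i, DecidableEq (V i)] {lam : ∀ i, V i → ℝ} {ok : Finset ι → Prop}
  {g : Finset ι → (∀ i, V i) → ℝ}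

/-- mean under the planted law -/
noncomputable def EJ (lam : ∀ i, V i → ℝ) (tau : ℝ) (beta : Finset ι → ℝ)
    (g : Finset ι → (∀ i, V i) → ℝ) (f : Finset ι → Finset ι → (∀ i, V i) → ℝ) : ℝ :=
  SJ lam tau beta g f / Gb lam tau beta g

theorem Fam.Gb_nonneg (h : Fam lam ok g) {tau : ℝ} (h0 : 0 ≤ tau) (h1 : tau < 1)
    {beta : Finset ι → ℝ} (hb0 : ∀ R, 0 ≤ beta R) : 0 ≤ Gb lam tau beta g :=
  Finset.sum_nonneg fun R _ => mul_nonneg (hb0 R) (Finset.sum_nonneg fun x _ =>
    mul_nonneg (W_nonneg h.l0 x) (mul_nonneg (h.nonneg _ _) (h.Tt_pos h0 h1 R x).le))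

/-- `G` is at least the mass of the empty background -/
theorem Fam.le_Gb (h : Fam lam ok g) {tau : ℝ} (h0 : 0 ≤ tau) (h1 : tau < 1)
    {beta : Finset ι → ℝ} (hb0 : ∀ R, 0 ≤ beta R) : beta ∅ ≤ Gb lam tau beta g := by
  have h2 : beta ∅ * ∑ x, W lam x * (g ∅ x * Tt tau g ∅ x) ≤ Gb lam tau beta g :=
    Finset.single_le_sum (f := fun R => beta R * ∑ x, W lam x * (g R x * Tt tau g R x))
      (fun R _ => mul_nonneg (hb0 R) (Finset.sum_nonneg fun x _ => mul_nonneg (W_nonneg h.l0 x)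
        (mul_nonneg (h.nonneg _ _) (h.Tt_pos h0 h1 R x).le))) (Finset.mem_univ ∅)
  refine le_trans (le_of_eq ?_) h2
  have e1 : ∀ x, Tt tau g ∅ x = 1 := by
    intro x
    unfold Tt
    rw [Finset.sum_eq_single ∅]
    · rw [pt_of_subset (Finset.Subset.refl _), h.one]
      simp
    · intro A _ hA
      rw [pt_of_not fun h' => hA (Finset.subset_empty.1 h'), zero_mul]
    · intro h'
      exact absurd (Finset.mem_univ _) h'
  have e2 : ∑ x, W lam x * (g ∅ x * Tt tau g ∅ x) = 1 := by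
    rw [← sum_W h.l1]
    exact Finset.sum_congr rfl fun x _ => by rw [e1, h.one]; ring
  rw [e2, mul_one]

/-- **THE FOUR INEQUALITIES** (block [A], abstract family).
`v = log G`, `e = E log g_A`, `K = E KL(posterior | tau-random subset)`,
`EM = E ∑ (posterior inclusion probability)^(m+1)`, `kap` = separation functional. -/
theorem core_abs (h : Fam lam ok g) {tau θ : ℝ} (h0 : 0 < tau) {m : ℕ} (hm : 1 ≤ m)
    (hmt : 16 * m * tau ≤ 1) (hθ : 0 < θ) (hc : 0 ≤ Real.log (θ / tau) - 1)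
    {L : ℝ} (hL : 1 ≤ L) (hatom : ∀ i a, lam i a = 0 ∨ Real.exp (-L) ≤ lam i a)
    {gL : ℝ} (hgL : ∀ A, ok A → ∀ x, W lam x ≠ 0 → g A x ≤ Real.exp (gL * A.card))
    {beta : Finset ι → ℝ} (hb0 : ∀ R, 0 ≤ beta R) (hbd : ∀ R, ¬ok R → beta R = 0)
    (hb1 : ∑ R, beta R ≤ 1) {sr : ι → ℝ} (hs0 : ∀ i, 0 ≤ sr i)
    (hs : ∀ R i, i ∉ R → beta (insert i R) ≤ sr i * beta R)
    (hG : 0 < Gb lam tau beta g) :
    (Real.log (Gb lam tau beta g)
      ≤ EJ lam tau beta g (fun _ A x => Real.log (g A x))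
        - EJ lam tau beta g (fun R A x => Real.log (ud tau g R x A))) ∧
    (EJ lam tau beta g (fun _ A x => Real.log (g A x))
      ≤ gL * (EMc lam tau m beta g / Gb lam tau beta g)
        + kapf lam tau m beta g / Gb lam tau beta g) ∧
    ((Real.log (θ / tau) - 1) * (EMc lam tau m beta g / Gb lam tau beta g)
      ≤ EJ lam tau beta g (fun R A x => Real.log (ud tau g R x A))
        + (Real.log (θ / tau) - 1) * θ ^ m * EJ lam tau beta g (fun _ A _ => (A.card : ℝ))) ∧
    (kapf lam tau m beta g / Gb lam tau beta g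
      ≤ 1100 * (m ^ 2 * L) * (DJf lam tau beta g / Gb lam tau beta g)
        + 4 * tau * ((15 * tau) ^ m) ^ 2 * ∑ i, sr i) := by
  have hm' : (1 : ℝ) ≤ m := by exact_mod_cast hm
  have h1 : tau < 1 := by nlinarith
  refine ⟨?_, ?_, ?_, ?_⟩
  · have := ineq1 h h0.le h1 hb0 hbd hb1
    unfold EJ
    rw [← sub_div, le_div_iff₀ hG, mul_comm]
    exact this
  · have := ineq2 h h0 h1 m hb0 hbd hgL
    unfold EJ
    rw [← mul_div_assoc, ← add_div]
    exact div_le_div_of_nonneg_right this hG.le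
  · have := ineq3 h h0 h1 hθ m hc hb0
    unfold EJ
    rw [← mul_div_assoc, ← mul_div_assoc, ← add_div]
    exact div_le_div_of_nonneg_right this hG.le
  · have h2 := ineq4 h h0 hm hmt hL hatom hb0 hbd
    have h3 := err4 h h0.le h1 hb0 hs0 hs
    have h4 : kapf lam tau m beta g ≤ 1100 * (m ^ 2 * L) * DJf lam tau beta g
      + 4 * tau * ((15 * tau) ^ m) ^ 2 * ((∑ i, sr i) * Gb lam tau beta g) :=
      h2.trans (add_le_add le_rfl (mul_le_mul_of_nonneg_left h3 (by positivity)))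
    have h5 := div_le_div_of_nonneg_right h4 hG.le
    refine h5.trans (le_of_eq ?_)
    field_simp

/-- the posterior relative entropy is nonnegative -/
theorem SJ_ud_nonneg (h : Fam lam ok g) {tau : ℝ} (h0 : 0 ≤ tau) (h1 : tau < 1)
    {beta : Finset ι → ℝ} (hb0 : ∀ R, 0 ≤ beta R) :
    0 ≤ SJ lam tau beta g (fun R A x => Real.log (ud tau g R x A)) := by
  refine Finset.sum_nonneg fun R _ => mul_nonneg (hb0 R) (Finset.sum_nonneg fun x _ =>
    mul_nonneg (W_nonneg h.l0 x) ?_)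
  have hT := h.Tt_pos h0 h1 R x
  have hdv := dv (w := pt tau R) (f := fun A => ud tau g R x A) (h := fun _ => 1)
    (pt_nonneg h0 h1.le R) (fun A => div_nonneg (h.nonneg _ _) hT.le) (fun _ => zero_le_one)
    (fun _ _ _ => one_pos) (by simp only [mul_one]; exact (sum_pt_one tau R).le)
  have e1 : ∑ A, pt tau R A * ud tau g R x A = 1 := h.sum_po h0 h1 R x
  rw [e1, Real.log_one] at hdv
  simp only [mul_zero, Finset.sum_const_zero, sub_zero] at hdv
  have e2 : ∑ A, g R x * (pt tau R A * g A x) * Real.log (ud tau g R x A)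
      = g R x * Tt tau g R x
        * ∑ A, pt tau R A * (ud tau g R x A * Real.log (ud tau g R x A)) := by
    rw [Finset.mul_sum]
    refine Finset.sum_congr rfl fun A _ => ?_
    unfold ud
    field_simp
  rw [e2]
  exact mul_nonneg (mul_nonneg (h.nonneg _ _) hT.le) hdv

/-- closing the loop: if the core pays for itself twice, everything is bounded by `kap` -/
theorem core_close {v e K EM kap EA gL c T : ℝ} (h1 : v ≤ e - K) (h2 : e ≤ gL * EM + kap)
    (h3 : c * EM ≤ K + c * T * EA) (hgL : 0 ≤ gL) (hc : 2 * gL ≤ c) (hv : 0 ≤ v) (hK : 0 ≤ K)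
    (hc0 : 0 < c) :
    v ≤ e ∧ e ≤ 2 * kap + 2 * gL * (T * EA) ∧ K ≤ e ∧ c * EM ≤ e + c * (T * EA) := by
  have h4 : K ≤ e := by linarith
  have h5 : c * EM ≤ e + c * (T * EA) := by linarith [mul_assoc c T EA]
  have h6 : EM ≤ (e + c * (T * EA)) / c := by
    rw [le_div_iff₀ hc0]
    linarith
  have h7 : gL * EM ≤ gL * ((e + c * (T * EA)) / c) := mul_le_mul_of_nonneg_left h6 hgL
  have h8 : gL * ((e + c * (T * EA)) / c) = (gL / c) * e + gL * (T * EA) := by
    field_simp
  have h9 : gL / c ≤ 1 / 2 := by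
    rw [div_le_iff₀ hc0]
    linarith
  have he : 0 ≤ e := by linarith
  have h10 : (gL / c) * e ≤ (1 / 2) * e := mul_le_mul_of_nonneg_right h9 he
  exact ⟨by linarith, by nlinarith, h4, h5⟩

end Vale.Agent.P042.H461
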