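import Vale.Agent.P042.H461.Core6

/-!
# P042: the reaction functional of the sample is at most that of the background
-/

set_option autoImplicit false
set_option linter.unusedSectionVars false

namespace Vale.Agent.P042.H461

open Finset Function

variable {ι : Type*} [Fintype ι] [DecidableEq ι] {V : ι → Type*} [∀ i, Fintype (V i)]
  [∀ i, DecidableEq (V i)] {lam : ∀ i, V i → ℝ} {ok : Finset ι → Prop}
  {g : Finset ι → (∀ i, V i) → ℝ}

/-- tangent line of `Ph` -/
theorem Ph_tangent {y y0 : ℝ} (hy : 0 ≤ y) (h0 : 0 < y0) :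
    Ph y0 + Real.log y0 * (y - y0) ≤ Ph y := by
  have h1 := mul_nonneg h0.le (Ph_nonneg (div_nonneg hy h0.le))
  unfold Ph at h1 ⊢
  rcases hy.eq_or_lt with h | h
  · rw [← h] at h1 ⊢
    simp only [zero_div, zero_mul, zero_sub, neg_zero, zero_add, mul_one] at h1 ⊢
    linarith
  · rw [Real.log_div h.ne' h0.ne'] at h1
    have e1 : y0 * (y / y0 * (Real.log y - Real.log y0) - y / y0 + 1)
        = y * (Real.log y - Real.log y0) - y + y0 := by
      field_simp
    rw [e1] at h1
    linarith

/-- joint convexity of `(a, b) ↦ b Ph (a / b)`, finite form -/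
theorem persp {α : Type*} (s : Finset α) {w a b : α → ℝ} (hw : ∀ c ∈ s, 0 ≤ w c)
    (ha : ∀ c ∈ s, 0 ≤ a c) (hb : ∀ c ∈ s, 0 ≤ b c)
    (hab : ∀ c ∈ s, w c ≠ 0 → b c = 0 → a c = 0) :
    (∑ c ∈ s, w c * b c) * Ph ((∑ c ∈ s, w c * a c) / ∑ c ∈ s, w c * b c)
      ≤ ∑ c ∈ s, w c * (b c * Ph (a c / b c)) := by
  set A := ∑ c ∈ s, w c * a c with hA
  set B := ∑ c ∈ s, w c * b c with hB
  have hA0 : 0 ≤ A := Finset.sum_nonneg fun c hc => mul_nonneg (hw c hc) (ha c hc)
  have hB0 : 0 ≤ B := Finset.sum_nonneg fun c hc => mul_nonneg (hw c hc) (hb c hc)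
  rcases hB0.eq_or_lt with h | hBpos
  · rw [← h, zero_mul]
    exact Finset.sum_nonneg fun c hc => mul_nonneg (hw c hc) (mul_nonneg (hb c hc)
      (Ph_nonneg (div_nonneg (ha c hc) (hb c hc))))
  rcases hA0.eq_or_lt with h | hApos
  · have h1 : ∀ c ∈ s, w c * a c = 0 := (Finset.sum_eq_zero_iff_of_nonneg
      (fun c hc => mul_nonneg (hw c hc) (ha c hc))).1 (by rw [← hA, ← h])
    rw [← h, zero_div, Ph_zero, mul_one, hB]
    refine Finset.sum_le_sum fun c hc => ?_
    rcases mul_eq_zero.1 (h1 c hc) with h2 | h2
    · rw [h2]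
      simp
    · rw [h2, zero_div, Ph_zero, mul_one]
  have hy0 : 0 < A / B := div_pos hApos hBpos
  have key : ∀ c ∈ s, w c * (b c * Ph (A / B)) + Real.log (A / B) * (w c * a c)
      - Real.log (A / B) * (A / B) * (w c * b c) ≤ w c * (b c * Ph (a c / b c)) := by
    intro c hc
    by_cases hwc : w c = 0
    · rw [hwc]
      simp
    by_cases hbc : b c = 0
    · rw [hbc, hab c hc hwc hbc]
      simp
    have h1 := Ph_tangent (div_nonneg (ha c hc) (hb c hc)) hy0 (y := a c / b c)
    have h2 := mul_le_mul_of_nonneg_left h1 (mul_nonneg (hw c hc) (hb c hc))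
    have h3 : w c * b c * (Ph (A / B) + Real.log (A / B) * (a c / b c - A / B))
        = w c * (b c * Ph (A / B)) + Real.log (A / B) * (w c * a c)
          - Real.log (A / B) * (A / B) * (w c * b c) := by
      have h3' : b c * (a c / b c) = a c := mul_div_cancel₀ _ hbc
      calc w c * b c * (Ph (A / B) + Real.log (A / B) * (a c / b c - A / B))
          = w c * (b c * Ph (A / B)) + Real.log (A / B) * (w c * (b c * (a c / b c)))
            - Real.log (A / B) * (A / B) * (w c * b c) := by ring
        _ = _ := by rw [h3']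
    rw [h3] at h2
    linarith [h2]
  have h4 := Finset.sum_le_sum key
  rw [Finset.sum_sub_distrib, Finset.sum_add_distrib, ← Finset.mul_sum, ← Finset.mul_sum, ← hA,
    ← hB] at h4
  have h5 : ∑ c ∈ s, w c * (b c * Ph (A / B)) = B * Ph (A / B) := by
    rw [hB, Finset.sum_mul]
    exact Finset.sum_congr rfl fun c _ => by ring
  rw [h5] at h4
  have h6 : Real.log (A / B) * (A / B) * B = Real.log (A / B) * A := by
    field_simp
  linarith

/-- conditioning on one more coordinate increases the relative entropy of `x i` -/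
theorem Fam.D_mono_one (h : Fam lam ok g) {A C : Finset ι} {i k : ι} (hAC : A ⊆ C) (hk : k ∉ C)
    (hi : i ∉ insert k C) (hok : ok (insert i (insert k C))) :
    ∑ x, W lam x * (g A x * (g C x * Ph (g (insert i C) x / g C x)))
      ≤ ∑ x, W lam x * (g A x * (g (insert k C) x
          * Ph (g (insert i (insert k C)) x / g (insert k C) x))) := by
  have hik : i ≠ k := fun h' => hi (h' ▸ Finset.mem_insert_self k C)
  have hiC : i ∉ C := fun h' => hi (Finset.mem_insert_of_mem h')
  have hkiC : k ∉ insert i C := by
    rw [Finset.mem_insert]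
    exact fun h' => h'.elim (fun e => hik e.symm) hk
  have hcomm : insert i (insert k C) = insert k (insert i C) := Finset.insert_comm i k C
  have hok1 : ok (insert k C) := h.down _ _ (Finset.subset_insert i _) hok
  have hok2 : ok (insert k (insert i C)) := by rw [← hcomm]; exact hok
  have hkA : k ∉ A := fun h' => hk (hAC h')
  -- average over `k`
  have e1 := sum_av' (lam := lam) h.l1 k fun x => g A x * (g (insert k C) x
    * Ph (g (insert i (insert k C)) x / g (insert k C) x))
  rw [← e1]
  refine Finset.sum_le_sum fun x _ => ?_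
  by_cases hx : W lam x = 0
  · rw [hx, zero_mul, zero_mul]
  refine mul_le_mul_of_nonneg_left ?_ (W_nonneg h.l0 x)
  unfold av
  have e2 : ∑ a, lam k a * (g A (update x k a) * (g (insert k C) (update x k a)
      * Ph (g (insert i (insert k C)) (update x k a) / g (insert k C) (update x k a))))
      = g A x * ∑ a, lam k a * (g (insert k C) (update x k a)
      * Ph (g (insert i (insert k C)) (update x k a) / g (insert k C) (update x k a))) := by
    rw [Finset.mul_sum]
    refine Finset.sum_congr rfl fun a _ => ?_
    rw [h.inv A k hkA x a]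
    ring
  rw [e2]
  refine mul_le_mul_of_nonneg_left ?_ (h.nonneg A x)
  have h3 := persp Finset.univ (w := lam k)
    (a := fun a => g (insert i (insert k C)) (update x k a))
    (b := fun a => g (insert k C) (update x k a)) (fun a _ => h.l0 k a)
    (fun a _ => h.nonneg _ _) (fun a _ => h.nonneg _ _) (by
      intro a _ hka hb
      by_contra hc
      refine h.pos_of_insert (R := insert k C) (i := i) hi hok (x := update x k a) ?_ hc hb
      rw [W, Finset.prod_ne_zero_iff]
      intro j _
      by_cases hj : j = k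
      · subst hj
        rwa [update_self]
      · rw [update_of_ne hj]
        exact W_ne hx j)
  have e3 : ∑ a, lam k a * g (insert k C) (update x k a) = g C x :=
    congrFun (h.mart C k hk hok1) x
  have e4 : ∑ a, lam k a * g (insert i (insert k C)) (update x k a) = g (insert i C) x := by
    have := congrFun (h.mart (insert i C) k hkiC hok2) x
    rw [← hcomm] at this
    exact this
  rw [e3, e4] at h3
  exact h3

theorem Fam.D_mono (h : Fam lam ok g) {A R : Finset ι} {i : ι} (hAR : A ⊆ R)
    (hi : i ∉ R) (hok : ok (insert i R)) :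
    ∑ x, W lam x * (g A x * (g R x * Ph (g (insert i A) x / g A x)))
      ≤ ∑ x, W lam x * (g A x * (g R x * Ph (g (insert i R) x / g R x))) := by
  -- the left-hand side with `g A` instead of `g R`
  have key : ∀ U : Finset ι, Disjoint A U → i ∉ A ∪ U → ok (insert i (A ∪ U)) →
      ∑ x, W lam x * (g A x * (g (A ∪ U) x * Ph (g (insert i A) x / g A x)))
      ≤ ∑ x, W lam x * (g A x * (g (A ∪ U) x
          * Ph (g (insert i (A ∪ U)) x / g (A ∪ U) x))) := by
    intro U
    induction U using Finset.induction_on with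
    | empty =>
      intro _ _ _
      rw [Finset.union_empty]
    | insert k U hkU ih =>
      intro hd hiU hokU
      rw [Finset.disjoint_insert_right] at hd
      rw [Finset.union_insert] at hiU hokU ⊢
      have hkC : k ∉ A ∪ U := by
        rw [Finset.mem_union]
        exact fun h' => h'.elim hd.1 hkU
      have hiC : i ∉ A ∪ U := fun h' => hiU (Finset.mem_insert_of_mem h')
      have hik : i ≠ k := by
        rintro rfl
        exact hiU (Finset.mem_insert_self _ _)
      have hok1 : ok (insert i (A ∪ U)) :=
        h.down _ _ (Finset.insert_subset_insert i (Finset.subset_insert k _)) hokU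
      have hok2 : ok (insert k (A ∪ U)) := h.down _ _ (Finset.subset_insert i _) hokU
      refine le_trans (le_of_eq ?_) ((ih hd.2 hiC hok1).trans
        (h.D_mono_one Finset.subset_union_left hkC hiU hokU))
      have h2 := h.sum_mart (F := fun x => g A x * Ph (g (insert i A) x / g A x)) hkC hok2 (by
        intro x a
        have hkiA : k ∉ insert i A := by
          rw [Finset.mem_insert]
          exact fun h' => h'.elim (fun e => hik e.symm) hd.1
        change g A (update x k a) * Ph (g (insert i A) (update x k a) / g A (update x k a)) = _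
        rw [h.inv A k hd.1 x a, h.inv (insert i A) k hkiA x a])
      calc _ = ∑ x, W lam x * (g A x * Ph (g (insert i A) x / g A x)
            * g (insert k (A ∪ U)) x) := Finset.sum_congr rfl fun x _ => by ring
        _ = _ := h2
        _ = _ := Finset.sum_congr rfl fun x _ => by ring
  have h1 : A ∪ (R \ A) = R := Finset.union_sdiff_of_subset hAR
  have h2 := key (R \ A) Finset.disjoint_sdiff (by rw [h1]; exact hi) (by rw [h1]; exact hok)
  rw [h1] at h2
  exact h2

/-- the reaction functional of the background alone, unnormalised -/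
noncomputable def DRf (lam : ∀ i, V i → ℝ) (tau : ℝ) (beta : Finset ι → ℝ)
    (g : Finset ι → (∀ i, V i) → ℝ) : ℝ :=
  ∑ R, ∑ i with i ∉ R, beta (insert i R) * ∑ x, W lam x * (g R x * Tt tau g R x
    * Ph (g (insert i R) x / g R x))

theorem DJf_le (h : Fam lam ok g) {tau : ℝ} (h0 : 0 ≤ tau) (h1 : tau ≤ 1)
    {beta : Finset ι → ℝ} (hb0 : ∀ R, 0 ≤ beta R) (hbd : ∀ R, ¬ok R → beta R = 0) :
    DJf lam tau beta g ≤ 2 * DRf lam tau beta g := by
  unfold DJf DRf
  rw [Finset.mul_sum]
  refine Finset.sum_le_sum fun R _ => ?_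
  rw [Finset.mul_sum]
  refine Finset.sum_le_sum fun i hi => ?_
  have hiR : i ∉ R := (Finset.mem_filter.1 hi).2
  by_cases hok : ok (insert i R)
  swap
  · rw [hbd _ hok]
    simp
  have e1 : ∀ a b c : ℝ, a * (b * c) = b * (a * c) := fun a b c => by ring
  rw [e1 2]
  refine mul_le_mul_of_nonneg_left ?_ (hb0 _)
  have e2 : ∑ x, W lam x * ∑ A, g R x * (pt tau R A * g A x)
      * (Ph (g (insert i R) x / g R x) + Ph (g (insert i A) x / g A x))
      = ∑ A, pt tau R A * ∑ x, W lam x * (g A x * (g R x * Ph (g (insert i R) x / g R x)))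
        + ∑ A, pt tau R A * ∑ x, W lam x * (g A x * (g R x * Ph (g (insert i A) x / g A x))) := by
    rw [← Finset.sum_add_distrib]
    have e3 : ∀ A, pt tau R A * ∑ x, W lam x * (g A x * (g R x * Ph (g (insert i R) x / g R x)))
        + pt tau R A * ∑ x, W lam x * (g A x * (g R x * Ph (g (insert i A) x / g A x)))
        = ∑ x, W lam x * (g R x * (pt tau R A * g A x)
          * (Ph (g (insert i R) x / g R x) + Ph (g (insert i A) x / g A x))) := by
      intro A
      rw [← mul_add, ← Finset.sum_add_distrib, Finset.mul_sum]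
      exact Finset.sum_congr rfl fun x _ => by ring
    rw [Finset.sum_congr rfl fun A _ => e3 A, Finset.sum_comm]
    exact Finset.sum_congr rfl fun x _ => Finset.mul_sum _ _ _
  have e4 : ∑ x, W lam x * (g R x * Tt tau g R x * Ph (g (insert i R) x / g R x))
      = ∑ A, pt tau R A * ∑ x, W lam x * (g A x * (g R x * Ph (g (insert i R) x / g R x))) := by
    have e5 : ∀ A, pt tau R A * ∑ x, W lam x * (g A x * (g R x * Ph (g (insert i R) x / g R x)))
        = ∑ x, W lam x * (g R x * (pt tau R A * g A x) * Ph (g (insert i R) x / g R x)) := by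
      intro A
      rw [Finset.mul_sum]
      exact Finset.sum_congr rfl fun x _ => by ring
    rw [Finset.sum_congr rfl fun A _ => e5 A, Finset.sum_comm]
    refine Finset.sum_congr rfl fun x _ => ?_
    rw [← Finset.mul_sum]
    congr 1
    unfold Tt
    rw [Finset.mul_sum, Finset.sum_mul]
  rw [e2, e4]
  have e6 : ∑ A, pt tau R A * ∑ x, W lam x * (g A x * (g R x * Ph (g (insert i A) x / g A x)))
      ≤ ∑ A, pt tau R A * ∑ x, W lam x * (g A x * (g R x * Ph (g (insert i R) x / g R x))) := by
    refine Finset.sum_le_sum fun A _ => ?_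
    by_cases hA : A ⊆ R
    · exact mul_le_mul_of_nonneg_left (h.D_mono hA hiR hok) (pt_nonneg h0 h1 R A)
    · rw [pt_of_not hA, zero_mul, zero_mul]
  linarith

end Vale.Agent.P042.H461
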