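import Vale.Agent.P042.H461.KL

/-!
# P042: the extremal law of a concave-minus-concave entropy functional

`Fn f c l nu = H(nu) - ∑ c_j H((f_j)_* nu) + ∑ l nu`. A maximiser `mu` satisfies the exact identity
`KL nu mu - ∑ c_j KL (push f_j nu) (push f_j mu) = Fn mu - Fn nu` for every law `nu ≪ mu`.
-/

set_option autoImplicit false
set_option linter.unusedSectionVars false

namespace Vale.Agent.P042.H461

open Finset

variable {X : Type*} [Fintype X] {κ : Type*} [Fintype κ] {Y : κ → Type*} [∀ j, Fintype (Y j)]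
  [∀ j, DecidableEq (Y j)]

/-- the functional -/
noncomputable def Fn (f : ∀ j, X → Y j) (c : κ → ℝ) (l : X → ℝ) (nu : X → ℝ) : ℝ :=
  Hn nu - ∑ j, c j * Hn (push (f j) nu) + ∑ x, l x * nu x

/-- the linear part of the increment of `Fn` at `mu` -/
noncomputable def La (f : ∀ j, X → Y j) (c : κ → ℝ) (l : X → ℝ) (mu nu : X → ℝ) : ℝ :=
  -∑ x, (nu x - mu x) * Real.log (mu x)
    + ∑ j, c j * ∑ y, (push (f j) nu y - push (f j) mu y) * Real.log (push (f j) mu y)
    + ∑ x, l x * (nu x - mu x)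

theorem Fn_sub {f : ∀ j, X → Y j} {c : κ → ℝ} {l : X → ℝ} {mu nu : X → ℝ} (hmu : ∀ x, 0 ≤ mu x)
    (hac : AC nu mu) : Fn f c l nu - Fn f c l mu
      = -KL nu mu + ∑ j, c j * KL (push (f j) nu) (push (f j) mu) + La f c l mu nu := by
  unfold Fn La
  have h1 := Hn_sub hac
  have h2 : ∀ j, Hn (push (f j) nu) = Hn (push (f j) mu) - KL (push (f j) nu) (push (f j) mu)
      - ∑ y, (push (f j) nu y - push (f j) mu y) * Real.log (push (f j) mu y) := by
    intro j
    have := Hn_sub (hac.push hmu (f j))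
    linarith
  have h3 : ∑ j, c j * Hn (push (f j) nu) = ∑ j, c j * Hn (push (f j) mu)
      - ∑ j, c j * KL (push (f j) nu) (push (f j) mu)
      - ∑ j, c j * ∑ y, (push (f j) nu y - push (f j) mu y) * Real.log (push (f j) mu y) := by
    rw [← Finset.sum_sub_distrib, ← Finset.sum_sub_distrib]
    refine Finset.sum_congr rfl fun j _ => ?_
    rw [h2 j]
    ring
  have h4 : ∑ x, l x * (nu x - mu x) = ∑ x, l x * nu x - ∑ x, l x * mu x := by
    rw [← Finset.sum_sub_distrib]
    exact Finset.sum_congr rfl fun x _ => by ring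
  rw [h3, h4]
  linarith

theorem La_line {f : ∀ j, X → Y j} {c : κ → ℝ} {l : X → ℝ} {mu nu : X → ℝ} (s : ℝ) :
    La f c l mu (mu + s • (nu - mu)) = s * La f c l mu nu := by
  unfold La
  have h1 : ∑ x, ((mu + s • (nu - mu)) x - mu x) * Real.log (mu x)
      = s * ∑ x, (nu x - mu x) * Real.log (mu x) := by
    rw [Finset.mul_sum]
    refine Finset.sum_congr rfl fun x _ => ?_
    simp only [Pi.add_apply, Pi.smul_apply, Pi.sub_apply, smul_eq_mul]
    ring
  have hp : ∀ j y, push (f j) (mu + s • (nu - mu)) y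
      = push (f j) mu y + s * (push (f j) nu y - push (f j) mu y) := by
    intro j y
    simp only [push, Pi.add_apply, Pi.smul_apply, Pi.sub_apply, smul_eq_mul,
      Finset.sum_add_distrib, ← Finset.mul_sum, Finset.sum_sub_distrib]
  have h2 : ∀ j, ∑ y, (push (f j) (mu + s • (nu - mu)) y - push (f j) mu y)
        * Real.log (push (f j) mu y)
      = s * ∑ y, (push (f j) nu y - push (f j) mu y) * Real.log (push (f j) mu y) := by
    intro j
    rw [Finset.mul_sum]
    refine Finset.sum_congr rfl fun y _ => ?_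
    rw [hp]
    ring
  have h3 : ∑ x, l x * ((mu + s • (nu - mu)) x - mu x) = s * ∑ x, l x * (nu x - mu x) := by
    rw [Finset.mul_sum]
    refine Finset.sum_congr rfl fun x _ => ?_
    simp only [Pi.add_apply, Pi.smul_apply, Pi.sub_apply, smul_eq_mul]
    ring
  have h4 : ∑ j, c j * ∑ y, (push (f j) (mu + s • (nu - mu)) y - push (f j) mu y)
        * Real.log (push (f j) mu y)
      = s * ∑ j, c j * ∑ y, (push (f j) nu y - push (f j) mu y) * Real.log (push (f j) mu y) := by
    rw [Finset.mul_sum]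
    refine Finset.sum_congr rfl fun j _ => ?_
    rw [h2 j]
    ring
  rw [h1, h3, h4]
  ring

/-- first order condition, one side -/
theorem La_nonpos {f : ∀ j, X → Y j} {c : κ → ℝ} {l : X → ℝ} {mu nu : X → ℝ} (hc : ∀ j, 0 ≤ c j)
    (hmu : IsLaw mu) (hmax : ∀ nu, IsLaw nu → AC nu mu → Fn f c l nu ≤ Fn f c l mu)
    (hnu : IsLaw nu) (hac : AC nu mu) : La f c l mu nu ≤ 0 := by
  by_contra hpos
  rw [not_le] at hpos
  set C : ℝ := ∑ x, (nu x - mu x) ^ 2 / mu x with hC
  have hC0 : 0 ≤ C := Finset.sum_nonneg fun x _ => div_nonneg (sq_nonneg _) (hmu.1 x)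
  have key : ∀ s : ℝ, 0 < s → s ≤ 1 → s * La f c l mu nu ≤ s ^ 2 * C := by
    intro s hs hs1
    have hlaw : IsLaw (mu + s • (nu - mu)) := by
      refine ⟨fun x => ?_, ?_⟩
      · simp only [Pi.add_apply, Pi.smul_apply, Pi.sub_apply, smul_eq_mul]
        have h1 := hmu.1 x
        have h2 := hnu.1 x
        nlinarith
      · simp only [Pi.add_apply, Pi.smul_apply, Pi.sub_apply, smul_eq_mul,
          Finset.sum_add_distrib, ← Finset.mul_sum, Finset.sum_sub_distrib, hmu.2, hnu.2]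
        ring
    have hac' : AC (mu + s • (nu - mu)) mu := by
      intro x hx
      simp only [Pi.add_apply, Pi.smul_apply, Pi.sub_apply, smul_eq_mul, hx, hac x hx]
      ring
    have h1 := hmax _ hlaw hac'
    have h2 := Fn_sub (f := f) (c := c) (l := l) hmu.1 hac'
    rw [La_line] at h2
    have h3 := KL_le_chi hlaw.1 hmu.1 hac'
    rw [hlaw.2, hmu.2] at h3
    have h4 : ∑ x, ((mu + s • (nu - mu)) x - mu x) ^ 2 / mu x = s ^ 2 * C := by
      rw [hC, Finset.mul_sum]
      refine Finset.sum_congr rfl fun x _ => ?_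
      simp only [Pi.add_apply, Pi.smul_apply, Pi.sub_apply, smul_eq_mul]
      ring
    rw [h4] at h3
    have h5 : 0 ≤ ∑ j, c j * KL (push (f j) (mu + s • (nu - mu))) (push (f j) mu) :=
      Finset.sum_nonneg fun j _ => mul_nonneg (hc j)
        ((hlaw.push (f j)).KL_nonneg (hmu.push (f j)) (hac'.push hmu.1 (f j)))
    linarith
  -- choose `s` small
  set l0 := La f c l mu nu
  have hs0 : 0 < min 1 (l0 / (2 * (C + 1))) := lt_min one_pos (by positivity)
  have h6 := key (min 1 (l0 / (2 * (C + 1)))) hs0 (min_le_left _ _)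
  set s := min 1 (l0 / (2 * (C + 1)))
  have h7 : l0 ≤ s * C := by
    have : s * l0 ≤ s * (s * C) := by linarith [h6, show s ^ 2 * C = s * (s * C) by ring]
    exact le_of_mul_le_mul_left this hs0
  have h8 : s * C ≤ l0 / (2 * (C + 1)) * C := mul_le_mul_of_nonneg_right (min_le_right _ _) hC0
  have h9 : l0 / (2 * (C + 1)) * C < l0 := by
    rw [div_mul_eq_mul_div, div_lt_iff₀ (by positivity)]
    nlinarith
  linarith

/-- the first order condition -/
theorem La_eq_zero {f : ∀ j, X → Y j} {c : κ → ℝ} {l : X → ℝ} {mu nu : X → ℝ}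
    (hc : ∀ j, 0 ≤ c j)
    (hmu : IsLaw mu) (hmax : ∀ nu, IsLaw nu → AC nu mu → Fn f c l nu ≤ Fn f c l mu)
    (hnu : IsLaw nu) (hac : AC nu mu) : La f c l mu nu = 0 := by
  refine le_antisymm (La_nonpos hc hmu hmax hnu hac) ?_
  -- a lower bound of `mu` on its support
  obtain ⟨e, he0, he1, he⟩ : ∃ e : ℝ, 0 < e ∧ e ≤ 1 ∧ ∀ x, mu x ≠ 0 → e ≤ mu x := by
    classical
    by_cases hne : (Finset.univ.filter fun x => mu x ≠ 0).Nonempty
    · obtain ⟨x0, hx0, hmin⟩ := Finset.exists_min_image _ mu hne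
      have h0 := (Finset.mem_filter.1 hx0).2
      refine ⟨mu x0, lt_of_le_of_ne (hmu.1 x0) h0.symm, hmu.le_one x0, fun x hx => ?_⟩
      exact hmin x (Finset.mem_filter.2 ⟨Finset.mem_univ x, hx⟩)
    · exact ⟨1, one_pos, le_rfl, fun x hx => absurd ⟨x, Finset.mem_filter.2
        ⟨Finset.mem_univ x, hx⟩⟩ hne⟩
  have hlaw : IsLaw (mu + (-e) • (nu - mu)) := by
    refine ⟨fun x => ?_, ?_⟩
    · simp only [Pi.add_apply, Pi.smul_apply, Pi.sub_apply, smul_eq_mul]
      by_cases hx : mu x = 0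
      · rw [hx, hac x hx]
        simp
      · have h1 := he x hx
        have h2 := hnu.le_one x
        have h3 := hmu.1 x
        nlinarith
    · simp only [Pi.add_apply, Pi.smul_apply, Pi.sub_apply, smul_eq_mul,
        Finset.sum_add_distrib, ← Finset.mul_sum, Finset.sum_sub_distrib, hmu.2, hnu.2]
      ring
  have hac' : AC (mu + (-e) • (nu - mu)) mu := by
    intro x hx
    simp only [Pi.add_apply, Pi.smul_apply, Pi.sub_apply, smul_eq_mul, hx, hac x hx]
    ring
  have h1 := La_nonpos hc hmu hmax hlaw hac'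
  rw [La_line] at h1
  nlinarith

/-- **the exact identity at a maximiser** -/
theorem ext_eq {f : ∀ j, X → Y j} {c : κ → ℝ} {l : X → ℝ} {mu nu : X → ℝ} (hc : ∀ j, 0 ≤ c j)
    (hmu : IsLaw mu) (hmax : ∀ nu, IsLaw nu → AC nu mu → Fn f c l nu ≤ Fn f c l mu)
    (hnu : IsLaw nu) (hac : AC nu mu) :
    KL nu mu - ∑ j, c j * KL (push (f j) nu) (push (f j) mu) = Fn f c l mu - Fn f c l nu := by
  have h1 := Fn_sub (f := f) (c := c) (l := l) hmu.1 hac
  rw [La_eq_zero hc hmu hmax hnu hac] at h1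
  linarith

/-- **the entropy inequality at a maximiser** -/
theorem ext_EI {f : ∀ j, X → Y j} {c : κ → ℝ} {l : X → ℝ} {mu nu : X → ℝ} (hc : ∀ j, 0 ≤ c j)
    (hmu : IsLaw mu) (hmax : ∀ nu, IsLaw nu → AC nu mu → Fn f c l nu ≤ Fn f c l mu)
    (hnu : IsLaw nu) (hac : AC nu mu) :
    ∑ j, c j * KL (push (f j) nu) (push (f j) mu) ≤ KL nu mu := by
  have h1 := ext_eq hc hmu hmax hnu hac
  have h2 := hmax nu hnu hac
  linarith

/-! ### existence -/


theorem exists_max (S : Finset X) (hS : S.Nonempty) (f : ∀ j, X → Y j) (c : κ → ℝ) (l : X → ℝ) :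
    ∃ mu : X → ℝ, IsLaw mu ∧ (∀ x, x ∉ S → mu x = 0) ∧
      ∀ nu : X → ℝ, IsLaw nu → (∀ x, x ∉ S → nu x = 0) → Fn f c l nu ≤ Fn f c l mu := by
  classical
  set K : Set (X → ℝ) := stdSimplex ℝ X ∩ {nu | ∀ x, x ∉ S → nu x = 0} with hK
  have hKc : IsCompact K := by
    refine (isCompact_stdSimplex ℝ X).inter_right ?_
    have : {nu : X → ℝ | ∀ x, x ∉ S → nu x = 0} = ⋂ x, ⋂ (_ : x ∉ S), {nu : X → ℝ | nu x = 0} := by
      ext nu
      simp
    rw [this]
    exact isClosed_iInter fun x => isClosed_iInter fun _ =>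
      isClosed_eq (continuous_apply x) continuous_const
  have hKn : K.Nonempty := by
    refine ⟨unif S, ⟨(isLaw_unif hS).1, (isLaw_unif hS).2⟩, fun x hx => ?_⟩
    unfold unif
    rw [if_neg hx]
  have hcont : Continuous (Fn f c l) := by
    unfold Fn Hn push
    fun_prop
  obtain ⟨mu, hmu, hmax⟩ := hKc.exists_isMaxOn hKn hcont.continuousOn
  refine ⟨mu, ⟨hmu.1.1, hmu.1.2⟩, hmu.2, fun nu hnu hnS => ?_⟩
  exact hmax (show nu ∈ K from ⟨⟨hnu.1, hnu.2⟩, hnS⟩)

end Vale.Agent.P042.H461
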