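import Vale.Agent.P042.H461.Ent

/-!
# P042: consistent families of densities, random subsets

`Fam lam ok g`: `g R`, `R` a set of at most `d` coordinates, is a consistent family of probability
densities with respect to the product law `lam`. `pt tau R A` = probability that the `tau`-random
subset of `R` is `A`. `Tt tau g R = ∑ A, pt tau R A * g A`.
-/

set_option autoImplicit false
set_option linter.unusedSectionVars false

namespace Vale.Agent.P042.H461

open Finset Function

variable {ι : Type*} [Fintype ι] [DecidableEq ι] {V : ι → Type*} [∀ i, Fintype (V i)]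
  [∀ i, DecidableEq (V i)] {lam : ∀ i, V i → ℝ} {ok : Finset ι → Prop}
  {g : Finset ι → (∀ i, V i) → ℝ}

/-- consistent family of densities; `ok` = the sets of coordinates which are looked at -/
structure Fam (lam : ∀ i, V i → ℝ) (ok : Finset ι → Prop) (g : Finset ι → (∀ i, V i) → ℝ) :
    Prop where
  down : ∀ A R : Finset ι, A ⊆ R → ok R → ok A
  l0 : ∀ i a, 0 ≤ lam i a
  l1 : ∀ i, ∑ a, lam i a = 1
  nonneg : ∀ R x, 0 ≤ g R x
  one : ∀ x, g ∅ x = 1
  inv : ∀ R : Finset ι, ∀ j, j ∉ R → Inv j (g R)
  mart : ∀ (R : Finset ι) (i : ι), i ∉ R → ok (insert i R) → av lam i (g (insert i R)) = g R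

theorem W_ne {x : ∀ i, V i} (h : W lam x ≠ 0) (i : ι) : lam i (x i) ≠ 0 :=
  Finset.prod_ne_zero_iff.1 h i (Finset.mem_univ i)

theorem Fam.mul_le (h : Fam lam ok g) {R : Finset ι} {i : ι} (hi : i ∉ R) (hR : ok (insert i R))
    (x : ∀ i, V i) : lam i (x i) * g (insert i R) x ≤ g R x := by
  have h1 := congrFun (h.mart R i hi hR) x
  rw [← h1]
  unfold av
  have h2 := Finset.single_le_sum (f := fun a => lam i a * g (insert i R) (update x i a))
    (fun a _ => mul_nonneg (h.l0 i a) (h.nonneg _ _)) (Finset.mem_univ (x i))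
  simp only [update_eq_self] at h2
  exact h2

theorem Fam.pos_of_insert (h : Fam lam ok g) {R : Finset ι} {i : ι} (hi : i ∉ R) (hR : ok (insert i R))
    {x : ∀ i, V i} (hx : W lam x ≠ 0) (hg : g (insert i R) x ≠ 0) : g R x ≠ 0 := by
  have h1 := h.mul_le hi hR x
  have h2 : 0 < lam i (x i) := lt_of_le_of_ne (h.l0 i _) (W_ne hx i).symm
  have h3 : 0 < g (insert i R) x := lt_of_le_of_ne (h.nonneg _ _) hg.symm
  have h4 : 0 < lam i (x i) * g (insert i R) x := mul_pos h2 h3
  exact (h4.trans_le h1).ne'

theorem Fam.ne_of_subset (h : Fam lam ok g) {x : ∀ i, V i} (hx : W lam x ≠ 0) {A R : Finset ι}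
    (hAR : A ⊆ R) (hR : ok R) (hg : g R x ≠ 0) : g A x ≠ 0 := by
  have key : ∀ C : Finset ι, Disjoint A C → ok (A ∪ C) → g (A ∪ C) x ≠ 0 → g A x ≠ 0 := by
    intro C
    induction C using Finset.induction_on with
    | empty =>
      intro _ _ h0
      rwa [Finset.union_empty] at h0
    | insert i C hi ih =>
      intro hd hc h0
      rw [Finset.disjoint_insert_right] at hd
      have h1 : A ∪ insert i C = insert i (A ∪ C) := Finset.union_insert i A C
      have h2 : i ∉ A ∪ C := by
        rw [Finset.mem_union]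
        exact fun h => h.elim hd.1 hi
      rw [h1] at h0 hc
      exact ih hd.2 (h.down _ _ (Finset.subset_insert i _) hc) (h.pos_of_insert h2 hc hx h0)
  have h1 : A ∪ (R \ A) = R := Finset.union_sdiff_of_subset hAR
  refine key (R \ A) Finset.disjoint_sdiff (by rw [h1]; exact hR) (by rw [h1]; exact hg)

/-- the conditional density of one coordinate is at most the inverse of the atom -/
theorem Fam.ratio_le (h : Fam lam ok g) {R : Finset ι} {i : ι} (hi : i ∉ R) (hR : ok (insert i R))
    {x : ∀ i, V i} {L : ℝ} (hL : Real.exp (-L) ≤ lam i (x i)) :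
    g (insert i R) x / g R x ≤ Real.exp L := by
  have h1 := h.mul_le hi hR x
  have h3 := h.nonneg (insert i R) x
  have h5 : g (insert i R) x ≤ Real.exp L * g R x := by
    have h4 : Real.exp (-L) * g (insert i R) x ≤ g R x :=
      (mul_le_mul_of_nonneg_right hL h3).trans h1
    calc g (insert i R) x = Real.exp L * (Real.exp (-L) * g (insert i R) x) := by
          rw [← mul_assoc, ← Real.exp_add]; simp
      _ ≤ Real.exp L * g R x := mul_le_mul_of_nonneg_left h4 (Real.exp_pos L).le
  rcases (h.nonneg R x).eq_or_lt with h0 | h0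
  · rw [← h0, div_zero]
    exact (Real.exp_pos L).le
  · rwa [div_le_iff₀ h0]

/-- total mass of `g R` is one -/
theorem Fam.sum_W_mul (h : Fam lam ok g) (R : Finset ι) (hR : ok R) :
    ∑ x, W lam x * g R x = 1 := by
  induction R using Finset.induction_on with
  | empty =>
    rw [← sum_W h.l1]
    exact Finset.sum_congr rfl fun x _ => by rw [h.one, mul_one]
  | insert i R hi ih =>
    have h1 := ih (h.down _ _ (Finset.subset_insert i R) hR)
    rw [← h.mart R i hi hR, sum_av' h.l1] at h1
    exact h1

/-- integration over one coordinate against an invariant function -/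
theorem Fam.sum_mart (h : Fam lam ok g) {R : Finset ι} {i : ι} (hi : i ∉ R) (hR : ok (insert i R))
    {F : (∀ i, V i) → ℝ} (hF : Inv i F) :
    ∑ x, W lam x * (F x * g (insert i R) x) = ∑ x, W lam x * (F x * g R x) := by
  have h1 := sum_av (lam := lam) i F (g (insert i R))
  have h2 := sum_av' (lam := lam) h.l1 i fun x => F x * g (insert i R) x
  rw [← h2]
  refine Finset.sum_congr rfl fun x _ => ?_
  congr 1
  have h3 := congrFun (h.mart R i hi hR) x
  rw [← h3]
  unfold av
  rw [Finset.mul_sum]
  refine Finset.sum_congr rfl fun a _ => ?_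
  change lam i a * (F (update x i a) * g (insert i R) (update x i a)) = _
  rw [hF x a]
  ring

/-! ### random subsets -/

/-- weight of `A` as a `tau`-random subset of `R` -/
noncomputable def pt (tau : ℝ) (R A : Finset ι) : ℝ :=
  if A ⊆ R then tau ^ A.card * (1 - tau) ^ (R \ A).card else 0

theorem pt_of_subset {tau : ℝ} {R A : Finset ι} (h : A ⊆ R) :
    pt tau R A = tau ^ A.card * (1 - tau) ^ (R \ A).card := if_pos h

theorem pt_of_not {tau : ℝ} {R A : Finset ι} (h : ¬A ⊆ R) : pt tau R A = 0 := if_neg h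

theorem pt_nonneg {tau : ℝ} (h0 : 0 ≤ tau) (h1 : tau ≤ 1) (R A : Finset ι) : 0 ≤ pt tau R A := by
  unfold pt
  split_ifs
  · exact mul_nonneg (pow_nonneg h0 _) (pow_nonneg (by linarith) _)
  · exact le_rfl

theorem pt_insert_of_notMem {tau : ℝ} {R A : Finset ι} {i : ι} (hR : i ∉ R) (hA : i ∉ A) :
    pt tau (insert i R) A = (1 - tau) * pt tau R A := by
  by_cases h : A ⊆ R
  · rw [pt_of_subset h, pt_of_subset (h.trans (Finset.subset_insert i R))]
    have h1 : insert i R \ A = insert i (R \ A) := Finset.insert_sdiff_of_notMem R hA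
    have h2 : i ∉ R \ A := fun hi => hR (Finset.mem_sdiff.1 hi).1
    rw [h1, Finset.card_insert_of_notMem h2, pow_succ]
    ring
  · have h' : ¬A ⊆ insert i R := by
      intro h''
      apply h
      intro j hj
      rcases Finset.mem_insert.1 (h'' hj) with e | e
      · exact absurd (e ▸ hj) hA
      · exact e
    rw [pt_of_not h, pt_of_not h', mul_zero]

theorem pt_insert_insert {tau : ℝ} {R A : Finset ι} {i : ι} (hR : i ∉ R) (hA : i ∉ A) :
    pt tau (insert i R) (insert i A) = tau * pt tau R A := by
  by_cases h : A ⊆ R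
  · rw [pt_of_subset h, pt_of_subset (Finset.insert_subset_insert i h)]
    have h1 : insert i R \ insert i A = R \ A := by
      rw [Finset.insert_sdiff_insert]
      ext j
      simp only [Finset.mem_sdiff, Finset.mem_insert, not_or]
      constructor
      · rintro ⟨a, b, c⟩
        exact ⟨a, c⟩
      · rintro ⟨a, b⟩
        exact ⟨a, fun e => hR (e ▸ a), b⟩
    rw [h1, Finset.card_insert_of_notMem hA, pow_succ]
    ring
  · have h' : ¬insert i A ⊆ insert i R := by
      intro h''
      apply h
      intro j hj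
      rcases Finset.mem_insert.1 (h'' (Finset.mem_insert_of_mem hj)) with e | e
      · exact absurd (e ▸ hj) hA
      · exact e
    rw [pt_of_not h, pt_of_not h', mul_zero]

theorem pt_eq_zero_of_mem {tau : ℝ} {R A : Finset ι} {i : ι} (hR : i ∉ R) (hA : i ∈ A) :
    pt tau R A = 0 := pt_of_not fun h => hR (h hA)

/-- splitting a sum over all finite sets according to whether `i` belongs -/
theorem sum_split (i : ι) (F : Finset ι → ℝ) :
    ∑ A, F A = ∑ A with i ∉ A, (F A + F (insert i A)) := by
  rw [← Finset.sum_filter_add_sum_filter_not Finset.univ (fun A : Finset ι => i ∉ A) F,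
    Finset.sum_add_distrib]
  congr 1
  refine Finset.sum_bij' (fun A _ => A.erase i) (fun A _ => insert i A) ?_ ?_ ?_ ?_ ?_
  · intro A _
    simp
  · intro A _
    simp
  · intro A hA
    have : i ∈ A := not_not.1 (Finset.mem_filter.1 hA).2
    exact Finset.insert_erase this
  · intro A hA
    exact Finset.erase_insert (Finset.mem_filter.1 hA).2
  · intro A hA
    have : i ∈ A := not_not.1 (Finset.mem_filter.1 hA).2
    rw [Finset.insert_erase this]

theorem sum_pt_restrict {tau : ℝ} {R : Finset ι} {i : ι} (hR : i ∉ R) (F : Finset ι → ℝ) :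
    ∑ A with i ∉ A, pt tau R A * F A = ∑ A, pt tau R A * F A := by
  rw [Finset.sum_filter]
  refine Finset.sum_congr rfl fun A _ => ?_
  by_cases h : i ∈ A
  · rw [if_neg (not_not.2 h), pt_eq_zero_of_mem hR h, zero_mul]
  · rw [if_pos h]

theorem sum_pt_insert {tau : ℝ} {R : Finset ι} {i : ι} (hR : i ∉ R) (F : Finset ι → ℝ) :
    ∑ A, pt tau (insert i R) A * F A
      = ∑ A, pt tau R A * ((1 - tau) * F A + tau * F (insert i A)) := by
  rw [sum_split i, ← sum_pt_restrict hR]
  refine Finset.sum_congr rfl fun A hA => ?_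
  have hA' := (Finset.mem_filter.1 hA).2
  rw [pt_insert_of_notMem hR hA', pt_insert_insert hR hA']
  ring

theorem sum_pt_one (tau : ℝ) (R : Finset ι) : ∑ A, pt tau R A = 1 := by
  induction R using Finset.induction_on with
  | empty =>
    rw [Finset.sum_eq_single ∅]
    · rw [pt_of_subset (Finset.Subset.refl _)]
      simp
    · intro A _ hA
      refine pt_of_not fun h => hA (Finset.subset_empty.1 h)
    · intro h
      exact absurd (Finset.mem_univ _) h
  | insert i R hi ih =>
    have h1 := sum_pt_insert (tau := tau) hi fun _ => 1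
    simp only [mul_one] at h1
    rw [h1]
    refine Eq.trans ?_ ih
    exact Finset.sum_congr rfl fun A _ => by ring

/-- `T_tau g_R` -/
noncomputable def Tt (tau : ℝ) (g : Finset ι → (∀ i, V i) → ℝ) (R : Finset ι) (x : ∀ i, V i) : ℝ :=
  ∑ A, pt tau R A * g A x

theorem Fam.Tt_pos (h : Fam lam ok g) {tau : ℝ} (h0 : 0 ≤ tau) (h1 : tau < 1) (R : Finset ι)
    (x : ∀ i, V i) : 0 < Tt tau g R x := by
  unfold Tt
  have h2 : pt tau R ∅ * g ∅ x ≤ ∑ A, pt tau R A * g A x :=
    Finset.single_le_sum (f := fun A => pt tau R A * g A x)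
      (fun A _ => mul_nonneg (pt_nonneg h0 h1.le R A) (h.nonneg A x)) (Finset.mem_univ ∅)
  refine lt_of_lt_of_le ?_ h2
  rw [h.one, mul_one, pt_of_subset (Finset.empty_subset R), Finset.card_empty, pow_zero, one_mul]
  exact pow_pos (by linarith) _

theorem Tt_insert {tau : ℝ} {R : Finset ι} {i : ι} (hR : i ∉ R) (x : ∀ i, V i) :
    Tt tau g (insert i R) x = ∑ A, pt tau R A * ((1 - tau) * g A x + tau * g (insert i A) x) :=
  sum_pt_insert hR fun A => g A x

/-- reindexing sums over pairs `i ∈ R` -/
theorem sum_pairs (F : Finset ι → ι → ℝ) :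
    ∑ R : Finset ι, ∑ i ∈ R, F R i = ∑ R : Finset ι, ∑ i with i ∉ R, F (insert i R) i := by
  have e1 : ∀ R : Finset ι, ∑ i ∈ R, F R i = ∑ i, if i ∈ R then F R i else 0 := by
    intro R
    rw [← Finset.sum_filter, Finset.filter_mem_eq_inter, Finset.univ_inter]
  have e2 : ∀ R : Finset ι, ∑ i with i ∉ R, F (insert i R) i
      = ∑ i, if i ∉ R then F (insert i R) i else 0 := by
    intro R
    rw [Finset.sum_filter]
  rw [Finset.sum_congr rfl fun R _ => e1 R, Finset.sum_congr rfl fun R _ => e2 R,
    Finset.sum_comm, Finset.sum_comm (s := Finset.univ) (t := Finset.univ)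
      (f := fun (R : Finset ι) i => if i ∉ R then F (insert i R) i else 0)]
  refine Finset.sum_congr rfl fun i _ => ?_
  rw [sum_split i, ← Finset.sum_filter]
  refine Finset.sum_congr rfl fun A hA => ?_
  have hA' := (Finset.mem_filter.1 hA).2
  rw [if_neg hA', if_pos (Finset.mem_insert_self i A), zero_add]

/-! ### product sums -/

/-- push-forward of a product weight under a coordinatewise map -/
theorem sum_prod_comp {Ω Ω' : Type*} [Fintype Ω] [DecidableEq Ω] [Fintype Ω'] [DecidableEq Ω']
    (m : ℕ) (φ : Ω → Ω') (f : Ω → ℝ) (Ψ : (Fin m → Ω') → ℝ) :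
    ∑ B : Fin m → Ω, (∏ j, f (B j)) * Ψ (fun j => φ (B j))
      = ∑ C : Fin m → Ω', (∏ j, ∑ b with φ b = C j, f b) * Ψ C := by
  have h1 : ∀ C : Fin m → Ω', ∏ j, ∑ b with φ b = C j, f b
      = ∑ B : Fin m → Ω, if (fun j => φ (B j)) = C then ∏ j, f (B j) else 0 := by
    intro C
    rw [Finset.prod_univ_sum, ← Finset.sum_filter]
    refine Finset.sum_congr ?_ fun _ _ => rfl
    ext B
    simp only [Fintype.mem_piFinset, Finset.mem_filter, Finset.mem_univ, true_and]
    constructor
    · intro h
      funext j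
      exact h j
    · intro h j
      exact congrFun h j
  simp only [h1, Finset.sum_mul]
  rw [Finset.sum_comm]
  refine Finset.sum_congr rfl fun B _ => ?_
  rw [Finset.sum_eq_single (fun j => φ (B j))]
  · rw [if_pos rfl]
  · intro C _ hC
    rw [if_neg (fun h => hC h.symm), zero_mul]
  · intro h
    exact absurd (Finset.mem_univ _) h

end Vale.Agent.P042.H461
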