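import Vale.Agent.P042.H461.Ent

/-!
# P042: the Hoeffding decomposition on a finite product

`Em A F` = average of `F` over the coordinates in `A`. `Hc F B` = Hoeffding component, `gm F R` =
conditional average given the coordinates in `R`.
-/

set_option autoImplicit false
set_option linter.unusedSectionVars false

namespace Vale.Agent.P042.H461

open Finset Function

variable {ι : Type*} [Fintype ι] [DecidableEq ι] {V : ι → Type*} [∀ i, Fintype (V i)]
  [∀ i, DecidableEq (V i)] {lam : ∀ i, V i → ℝ} {F G : (∀ i, V i) → ℝ}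

/-- scalar product -/
noncomputable def ip (lam : ∀ i, V i → ℝ) (F G : (∀ i, V i) → ℝ) : ℝ := ∑ x, W lam x * (F x * G x)

theorem ip_comm (F G : (∀ i, V i) → ℝ) : ip lam F G = ip lam G F :=
  Finset.sum_congr rfl fun x _ => by ring

theorem ip_add_left (F F' G : (∀ i, V i) → ℝ) : ip lam (F + F') G = ip lam F G + ip lam F' G := by
  unfold ip
  rw [← Finset.sum_add_distrib]
  exact Finset.sum_congr rfl fun x _ => by simp only [Pi.add_apply]; ring

theorem ip_smul_left (c : ℝ) (F G : (∀ i, V i) → ℝ) : ip lam (c • F) G = c * ip lam F G := by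
  unfold ip
  rw [Finset.mul_sum]
  exact Finset.sum_congr rfl fun x _ => by simp only [Pi.smul_apply, smul_eq_mul]; ring

theorem ip_sum_left {κ : Type*} (s : Finset κ) (F : κ → (∀ i, V i) → ℝ) (G : (∀ i, V i) → ℝ) :
    ip lam (∑ a ∈ s, F a) G = ∑ a ∈ s, ip lam (F a) G := by
  unfold ip
  rw [Finset.sum_comm]
  refine Finset.sum_congr rfl fun x _ => ?_
  rw [Finset.sum_apply, Finset.sum_mul, Finset.mul_sum]

theorem ip_sum_right {κ : Type*} (s : Finset κ) (F : κ → (∀ i, V i) → ℝ) (G : (∀ i, V i) → ℝ) :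
    ip lam G (∑ a ∈ s, F a) = ∑ a ∈ s, ip lam G (F a) := by
  rw [ip_comm, ip_sum_left]
  exact Finset.sum_congr rfl fun a _ => ip_comm _ _

theorem ip_self_nonneg (h0 : ∀ i a, 0 ≤ lam i a) (F : (∀ i, V i) → ℝ) : 0 ≤ ip lam F F :=
  Finset.sum_nonneg fun x _ => mul_nonneg (W_nonneg h0 x) (mul_self_nonneg _)

theorem ip_av (i : ι) (F G : (∀ i, V i) → ℝ) : ip lam (av lam i F) G = ip lam F (av lam i G) := by
  have h := sum_av (lam := lam) i F G
  unfold ip
  rw [← h]
  exact Finset.sum_congr rfl fun x _ => by ring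

theorem av_add (i : ι) (F G : (∀ i, V i) → ℝ) : av lam i (F + G) = av lam i F + av lam i G := by
  funext x
  simp only [av, Pi.add_apply, mul_add, Finset.sum_add_distrib]

theorem av_smul (i : ι) (c : ℝ) (F : (∀ i, V i) → ℝ) : av lam i (c • F) = c • av lam i F := by
  funext x
  simp only [av, Pi.smul_apply, smul_eq_mul, Finset.mul_sum]
  exact Finset.sum_congr rfl fun a _ => by ring

theorem av_sum {κ : Type*} (i : ι) (s : Finset κ) (F : κ → (∀ i, V i) → ℝ) :
    av lam i (∑ a ∈ s, F a) = ∑ a ∈ s, av lam i (F a) := by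
  funext x
  simp only [av, Finset.sum_apply, Finset.mul_sum]
  exact Finset.sum_comm

theorem av_comm (i j : ι) (F : (∀ i, V i) → ℝ) : av lam i (av lam j F) = av lam j (av lam i F) := by
  rcases eq_or_ne i j with rfl | hij
  · rfl
  funext x
  simp only [av, Finset.mul_sum]
  rw [Finset.sum_comm]
  refine Finset.sum_congr rfl fun b _ => Finset.sum_congr rfl fun a _ => ?_
  rw [update_comm hij]
  ring

/-- average over the coordinates of `A` -/
noncomputable def Em (lam : ∀ i, V i → ℝ) (A : Finset ι) (F : (∀ i, V i) → ℝ) (x : ∀ i, V i) : ℝ :=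
  ∑ y, W lam y * F (A.piecewise y x)

theorem Em_empty (h1 : ∀ i, ∑ a, lam i a = 1) (F : (∀ i, V i) → ℝ) : Em lam ∅ F = F := by
  funext x
  unfold Em
  simp only [Finset.piecewise_empty]
  rw [← Finset.sum_mul, sum_W h1, one_mul]

theorem Em_insert (h1 : ∀ i, ∑ a, lam i a = 1) {A : Finset ι} {i : ι} (hi : i ∉ A)
    (F : (∀ i, V i) → ℝ) : Em lam (insert i A) F = av lam i (Em lam A F) := by
  funext x
  unfold Em
  -- `y` with a fresh value at `i`
  have e1 := sum_av' (lam := lam) h1 i fun y => F ((insert i A).piecewise y x)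
  rw [← e1]
  unfold av
  simp only [Finset.mul_sum]
  rw [Finset.sum_comm]
  refine Finset.sum_congr rfl fun a _ => Finset.sum_congr rfl fun y _ => ?_
  have e2 : (insert i A).piecewise (update y i a) x = A.piecewise y (update x i a) := by
    funext j
    by_cases hj : j = i
    · subst hj
      rw [Finset.piecewise_eq_of_mem _ _ _ (Finset.mem_insert_self _ _),
        Finset.piecewise_eq_of_notMem _ _ _ hi, update_self, update_self]
    · by_cases hA : j ∈ A
      · rw [Finset.piecewise_eq_of_mem _ _ _ (Finset.mem_insert_of_mem hA),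
          Finset.piecewise_eq_of_mem _ _ _ hA, update_of_ne hj]
      · rw [Finset.piecewise_eq_of_notMem _ _ _ (by simp [hj, hA]),
          Finset.piecewise_eq_of_notMem _ _ _ hA, update_of_ne hj]
  rw [e2]
  ring

theorem Em_inv {A : Finset ι} {j : ι} (hj : j ∈ A) (F : (∀ i, V i) → ℝ) : Inv j (Em lam A F) := by
  intro x a
  unfold Em
  refine Finset.sum_congr rfl fun y _ => ?_
  congr 2
  funext i
  by_cases hi : i ∈ A
  · rw [Finset.piecewise_eq_of_mem _ _ _ hi, Finset.piecewise_eq_of_mem _ _ _ hi]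
  · have : i ≠ j := fun h => hi (h ▸ hj)
    rw [Finset.piecewise_eq_of_notMem _ _ _ hi, Finset.piecewise_eq_of_notMem _ _ _ hi,
      update_of_ne this]

/-- averaging over one more coordinate -/
theorem av_Em (h1 : ∀ i, ∑ a, lam i a = 1) (A : Finset ι) (i : ι) (F : (∀ i, V i) → ℝ) :
    av lam i (Em lam A F) = Em lam (insert i A) F := by
  by_cases hi : i ∈ A
  · rw [Finset.insert_eq_of_mem hi]
    exact av_of_inv h1 (Em_inv hi F)
  · rw [Em_insert h1 hi]

theorem Em_av (h1 : ∀ i, ∑ a, lam i a = 1) (A : Finset ι) (i : ι) (F : (∀ i, V i) → ℝ) :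
    Em lam A (av lam i F) = Em lam (insert i A) F := by
  induction A using Finset.induction_on with
  | empty =>
    rw [Em_empty h1, Em_insert h1 (Finset.notMem_empty i), Em_empty h1]
  | @insert j A hj ih =>
    rw [Em_insert h1 hj, ih, av_Em h1, Finset.insert_comm]

theorem Em_Em (h1 : ∀ i, ∑ a, lam i a = 1) (A B : Finset ι) (F : (∀ i, V i) → ℝ) :
    Em lam A (Em lam B F) = Em lam (A ∪ B) F := by
  induction A using Finset.induction_on with
  | empty => rw [Em_empty h1, Finset.empty_union]
  | @insert j A hj ih => rw [Em_insert h1 hj, ih, av_Em h1, Finset.insert_union]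

theorem ip_Em (h1 : ∀ i, ∑ a, lam i a = 1) (A : Finset ι) (F G : (∀ i, V i) → ℝ) :
    ip lam (Em lam A F) G = ip lam F (Em lam A G) := by
  induction A using Finset.induction_on generalizing G with
  | empty => rw [Em_empty h1, Em_empty h1]
  | @insert j A hj ih =>
    rw [Em_insert h1 hj, ip_av, ih, Em_av h1]

theorem Em_nonneg (h0 : ∀ i a, 0 ≤ lam i a) (hF : ∀ x, 0 ≤ F x) (A : Finset ι) (x : ∀ i, V i) :
    0 ≤ Em lam A F x :=
  Finset.sum_nonneg fun y _ => mul_nonneg (W_nonneg h0 y) (hF _)

theorem Em_add (A : Finset ι) (F G : (∀ i, V i) → ℝ) :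
    Em lam A (F + G) = Em lam A F + Em lam A G := by
  funext x
  simp only [Em, Pi.add_apply, mul_add, Finset.sum_add_distrib]

theorem Em_smul (A : Finset ι) (c : ℝ) (F : (∀ i, V i) → ℝ) :
    Em lam A (c • F) = c • Em lam A F := by
  funext x
  simp only [Em, Pi.smul_apply, smul_eq_mul, Finset.mul_sum]
  exact Finset.sum_congr rfl fun a _ => by ring

theorem Em_sum {κ : Type*} (A : Finset ι) (s : Finset κ) (F : κ → (∀ i, V i) → ℝ) :
    Em lam A (∑ a ∈ s, F a) = ∑ a ∈ s, Em lam A (F a) := by
  funext x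
  simp only [Em, Finset.sum_apply, Finset.mul_sum]
  exact Finset.sum_comm

/-- the average given the coordinates of `R` -/
noncomputable def gm (lam : ∀ i, V i → ℝ) (F : (∀ i, V i) → ℝ) (R : Finset ι) : (∀ i, V i) → ℝ :=
  Em lam Rᶜ F

theorem gm_univ (h1 : ∀ i, ∑ a, lam i a = 1) (F : (∀ i, V i) → ℝ) : gm lam F univ = F := by
  unfold gm
  rw [Finset.compl_univ, Em_empty h1]

theorem av_gm (h1 : ∀ i, ∑ a, lam i a = 1) (i : ι) (R : Finset ι) (F : (∀ i, V i) → ℝ) :
    av lam i (gm lam F R) = gm lam F (R.erase i) := by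
  unfold gm
  rw [av_Em h1]
  congr 1
  ext j
  simp only [Finset.mem_insert, Finset.mem_compl, Finset.mem_erase, not_and_or, not_not]

theorem gm_inv {i : ι} {R : Finset ι} (hi : i ∉ R) (F : (∀ i, V i) → ℝ) : Inv i (gm lam F R) :=
  Em_inv (Finset.mem_compl.2 hi) F

theorem gm_gm (h1 : ∀ i, ∑ a, lam i a = 1) (R R' : Finset ι) (F : (∀ i, V i) → ℝ) :
    gm lam (gm lam F R) R' = gm lam F (R ∩ R') := by
  unfold gm
  rw [Em_Em h1, ← Finset.compl_inter, Finset.inter_comm]

/-- **the Hoeffding component** -/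
noncomputable def Hc (lam : ∀ i, V i → ℝ) (F : (∀ i, V i) → ℝ) (B : Finset ι) : (∀ i, V i) → ℝ :=
  ∑ A ∈ B.powerset, (-1 : ℝ) ^ (B.card - A.card) • gm lam F A

theorem Hc_inv {i : ι} {B : Finset ι} (hi : i ∉ B) (F : (∀ i, V i) → ℝ) : Inv i (Hc lam F B) := by
  intro x a
  unfold Hc
  simp only [Finset.sum_apply, Pi.smul_apply]
  refine Finset.sum_congr rfl fun A hA => ?_
  rw [gm_inv (fun h => hi (Finset.mem_powerset.1 hA h)) F x a]

/-- the components are centred -/
theorem av_Hc (h1 : ∀ i, ∑ a, lam i a = 1) {i : ι} {B : Finset ι} (hi : i ∈ B)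
    (F : (∀ i, V i) → ℝ) : av lam i (Hc lam F B) = 0 := by
  obtain ⟨B', hB', rfl⟩ : ∃ B', i ∉ B' ∧ insert i B' = B :=
    ⟨B.erase i, Finset.notMem_erase i B, Finset.insert_erase hi⟩
  unfold Hc
  rw [av_sum, Finset.sum_powerset_insert hB', ← Finset.sum_add_distrib]
  refine Finset.sum_eq_zero fun A hA => ?_
  have hA' := Finset.mem_powerset.1 hA
  have hiA : i ∉ A := fun h => hB' (hA' h)
  have hc := Finset.card_le_card hA'
  rw [av_smul, av_smul, av_gm h1, av_gm h1, Finset.erase_insert hiA, Finset.erase_eq_of_notMem hiA,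
    Finset.card_insert_of_notMem hB', Finset.card_insert_of_notMem hiA, ← add_smul,
    show B'.card + 1 - A.card = (B'.card - A.card) + 1 by omega,
    show B'.card + 1 - (A.card + 1) = B'.card - A.card by omega, pow_succ]
  simp

/-- orthogonality -/
theorem ip_Hc (h1 : ∀ i, ∑ a, lam i a = 1) {B B' : Finset ι} (hB : B ≠ B')
    (F G : (∀ i, V i) → ℝ) : ip lam (Hc lam F B) (Hc lam G B') = 0 := by
  have key : ∀ {B B' : Finset ι} {i : ι}, i ∈ B → i ∉ B' → ∀ F G : (∀ i, V i) → ℝ,
      ip lam (Hc lam F B) (Hc lam G B') = 0 := by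
    intro B B' i hi hi' F G
    rw [← av_of_inv h1 (Hc_inv hi' G), ← ip_av, av_Hc h1 hi]
    unfold ip
    simp
  by_cases h : B ⊆ B'
  · obtain ⟨i, hi, hi'⟩ := Finset.exists_of_ssubset (lt_of_le_of_ne h hB)
    rw [ip_comm]
    exact key hi hi' G F
  · obtain ⟨i, hi, hi'⟩ := Finset.not_subset.1 h
    exact key hi hi' F G

/-- Moebius inversion -/
theorem sum_Hc (F : (∀ i, V i) → ℝ) (R : Finset ι) : ∑ B ∈ R.powerset, Hc lam F B = gm lam F R := by
  unfold Hc
  -- exchange of the sums
  have h1 : ∑ B ∈ R.powerset, ∑ A ∈ B.powerset, (-1 : ℝ) ^ (B.card - A.card) • gm lam F A =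
      ∑ A ∈ R.powerset, (∑ B ∈ R.powerset.filter (fun B => A ⊆ B),
        (-1 : ℝ) ^ (B.card - A.card)) • gm lam F A := by
    have h2 : ∑ B ∈ R.powerset, ∑ A ∈ B.powerset, (-1 : ℝ) ^ (B.card - A.card) • gm lam F A =
        ∑ B ∈ R.powerset, ∑ A ∈ R.powerset, if A ⊆ B then
          (-1 : ℝ) ^ (B.card - A.card) • gm lam F A else 0 := by
      refine Finset.sum_congr rfl fun B hB => ?_
      rw [← Finset.sum_filter]
      refine Finset.sum_congr ?_ fun _ _ => rfl
      ext A
      simp only [Finset.mem_powerset, Finset.mem_filter]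
      exact ⟨fun h => ⟨h.trans (Finset.mem_powerset.1 hB), h⟩, fun h => h.2⟩
    rw [h2, Finset.sum_comm]
    refine Finset.sum_congr rfl fun A _ => ?_
    rw [← Finset.sum_filter, Finset.sum_smul]
  rw [h1, Finset.sum_eq_single R]
  · have : R.powerset.filter (fun B => R ⊆ B) = {R} := by
      ext B
      simp only [Finset.mem_filter, Finset.mem_powerset, Finset.mem_singleton]
      exact ⟨fun h => Finset.Subset.antisymm h.1 h.2, fun h => by rw [h]; simp⟩
    rw [this]
    simp
  · intro A hA hAR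
    have hA' := Finset.mem_powerset.1 hA
    obtain ⟨i, hiR, hiA⟩ := Finset.exists_of_ssubset (lt_of_le_of_ne hA' hAR)
    have h3 : ∑ B ∈ R.powerset.filter (fun B => A ⊆ B), (-1 : ℝ) ^ (B.card - A.card) = 0 := by
      refine Finset.sum_involution (fun B _ => if i ∈ B then B.erase i else insert i B) ?_ ?_ ?_ ?_
      · intro B hB
        obtain ⟨-, hAB⟩ := Finset.mem_filter.1 hB
        split_ifs with h
        · have h4 : A ⊆ B.erase i := fun j hj => Finset.mem_erase.2
            ⟨fun h => hiA (h ▸ hj), hAB hj⟩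
          have h5 := Finset.card_le_card h4
          have h6 := Finset.card_erase_of_mem h
          have h7 := Finset.card_pos.2 ⟨i, h⟩
          rw [show B.card - A.card = ((B.erase i).card - A.card) + 1 by omega, pow_succ]
          ring
        · have h5 := Finset.card_le_card hAB
          rw [Finset.card_insert_of_notMem h,
            show B.card + 1 - A.card = (B.card - A.card) + 1 by omega, pow_succ]
          ring
      · intro B hB _ h
        split_ifs at h with h4
        · exact (Finset.notMem_erase i B) (by rw [h]; exact h4)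
        · exact h4 (by rw [← h]; exact Finset.mem_insert_self _ _)
      · intro B hB
        obtain ⟨hBR, hAB⟩ := Finset.mem_filter.1 hB
        rw [Finset.mem_powerset] at hBR
        rw [Finset.mem_filter, Finset.mem_powerset]
        split_ifs with h
        · exact ⟨(Finset.erase_subset _ _).trans hBR, fun j hj => Finset.mem_erase.2
            ⟨fun h => hiA (h ▸ hj), hAB hj⟩⟩
        · exact ⟨Finset.insert_subset hiR hBR, hAB.trans (Finset.subset_insert _ _)⟩
      · intro B hB
        by_cases h : i ∈ B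
        · rw [if_pos h, if_neg (Finset.notMem_erase i B), Finset.insert_erase h]
        · rw [if_neg h, if_pos (Finset.mem_insert_self _ _), Finset.erase_insert h]
    rw [h3, zero_smul]
  · intro h
    exact absurd (Finset.mem_powerset_self R) h

/-- Parseval -/
theorem parseval (h1 : ∀ i, ∑ a, lam i a = 1) (F : (∀ i, V i) → ℝ) (R : Finset ι) :
    ip lam (gm lam F R) (gm lam F R) = ∑ B ∈ R.powerset, ip lam (Hc lam F B) (Hc lam F B) := by
  rw [← sum_Hc, ip_sum_left]
  refine Finset.sum_congr rfl fun B hB => ?_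
  rw [ip_sum_right, Finset.sum_eq_single B]
  · intro B' _ h
    exact ip_Hc h1 h.symm F F
  · intro h
    exact absurd hB h

end Vale.Agent.P042.H461
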