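import Vale.Agent.P042.H461.Ent

/-!
# P042: entropy, relative entropy and push-forward on finite types
-/

set_option autoImplicit false
set_option linter.unusedSectionVars false

namespace Vale.Agent.P042.H461

open Finset

variable {X : Type*} [Fintype X] {Y : Type*} [Fintype Y] [DecidableEq Y]

/-- a probability law on a finite type -/
def IsLaw (nu : X → ℝ) : Prop := (∀ x, 0 ≤ nu x) ∧ ∑ x, nu x = 1

/-- `nu` is absolutely continuous with respect to `mu` -/
def AC (nu mu : X → ℝ) : Prop := ∀ x, mu x = 0 → nu x = 0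

/-- Shannon entropy -/
noncomputable def Hn (nu : X → ℝ) : ℝ := ∑ x, Real.negMulLog (nu x)

/-- relative entropy -/
noncomputable def KL (nu mu : X → ℝ) : ℝ := ∑ x, nu x * Real.log (nu x / mu x)

/-- push-forward -/
def push (f : X → Y) (nu : X → ℝ) (y : Y) : ℝ := ∑ x with f x = y, nu x

theorem IsLaw.nonneg {nu : X → ℝ} (h : IsLaw nu) (x : X) : 0 ≤ nu x := h.1 x

theorem IsLaw.sum_eq {nu : X → ℝ} (h : IsLaw nu) : ∑ x, nu x = 1 := h.2

theorem IsLaw.le_one {nu : X → ℝ} (h : IsLaw nu) (x : X) : nu x ≤ 1 := by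
  rw [← h.2]
  exact Finset.single_le_sum (fun y _ => h.1 y) (Finset.mem_univ x)

theorem push_nonneg {nu : X → ℝ} (h : ∀ x, 0 ≤ nu x) (f : X → Y) (y : Y) : 0 ≤ push f nu y :=
  Finset.sum_nonneg fun x _ => h x

theorem le_push {nu : X → ℝ} (h : ∀ x, 0 ≤ nu x) (f : X → Y) (x : X) : nu x ≤ push f nu (f x) :=
  Finset.single_le_sum (f := nu) (fun y _ => h y) (Finset.mem_filter.2 ⟨Finset.mem_univ x, rfl⟩)

/-- integration against a push-forward -/
theorem sum_push (f : X → Y) (nu : X → ℝ) (g : Y → ℝ) :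
    ∑ y, push f nu y * g y = ∑ x, nu x * g (f x) := by
  unfold push
  rw [← Finset.sum_fiberwise (s := Finset.univ) (g := f) (f := fun x => nu x * g (f x))]
  refine Finset.sum_congr rfl fun y _ => ?_
  rw [Finset.sum_mul]
  refine Finset.sum_congr rfl fun x hx => ?_
  rw [(Finset.mem_filter.1 hx).2]

theorem sum_push_one (f : X → Y) (nu : X → ℝ) : ∑ y, push f nu y = ∑ x, nu x := by
  have h := sum_push f nu fun _ => 1
  simpa using h

theorem IsLaw.push {nu : X → ℝ} (h : IsLaw nu) (f : X → Y) : IsLaw (push f nu) :=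
  ⟨push_nonneg h.1 f, by rw [sum_push_one, h.2]⟩

theorem AC.push {nu mu : X → ℝ} (h : AC nu mu) (hmu : ∀ x, 0 ≤ mu x) (f : X → Y) :
    AC (push f nu) (push f mu) := by
  intro y hy
  have h1 := (Finset.sum_eq_zero_iff_of_nonneg (fun x _ => hmu x)).1 hy
  exact Finset.sum_eq_zero fun x hx => h x (h1 x hx)

theorem push_add (f : X → Y) (nu mu : X → ℝ) : push f (nu + mu) = push f nu + push f mu := by
  funext y
  simp only [push, Pi.add_apply, Finset.sum_add_distrib]

theorem push_smul (f : X → Y) (c : ℝ) (nu : X → ℝ) : push f (c • nu) = c • push f nu := by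
  funext y
  simp only [push, Pi.smul_apply, smul_eq_mul, Finset.mul_sum]

theorem push_push {Z : Type*} [Fintype Z] [DecidableEq Z] (f : X → Y) (g : Y → Z) (nu : X → ℝ) :
    push g (push f nu) = push (g ∘ f) nu := by
  funext z
  have h := sum_push f nu fun y => if g y = z then 1 else 0
  simp only [mul_ite, mul_one, mul_zero, ← Finset.sum_filter] at h
  exact h

/-! ### relative entropy -/

theorem KL_self {mu : X → ℝ} : KL mu mu = 0 := by
  refine Finset.sum_eq_zero fun x _ => ?_
  by_cases h : mu x = 0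
  · rw [h, zero_mul]
  · rw [div_self h, Real.log_one, mul_zero]

/-- the relative entropy as an integral of `Ph` -/
theorem KL_eq_Ph {nu mu : X → ℝ} (hac : AC nu mu) :
    KL nu mu = (∑ x, nu x - ∑ x, mu x) + ∑ x, mu x * Ph (nu x / mu x) := by
  unfold KL
  rw [← Finset.sum_sub_distrib, ← Finset.sum_add_distrib]
  refine Finset.sum_congr rfl fun x _ => ?_
  by_cases h : mu x = 0
  · rw [hac x h, h]
    simp
  · unfold Ph
    have : mu x * (nu x / mu x) = nu x := mul_div_cancel₀ _ h
    linear_combination (-Real.log (nu x / mu x) + 1) * this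

theorem KL_nonneg {nu mu : X → ℝ} (hnu : ∀ x, 0 ≤ nu x) (hmu : ∀ x, 0 ≤ mu x)
    (hs : ∑ x, mu x ≤ ∑ x, nu x) (hac : AC nu mu) : 0 ≤ KL nu mu := by
  rw [KL_eq_Ph hac]
  refine add_nonneg (by linarith) (Finset.sum_nonneg fun x _ => mul_nonneg (hmu x) ?_)
  exact Ph_nonneg (div_nonneg (hnu x) (hmu x))

theorem IsLaw.KL_nonneg {nu mu : X → ℝ} (hnu : IsLaw nu) (hmu : IsLaw mu) (hac : AC nu mu) :
    0 ≤ KL nu mu :=
  Vale.Agent.P042.H461.KL_nonneg hnu.1 hmu.1 (by rw [hnu.2, hmu.2]) hac

theorem KL_le_chi {nu mu : X → ℝ} (hnu : ∀ x, 0 ≤ nu x) (hmu : ∀ x, 0 ≤ mu x) (hac : AC nu mu) :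
    KL nu mu ≤ (∑ x, nu x - ∑ x, mu x) + ∑ x, (nu x - mu x) ^ 2 / mu x := by
  rw [KL_eq_Ph hac]
  refine add_le_add le_rfl (Finset.sum_le_sum fun x _ => ?_)
  by_cases h : mu x = 0
  · rw [h]
    simp
  · have h1 := Ph_le_sq (div_nonneg (hnu x) (hmu x))
    calc mu x * Ph (nu x / mu x) ≤ mu x * (nu x / mu x - 1) ^ 2 :=
          mul_le_mul_of_nonneg_left h1 (hmu x)
      _ = (nu x - mu x) ^ 2 / mu x := by
          field_simp

/-- entropy difference = - relative entropy + linear term -/
theorem Hn_sub {nu mu : X → ℝ} (hac : AC nu mu) :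
    Hn nu - Hn mu = -KL nu mu - ∑ x, (nu x - mu x) * Real.log (mu x) := by
  unfold Hn KL
  rw [← Finset.sum_sub_distrib, ← Finset.sum_neg_distrib, ← Finset.sum_sub_distrib]
  refine Finset.sum_congr rfl fun x _ => ?_
  unfold Real.negMulLog
  by_cases h : mu x = 0
  · rw [hac x h, h]
    simp
  · by_cases h' : nu x = 0
    · rw [h']
      simp
    · rw [Real.log_div h' h]
      ring

/-- cross entropy form -/
theorem Hn_add_KL {nu mu : X → ℝ} (hac : AC nu mu) :
    Hn nu + KL nu mu = -∑ x, nu x * Real.log (mu x) := by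
  have h := Hn_sub hac
  have h1 : Hn mu = -∑ x, mu x * Real.log (mu x) := by
    unfold Hn Real.negMulLog
    rw [← Finset.sum_neg_distrib]
    exact Finset.sum_congr rfl fun x _ => by ring
  have h2 : ∑ x, (nu x - mu x) * Real.log (mu x)
      = ∑ x, nu x * Real.log (mu x) - ∑ x, mu x * Real.log (mu x) := by
    rw [← Finset.sum_sub_distrib]
    exact Finset.sum_congr rfl fun x _ => by ring
  rw [h1, h2] at h
  linarith

theorem Hn_nonneg {nu : X → ℝ} (h : IsLaw nu) : 0 ≤ Hn nu :=
  Finset.sum_nonneg fun x _ => Real.negMulLog_nonneg (h.1 x) (h.le_one x)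

theorem Hn_eq_neg (nu : X → ℝ) : Hn nu = -∑ x, nu x * Real.log (nu x) := by
  unfold Hn Real.negMulLog
  rw [← Finset.sum_neg_distrib]
  exact Finset.sum_congr rfl fun x _ => by ring

/-- Gibbs: entropy is at most the cross entropy -/
theorem Hn_le_cross {nu mu : X → ℝ} (hnu : IsLaw nu) (hmu : IsLaw mu) (hac : AC nu mu) :
    Hn nu ≤ -∑ x, nu x * Real.log (mu x) := by
  rw [← Hn_add_KL hac]
  linarith [hnu.KL_nonneg hmu hac]

/-- the uniform law on `S` -/
noncomputable def unif [DecidableEq X] (S : Finset X) (x : X) : ℝ := if x ∈ S then (S.card : ℝ)⁻¹ else 0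

theorem isLaw_unif [DecidableEq X] {S : Finset X} (hS : S.Nonempty) : IsLaw (unif S) := by
  have hc : (S.card : ℝ) ≠ 0 := by exact_mod_cast hS.card_pos.ne'
  refine ⟨fun x => ?_, ?_⟩
  · unfold unif
    split_ifs
    · positivity
    · exact le_rfl
  · unfold unif
    rw [← Finset.sum_filter, Finset.filter_mem_eq_inter, Finset.univ_inter, Finset.sum_const,
      nsmul_eq_mul, mul_inv_cancel₀ hc]

theorem Hn_unif [DecidableEq X] {S : Finset X} (hS : S.Nonempty) : Hn (unif S) = Real.log S.card := by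
  have hc : (S.card : ℝ) ≠ 0 := by exact_mod_cast hS.card_pos.ne'
  have h1 : ∀ x, Real.negMulLog (unif S x) = unif S x * Real.log S.card := by
    intro x
    unfold unif Real.negMulLog
    split_ifs
    · rw [Real.log_inv]
      ring
    · simp
  unfold Hn
  rw [Finset.sum_congr rfl fun x _ => h1 x, ← Finset.sum_mul, (isLaw_unif hS).2, one_mul]

/-- entropy at most log of the size of the support -/
theorem Hn_le_log {nu : X → ℝ} (h : IsLaw nu) (S : Finset X) (hS : ∀ x, x ∉ S → nu x = 0) :
    Hn nu ≤ Real.log S.card := by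
  classical
  have hne : S.Nonempty := by
    by_contra hc
    rw [Finset.not_nonempty_iff_eq_empty] at hc
    have h0 : ∑ x, nu x = 0 := Finset.sum_eq_zero fun x _ => hS x (by rw [hc]; simp)
    rw [h.2] at h0
    exact one_ne_zero h0
  have hc : (S.card : ℝ) ≠ 0 := by exact_mod_cast hne.card_pos.ne'
  have hac : AC nu (unif S) := by
    intro x hx
    by_cases hxS : x ∈ S
    · unfold unif at hx
      rw [if_pos hxS] at hx
      exact absurd hx (inv_ne_zero hc)
    · exact hS x hxS
  have h1 := Hn_le_cross h (isLaw_unif hne) hac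
  have h2 : ∀ x, nu x * Real.log (unif S x) = -(nu x * Real.log S.card) := by
    intro x
    by_cases hxS : x ∈ S
    · unfold unif
      rw [if_pos hxS, Real.log_inv]
      ring
    · rw [hS x hxS]
      simp
  rw [Finset.sum_congr rfl fun x _ => h2 x, Finset.sum_neg_distrib, ← Finset.sum_mul, h.2, one_mul,
    neg_neg] at h1
  exact h1

theorem Hn_le_log_card {nu : X → ℝ} (h : IsLaw nu) : Hn nu ≤ Real.log (Fintype.card X) := by
  have := Hn_le_log h Finset.univ (fun x hx => absurd (Finset.mem_univ x) hx)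
  rwa [Finset.card_univ] at this

/-! ### conditioning on an event `f x = y` -/

/-- conditional law given `f x = y` -/
noncomputable def cond (f : X → Y) (y : Y) (nu : X → ℝ) (x : X) : ℝ :=
  if f x = y then nu x / push f nu y else 0

theorem cond_of_eq {f : X → Y} {y : Y} {nu : X → ℝ} {x : X} (h : f x = y) :
    cond f y nu x = nu x / push f nu y := if_pos h

theorem cond_of_ne {f : X → Y} {y : Y} {nu : X → ℝ} {x : X} (h : f x ≠ y) :
    cond f y nu x = 0 := if_neg h

theorem isLaw_cond {nu : X → ℝ} (h : ∀ x, 0 ≤ nu x) {f : X → Y} {y : Y} (hy : push f nu y ≠ 0) :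
    IsLaw (cond f y nu) := by
  refine ⟨fun x => ?_, ?_⟩
  · unfold cond
    split_ifs
    · exact div_nonneg (h x) (push_nonneg h f y)
    · exact le_rfl
  · unfold cond
    rw [← Finset.sum_filter, ← Finset.sum_div]
    exact div_self hy

theorem AC_cond (f : X → Y) (y : Y) (nu : X → ℝ) : AC (cond f y nu) nu := by
  intro x hx
  unfold cond
  rw [hx]
  simp

/-- the relative entropy of a conditioning -/
theorem KL_cond {nu : X → ℝ} (h : ∀ x, 0 ≤ nu x) {f : X → Y} {y : Y} (hy : push f nu y ≠ 0) :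
    KL (cond f y nu) nu = -Real.log (push f nu y) := by
  have h1 : ∀ x, cond f y nu x * Real.log (cond f y nu x / nu x)
      = -(cond f y nu x * Real.log (push f nu y)) := by
    intro x
    by_cases hf : f x = y
    · rw [cond_of_eq hf]
      by_cases hx : nu x = 0
      · rw [hx]; simp
      · have : nu x / push f nu y / nu x = (push f nu y)⁻¹ := by
          field_simp
        rw [this, Real.log_inv]
        ring
    · rw [cond_of_ne hf]
      simp
  unfold KL
  rw [Finset.sum_congr rfl fun x _ => h1 x, Finset.sum_neg_distrib, ← Finset.sum_mul,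
    (isLaw_cond h hy).2, one_mul]

/-- if `g` is a function of `f`, the push-forward of the conditional law is a Dirac mass -/
theorem push_cond_self {nu : X → ℝ} {f : X → Y} {y : Y} (hy : push f nu y ≠ 0) (z : Y) :
    push f (cond f y nu) z = if z = y then 1 else 0 := by
  unfold push
  split_ifs with h
  · subst h
    have h1 : ∑ x with f x = z, cond f z nu x = ∑ x with f x = z, nu x / push f nu z :=
      Finset.sum_congr rfl fun x hx => cond_of_eq (Finset.mem_filter.1 hx).2
    rw [h1, ← Finset.sum_div]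
    exact div_self hy
  · refine Finset.sum_eq_zero fun x hx => cond_of_ne ?_
    rw [(Finset.mem_filter.1 hx).2]
    exact h

end Vale.Agent.P042.H461
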