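import Vale.Agent.P042.H461.LJen
import Vale.Agent.P042.H779.AbCore

/-! Assembly for an abstract family, first half; individual noise rates.
(Generalisation of helper779's `AbAsm1`.) -/

namespace Vale.Agent.P042.H779.Ab.Ll

open Finset

set_option linter.unusedSectionVars false

section
variable {ι : Type*} [Fintype ι] [DecidableEq ι] {V : ι → Type*} [∀ i, Fintype (V i)]
  {w : ∀ i, V i → ℝ} {g : Finset ι → (∀ i, V i) → ℝ} {ok : Finset ι → Prop}

/-- unnormalised expectation under the planted law `J` -/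
noncomputable def EJ (w : ∀ i, V i → ℝ) (g : Finset ι → (∀ i, V i) → ℝ) (β : Finset ι → ℝ)
    (τ : ι → ℝ) (f : Finset ι → Finset ι → (∀ i, V i) → ℝ) : ℝ :=
  ∑ R ∈ (univ : Finset ι).powerset, β R * ∑ A ∈ R.powerset, bw τ R A *
    ∑ x, pw w x * (g A x * g R x * f A R x)

/-- total mass of the planted law -/
noncomputable def Gm (w : ∀ i, V i → ℝ) (g : Finset ι → (∀ i, V i) → ℝ) (β : Finset ι → ℝ)
    (τ : ι → ℝ) : ℝ :=
  ∑ R ∈ (univ : Finset ι).powerset, β R * ∑ A ∈ R.powerset, bw τ R A * Wq w g A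

lemma sum_g_Tg_f (F : Fam w g ok) {τ : ι → ℝ} (h0 : ∀ i, 0 < τ i) (h1 : ∀ i, τ i < 1) (R : Finset ι)
    (f : Finset ι → (∀ i, V i) → ℝ) :
    ∑ x, pw w x * (g R x * (Tg g τ R x * ∑ A ∈ R.powerset, post g τ R x A * f A x))
      = ∑ A ∈ R.powerset, bw τ R A * ∑ x, pw w x * (g A x * g R x * f A x) := by
  have e1 : ∀ x, pw w x * (g R x * (Tg g τ R x * ∑ A ∈ R.powerset, post g τ R x A * f A x))
      = ∑ A ∈ R.powerset, bw τ R A * (pw w x * (g A x * g R x * f A x)) := by
    intro x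
    rw [mul_sum, mul_sum, mul_sum]
    refine sum_congr rfl fun A _ => ?_
    have h6 := Tg_mul_post F h0 h1 R x A
    calc pw w x * (g R x * (Tg g τ R x * (post g τ R x A * f A x)))
        = pw w x * (g R x * ((Tg g τ R x * post g τ R x A) * f A x)) := by ring
      _ = _ := by rw [h6]; ring
  rw [sum_congr rfl fun x _ => e1 x, sum_comm]
  refine sum_congr rfl fun A _ => ?_
  rw [← mul_sum]

/-- functions of `(R, x)` only -/
lemma sum_g_Tg_h (R : Finset ι) (τ : ι → ℝ) (f : (∀ i, V i) → ℝ) :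
    ∑ x, pw w x * (g R x * (Tg g τ R x * f x))
      = ∑ A ∈ R.powerset, bw τ R A * ∑ x, pw w x * (g A x * g R x * f x) := by
  have e1 : ∀ x, pw w x * (g R x * (Tg g τ R x * f x))
      = ∑ A ∈ R.powerset, bw τ R A * (pw w x * (g A x * g R x * f x)) := by
    intro x
    unfold Tg
    rw [sum_mul, mul_sum, mul_sum]
    exact sum_congr rfl fun A _ => by ring
  rw [sum_congr rfl fun x _ => e1 x, sum_comm]
  refine sum_congr rfl fun A _ => ?_
  rw [← mul_sum]

lemma sum_g_Tg (F : Fam w g ok) (τ : ι → ℝ) {R : Finset ι} (hok : ok R) :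
    ∑ x, pw w x * (g R x * Tg g τ R x) = ∑ A ∈ R.powerset, bw τ R A * Wq w g A := by
  have h2 := sum_g_Tg_h (w := w) (g := g) R τ (fun _ => 1)
  simp only [mul_one] at h2
  rw [h2]
  exact sum_congr rfl fun A hA => by rw [pw_g_g F (mem_powerset.mp hA) hok]

variable {β : Finset ι → ℝ}

lemma EJ_one (F : Fam w g ok) (B : Wt ok β) (τ : ι → ℝ) : EJ w g β τ (fun _ _ _ => 1) = Gm w g β τ := by
  unfold EJ Gm
  refine sum_congr rfl fun R _ => ?_
  by_cases hR : β R = 0
  · rw [hR]; simp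
  congr 1
  refine sum_congr rfl fun A hA => ?_
  simp only [mul_one]
  rw [pw_g_g F (mem_powerset.mp hA) (B.okb R hR)]

lemma Gm_eq (F : Fam w g ok) (B : Wt ok β) (τ : ι → ℝ) :
    ∑ R ∈ (univ : Finset ι).powerset, β R * ∑ x, pw w x * (g R x * Tg g τ R x)
      = Gm w g β τ := by
  unfold Gm
  refine sum_congr rfl fun R _ => ?_
  by_cases hR : β R = 0
  · rw [hR]; simp
  rw [sum_g_Tg F τ (B.okb R hR)]

lemma total_mass (F : Fam w g ok) (B : Wt ok β) :
    ∑ R ∈ (univ : Finset ι).powerset, β R * ∑ x, pw w x * g R x ≤ 1 := by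
  refine le_trans (le_of_eq ?_) B.sum_le
  refine sum_congr rfl fun R _ => ?_
  by_cases hR : β R = 0
  · rw [hR]; simp
  rw [pw_g_sum F (B.okb R hR), mul_one]

lemma EJ_mono (F : Fam w g ok) (B : Wt ok β) {τ : ι → ℝ} (h0 : ∀ i, 0 < τ i) (h1 : ∀ i, τ i < 1)
    {f f' : Finset ι → Finset ι → (∀ i, V i) → ℝ}
    (hff : ∀ R, ok R → ∀ A ⊆ R, ∀ x, 0 < g R x → f A R x ≤ f' A R x) :
    EJ w g β τ f ≤ EJ w g β τ f' := by
  unfold EJ
  refine sum_le_sum fun R _ => ?_
  by_cases hR : β R = 0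
  · rw [hR]; simp
  refine mul_le_mul_of_nonneg_left ?_ (B.nonneg R)
  refine sum_le_sum fun A hA => mul_le_mul_of_nonneg_left ?_ (bw_pos h0 h1 R A).le
  refine sum_le_sum fun x _ => mul_le_mul_of_nonneg_left ?_ (pw_nonneg F x)
  rcases (F.g_nonneg R x).eq_or_lt with hx | hx
  · rw [← hx]; simp
  · exact mul_le_mul_of_nonneg_left (hff R (B.okb R hR) A (mem_powerset.mp hA) x hx)
      (mul_nonneg (F.g_nonneg _ _) (F.g_nonneg _ _))

lemma EJ_add (w : ∀ i, V i → ℝ) (g : Finset ι → (∀ i, V i) → ℝ) (β : Finset ι → ℝ) (τ : ι → ℝ)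
    (f f' : Finset ι → Finset ι → (∀ i, V i) → ℝ) :
    EJ w g β τ (fun A R x => f A R x + f' A R x) = EJ w g β τ f + EJ w g β τ f' := by
  unfold EJ
  rw [← sum_add_distrib]
  refine sum_congr rfl fun R _ => ?_
  rw [← mul_add, ← sum_add_distrib]
  congr 1
  refine sum_congr rfl fun A _ => ?_
  rw [← mul_add, ← sum_add_distrib]
  congr 1
  exact sum_congr rfl fun x _ => by ring

lemma EJ_smul (w : ∀ i, V i → ℝ) (g : Finset ι → (∀ i, V i) → ℝ) (β : Finset ι → ℝ) (τ : ι → ℝ) (c : ℝ)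
    (f : Finset ι → Finset ι → (∀ i, V i) → ℝ) :
    EJ w g β τ (fun A R x => c * f A R x) = c * EJ w g β τ f := by
  unfold EJ
  simp only [mul_sum]
  refine sum_congr rfl fun R _ => sum_congr rfl fun A _ => sum_congr rfl fun x _ => by ring

/-- Step 1. -/
lemma gibbs (F : Fam w g ok) (B : Wt ok β) {τ θ : ι → ℝ} (h0 : ∀ i, 0 < τ i) (h1 : ∀ i, τ i < 1) (hθ : ∀ i, 0 < θ i)
    (hG0 : 0 < Gm w g β τ) :
    Gm w g β τ * Real.log (Gm w g β τ)
      ≤ EJ w g β τ (fun A _ x => Real.log (g A x))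
        - EJ w g β τ (fun _ R x => Hs g τ θ (fun u => Real.log (θ u / τ u) - 1) R x) := by
  obtain ⟨G, hG⟩ : ∃ G, G = Gm w g β τ := ⟨_, rfl⟩
  rw [← hG] at hG0
  have key : ∀ R ∈ (univ : Finset ι).powerset, ∀ x : ∀ i, V i,
      g R x * (Tg g τ R x * Real.log G + Tg g τ R x - G)
      ≤ g R x * (Tg g τ R x * Real.log (Tg g τ R x)) := by
    intro R _ x
    refine mul_le_mul_of_nonneg_left ?_ (F.g_nonneg R x)
    have hT := Tg_pos F h0 h1 R x
    have h2 := Real.log_le_sub_one_of_pos (show 0 < G / Tg g τ R x by positivity)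
    rw [Real.log_div hG0.ne' hT.ne'] at h2
    have h3 := mul_le_mul_of_nonneg_left h2 hT.le
    have h4 : Tg g τ R x * (G / Tg g τ R x - 1) = G - Tg g τ R x := by field_simp
    rw [h4] at h3
    linarith
  have h5 : ∑ R ∈ (univ : Finset ι).powerset, β R *
        ∑ x, pw w x * (g R x * (Tg g τ R x * Real.log G + Tg g τ R x - G))
      ≤ ∑ R ∈ (univ : Finset ι).powerset, β R *
        ∑ x, pw w x * (g R x * (Tg g τ R x * Real.log (Tg g τ R x))) :=
    sum_le_sum fun R hR => mul_le_mul_of_nonneg_left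
      (sum_le_sum fun x _ => mul_le_mul_of_nonneg_left (key R hR x) (pw_nonneg F x))
      (B.nonneg R)
  have h6 : G * Real.log G ≤ ∑ R ∈ (univ : Finset ι).powerset, β R *
        ∑ x, pw w x * (g R x * (Tg g τ R x * Real.log G + Tg g τ R x - G)) := by
    have e1 : ∀ R ∈ (univ : Finset ι).powerset, β R *
        ∑ x, pw w x * (g R x * (Tg g τ R x * Real.log G + Tg g τ R x - G))
        = (Real.log G + 1) * (β R * ∑ x, pw w x * (g R x * Tg g τ R x))
          - G * (β R * ∑ x, pw w x * g R x) := by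
      intro R _
      have : ∀ x, pw w x * (g R x * (Tg g τ R x * Real.log G + Tg g τ R x - G))
          = (Real.log G + 1) * (pw w x * (g R x * Tg g τ R x))
            - G * (pw w x * g R x) := fun x => by ring
      rw [sum_congr rfl fun x _ => this x, sum_sub_distrib, ← mul_sum, ← mul_sum]; ring
    rw [sum_congr rfl e1, sum_sub_distrib, ← mul_sum, ← mul_sum, Gm_eq F B, ← hG]
    have h7 := mul_le_mul_of_nonneg_left (total_mass F B) hG0.le
    linarith
  have h8 : ∑ R ∈ (univ : Finset ι).powerset, β R *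
        ∑ x, pw w x * (g R x * (Tg g τ R x * Real.log (Tg g τ R x)))
      ≤ EJ w g β τ (fun A _ x => Real.log (g A x))
        - EJ w g β τ (fun _ R x => Hs g τ θ (fun u => Real.log (θ u / τ u) - 1) R x) := by
    unfold EJ
    rw [← sum_sub_distrib]
    refine sum_le_sum fun R _ => ?_
    by_cases hR : β R = 0
    · rw [hR]; simp
    have hokR := B.okb R hR
    rw [← sum_g_Tg_f F h0 h1 R (fun A x => Real.log (g A x)), ← sum_g_Tg_h R τ (Hs g τ θ (fun u => Real.log (θ u / τ u) - 1) R)]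
    have e9 : β R * ∑ x, pw w x * (g R x * (Tg g τ R x * ∑ A ∈ R.powerset,
          post g τ R x A * Real.log (g A x)))
        - β R * ∑ x, pw w x * (g R x * (Tg g τ R x *
          Hs g τ θ (fun u => Real.log (θ u / τ u) - 1) R x))
        = β R * ∑ x, pw w x * (g R x * (Tg g τ R x * ((∑ A ∈ R.powerset,
          post g τ R x A * Real.log (g A x)) -
          Hs g τ θ (fun u => Real.log (θ u / τ u) - 1) R x))) := by
      rw [← mul_sub, ← sum_sub_distrib]
      congr 1
      exact sum_congr rfl fun x _ => by ring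
    rw [e9]
    refine mul_le_mul_of_nonneg_left (sum_le_sum fun x _ =>
      mul_le_mul_of_nonneg_left ?_ (pw_nonneg F x)) (B.nonneg R)
    rcases (F.g_nonneg R x).eq_or_lt with hx | hx
    · rw [← hx]; simp
    · exact mul_le_mul_of_nonneg_left (mul_le_mul_of_nonneg_left
        (log_Tg_le F h0 h1 hθ hokR hx) (Tg_pos F h0 h1 R x).le) hx.le
  rw [← hG]
  linarith

end

end Vale.Agent.P042.H779.Ab.Ll
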