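import Vale.Agent.P042.H461.LAsm2

/-! The core inequality for an abstract family, in functional form; individual noise rates,
thresholds, atoms and density bounds. (Generalisation of helper779's `AbCore`.) -/

namespace Vale.Agent.P042.H779.Ab.Ll

open Finset

set_option linter.unusedSectionVars false

section
variable {ι : Type*} [Fintype ι] [DecidableEq ι] {V : ι → Type*} [∀ i, Fintype (V i)]
  {w : ∀ i, V i → ℝ} {g : Finset ι → (∀ i, V i) → ℝ} {ok : Finset ι → Prop} {β : Finset ι → ℝ}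

/-- The functional of the freshly inserted coordinates, with weights `c i`. -/
noncomputable def DD (w : ∀ i, V i → ℝ) (g : Finset ι → (∀ i, V i) → ℝ) (β : Finset ι → ℝ)
    (τ : ι → ℝ) (c : ι → ℝ) : ℝ :=
  ∑ R ∈ (univ : Finset ι).powerset, ∑ i ∈ univ \ R, c i * (β (insert i R) *
    ∑ A ∈ R.powerset, bw τ R A *
      ∑ x, pw w x * (g A x * g R x * (Di w g i R x + Di w g i A x)))

/-- The total insertion rate, with weights `c i`. -/
noncomputable def SS (w : ∀ i, V i → ℝ) (g : Finset ι → (∀ i, V i) → ℝ) (β : Finset ι → ℝ)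
    (τ : ι → ℝ) (c : ι → ℝ) : ℝ :=
  ∑ R ∈ (univ : Finset ι).powerset, ∑ i ∈ univ \ R, c i * (β (insert i R) *
    ∑ A ∈ R.powerset, bw τ R A * Wq w g A)

/-- Steps 3, 4, 5: the separation functional is bounded by the insertion functional. -/
theorem kappa_le (F : Fam w g ok) (B : Wt ok β) {τ L : ι → ℝ} (h0 : ∀ i, 0 < τ i) {m : ℕ}
    (hm : 1 ≤ m) (hmτ : ∀ i, 16 * m * τ i ≤ 1) (hL : ∀ i, 1 ≤ L i)
    (hat : ∀ i a, w i a = 0 ∨ Real.exp (-L i) ≤ w i a) :
    ∑ R ∈ (univ : Finset ι).powerset, ∑ A ∈ R.powerset, ∑ M ∈ A.powerset,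
        β R * bw τ R A * Th w g τ m M A R
      ≤ DD w g β τ (fun i => 1100 * m ^ 2 * L i)
        + SS w g β τ (fun i => 4 * τ i * ((15 * τ i) ^ m) ^ 2) := by
  have hm' : (1 : ℝ) ≤ m := by exact_mod_cast hm
  have h1 : ∀ i, τ i < 1 := fun i => by have := hmτ i; have := h0 i; nlinarith
  refine (sep_sum F B h0 h1 hm).trans ((step45 F B h0 hm hmτ hL hat).trans (le_of_eq ?_))
  unfold DD SS
  rw [← sum_add_distrib]
  refine sum_congr rfl fun R _ => ?_
  rw [← sum_add_distrib]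
  refine sum_congr rfl fun i hi => ?_
  rw [mem_sdiff] at hi
  by_cases hR : β (insert i R) = 0
  · rw [hR]; simp
  have hok := B.okb _ hR
  have hokR : ok R := F.ok_down _ _ (subset_insert _ _) hok
  have e1 : ∑ x, pw w x *
        (g R x * (Tg g τ R x * ((1100 * (m ^ 2 * L i / τ i)) * (phi (rt g i x R) +
        ∑ A ∈ R.powerset, post g τ R x A * phi (rt g i x A)) + 4 * ((15 * τ i) ^ m) ^ 2)))
      = (1100 * (m ^ 2 * L i / τ i)) * (∑ A ∈ R.powerset, bw τ R A *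
        ∑ x, pw w x * (g A x * g R x * (Di w g i R x + Di w g i A x)))
        + 4 * ((15 * τ i) ^ m) ^ 2 * ∑ A ∈ R.powerset, bw τ R A * Wq w g A := by
    have e2 : ∀ x, pw w x *
        (g R x * (Tg g τ R x * ((1100 * (m ^ 2 * L i / τ i)) * (phi (rt g i x R) +
        ∑ A ∈ R.powerset, post g τ R x A * phi (rt g i x A)) + 4 * ((15 * τ i) ^ m) ^ 2)))
        = (1100 * (m ^ 2 * L i / τ i)) * (pw w x * (g R x * (Tg g τ R x * phi (rt g i x R)))
          + pw w x * (g R x * (Tg g τ R x *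
            ∑ A ∈ R.powerset, post g τ R x A * phi (rt g i x A))))
          + 4 * ((15 * τ i) ^ m) ^ 2 * (pw w x * (g R x * Tg g τ R x)) := fun x => by ring
    rw [sum_congr rfl fun x _ => e2 x, sum_add_distrib, ← mul_sum, ← mul_sum, sum_add_distrib,
      sum_g_Tg_f F h0 h1 R (fun A x => phi (rt g i x A)),
      sum_g_Tg_h R τ (fun x => phi (rt g i x R)), sum_g_Tg F τ hokR, ← sum_add_distrib]
    congr 2
    refine sum_congr rfl fun A hA => ?_
    have hAR := mem_powerset.mp hA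
    have hiA : i ∉ A := fun hc => hi.2 (hAR hc)
    have hind : Indep i (fun x => g A x * g R x) := by
      intro x a
      beta_reduce
      rw [g_update F A hiA, g_update F R hi.2]
    rw [sum_phi_rt F i R (fun x => g A x * g R x) hind,
      sum_phi_rt F i A (fun x => g A x * g R x) hind, ← mul_add, ← sum_add_distrib]
    congr 1
    exact sum_congr rfl fun x _ => by ring
  rw [e1]
  have hτi := (h0 i).ne'
  field_simp

/-- **Abstract core inequality, functional form**, individual parameters. -/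
theorem abs_core (F : Fam w g ok) (B : Wt ok β) {τ θ gH L : ι → ℝ} (h0 : ∀ i, 0 < τ i) {m : ℕ}
    (hm : 1 ≤ m) (hmτ : ∀ i, 16 * m * τ i ≤ 1) (hL : ∀ i, 1 ≤ L i)
    (hat : ∀ i a, w i a = 0 ∨ Real.exp (-L i) ≤ w i a)
    (hθ : ∀ i, 0 < θ i) (hgH : ∀ i, 0 ≤ gH i)
    (hlog : ∀ M, ok M → ∀ x, 0 < g M x → Real.log (g M x) ≤ ∑ i ∈ M, gH i)
    (hG0 : 0 < Gm w g β τ) :
    (Gm w g β τ * Real.log (Gm w g β τ)
      ≤ EJ w g β τ (fun A _ x => Real.log (g A x))
        - EJ w g β τ (fun _ R x => Hs g τ θ (fun u => Real.log (θ u / τ u) - 1) R x)) ∧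
    (EJ w g β τ (fun A _ x => Real.log (g A x))
      ≤ (EJ w g β τ (fun _ R x => Hs g τ θ gH R x)
        + EJ w g β τ (fun _ R _ => ∑ u ∈ R, gH u * θ u ^ m))
        + (DD w g β τ (fun i => 1100 * m ^ 2 * L i)
        + SS w g β τ (fun i => 4 * τ i * ((15 * τ i) ^ m) ^ 2))) := by
  have hm' : (1 : ℝ) ≤ m := by exact_mod_cast hm
  have h1 : ∀ i, τ i < 1 := fun i => by have := hmτ i; have := h0 i; nlinarith
  refine ⟨gibbs F B h0 h1 hθ hG0, ?_⟩
  have h2 := step2 F B h0 h1 hθ hgH hlog m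
  have h3 := kappa_le F B h0 hm hmτ hL hat
  linarith

lemma EJ_Hs_mono (F : Fam w g ok) (B : Wt ok β) {τ : ι → ℝ} (h0 : ∀ i, 0 < τ i)
    (h1 : ∀ i, τ i < 1) (θ : ι → ℝ) {c c' : ι → ℝ} (hc : ∀ i, c i ≤ c' i) :
    EJ w g β τ (fun _ R x => Hs g τ θ c R x) ≤ EJ w g β τ (fun _ R x => Hs g τ θ c' R x) :=
  EJ_mono F B h0 h1 fun R _ _ _ x _ => Hs_mono F h0 h1 θ hc R x

lemma Hs_smul (g : Finset ι → (∀ i, V i) → ℝ) (τ θ c : ι → ℝ) (k : ℝ) (R : Finset ι)
    (x : ∀ i, V i) : Hs g τ θ (fun i => k * c i) R x = k * Hs g τ θ c R x := by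
  unfold Hs
  rw [mul_sum]
  exact sum_congr rfl fun i _ => by ring

/-- The two inequalities combined: `v ≤ e ≤ 2 κ` when `log (θ/τ) - 1 ≥ 2 gH`. -/
theorem abs_core' (F : Fam w g ok) (B : Wt ok β) {τ θ gH L : ι → ℝ} (h0 : ∀ i, 0 < τ i) {m : ℕ}
    (hm : 1 ≤ m) (hmτ : ∀ i, 16 * m * τ i ≤ 1) (hL : ∀ i, 1 ≤ L i)
    (hat : ∀ i a, w i a = 0 ∨ Real.exp (-L i) ≤ w i a)
    (hθ : ∀ i, 0 < θ i) (hgH : ∀ i, 0 ≤ gH i)
    (hbig : ∀ i, 2 * gH i + 1 ≤ Real.log (θ i / τ i))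
    (hlog : ∀ M, ok M → ∀ x, 0 < g M x → Real.log (g M x) ≤ ∑ i ∈ M, gH i)
    (hG1 : 1 ≤ Gm w g β τ) :
    EJ w g β τ (fun A _ x => Real.log (g A x))
      ≤ 2 * (EJ w g β τ (fun _ R _ => ∑ u ∈ R, gH u * θ u ^ m)
        + DD w g β τ (fun i => 1100 * m ^ 2 * L i)
        + SS w g β τ (fun i => 4 * τ i * ((15 * τ i) ^ m) ^ 2)) := by
  have hm' : (1 : ℝ) ≤ m := by exact_mod_cast hm
  have h1 : ∀ i, τ i < 1 := fun i => by have := hmτ i; have := h0 i; nlinarith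
  obtain ⟨h2, h3⟩ := abs_core F B h0 hm hmτ hL hat hθ hgH hlog (by linarith)
  have hlG : 0 ≤ Real.log (Gm w g β τ) := Real.log_nonneg hG1
  have hGG : 0 ≤ Gm w g β τ * Real.log (Gm w g β τ) := mul_nonneg (by linarith) hlG
  have hH := EJ_Hs_mono F B h0 h1 θ (c := fun i => 2 * gH i)
    (c' := fun u => Real.log (θ u / τ u) - 1) (fun i => by linarith [hbig i])
  have hH2 : EJ w g β τ (fun _ R x => Hs g τ θ (fun i => 2 * gH i) R x)
      = 2 * EJ w g β τ (fun _ R x => Hs g τ θ gH R x) := by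
    rw [← EJ_smul]
    congr 1
    funext A R x
    exact Hs_smul g τ θ gH 2 R x
  rw [hH2] at hH
  linarith

end

end Vale.Agent.P042.H779.Ab.Ll
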