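import Vale.Agent.P042.H461.LNum

/-! Numerics of the scale-local constants, second part: the quadratic form. -/

namespace Vale.Agent.P042.H461.LNum

open Finset

lemma sum_cut (s0 n : ℕ) (f : ℕ → ℝ) :
    ∑ s ∈ range n, (if s < s0 then 0 else f s) = ∑ s ∈ Ico s0 n, f s := by
  have h : Ico s0 n = (range n).filter (fun s => ¬ s < s0) := by
    ext s
    simp only [mem_Ico, mem_filter, mem_range]
    omega
  rw [h, sum_filter]
  exact sum_congr rfl fun s _ => by split_ifs <;> simp_all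

lemma geo_le {q : ℝ} (h0 : 0 ≤ q) (h1 : q < 1) (n : ℕ) : ∑ k ∈ range n, q ^ k ≤ (1 - q)⁻¹ := by
  rw [← tsum_geometric_of_lt_one h0 h1]
  exact (summable_geometric_of_lt_one h0 h1).sum_le_tsum _ fun i _ => by positivity

lemma schur {q : ℝ} (h0 : 0 ≤ q) (h1 : q < 1) (x : ℕ → ℝ) (n : ℕ) :
    ∑ Y ∈ range n, ∑ j ∈ range (Y + 1), q ^ (Y - j) * (x Y * x j)
      ≤ (1 - q)⁻¹ * ∑ Y ∈ range n, x Y ^ 2 := by
  have e1 : ∑ Y ∈ range n, ∑ j ∈ range (Y + 1), q ^ (Y - j) * x Y ^ 2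
      ≤ (1 - q)⁻¹ * ∑ Y ∈ range n, x Y ^ 2 := by
    rw [mul_sum]
    refine sum_le_sum fun Y _ => ?_
    rw [← sum_mul]
    refine mul_le_mul_of_nonneg_right ?_ (sq_nonneg _)
    have := sum_range_reflect (fun k => q ^ k) (Y + 1)
    simp only [Nat.add_sub_cancel] at this
    rw [this]
    exact geo_le h0 h1 _
  have e2 : ∑ Y ∈ range n, ∑ j ∈ range (Y + 1), q ^ (Y - j) * x j ^ 2
      ≤ (1 - q)⁻¹ * ∑ Y ∈ range n, x Y ^ 2 := by
    rw [sum_range_diag_flip n (fun k l => q ^ l * x k ^ 2), mul_sum]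
    refine sum_le_sum fun Y _ => ?_
    rw [← sum_mul]
    exact mul_le_mul_of_nonneg_right (geo_le h0 h1 _) (sq_nonneg _)
  have e3 : ∑ Y ∈ range n, ∑ j ∈ range (Y + 1), q ^ (Y - j) * (x Y * x j)
      ≤ ∑ Y ∈ range n, ∑ j ∈ range (Y + 1),
        (q ^ (Y - j) * x Y ^ 2 + q ^ (Y - j) * x j ^ 2) / 2 := by
    refine sum_le_sum fun Y _ => sum_le_sum fun j _ => ?_
    have hq : 0 ≤ q ^ (Y - j) := pow_nonneg h0 _
    have : x Y * x j ≤ (x Y ^ 2 + x j ^ 2) / 2 := by nlinarith [sq_nonneg (x Y - x j)]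
    have := mul_le_mul_of_nonneg_left this hq
    linarith
  refine e3.trans ?_
  have e4 : ∑ Y ∈ range n, ∑ j ∈ range (Y + 1),
        (q ^ (Y - j) * x Y ^ 2 + q ^ (Y - j) * x j ^ 2) / 2
      = (∑ Y ∈ range n, ∑ j ∈ range (Y + 1), q ^ (Y - j) * x Y ^ 2
        + ∑ Y ∈ range n, ∑ j ∈ range (Y + 1), q ^ (Y - j) * x j ^ 2) / 2 := by
    rw [← sum_add_distrib, sum_div]
    refine sum_congr rfl fun Y _ => ?_
    rw [← sum_add_distrib, sum_div]
  rw [e4]
  linarith

lemma expand {n : ℕ} (w T U : ℕ → ℝ) {Y j : ℕ} (hY : Y < n) (hj : j < n) :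
    ∑ s ∈ range n, w s * ((T Y + if Y = s then U Y else 0) * (T j + if j = s then U j else 0))
      = (∑ s ∈ range n, w s) * (T Y * T j) + w Y * U Y * T j + w j * (T Y * U j)
        + if Y = j then w Y * (U Y * U j) else 0 := by
  have e1 : ∀ s ∈ range n,
      w s * ((T Y + if Y = s then U Y else 0) * (T j + if j = s then U j else 0))
      = w s * (T Y * T j) + (if Y = s then w s * U Y * T j else 0)
        + (if j = s then w s * (T Y * U j) else 0)
        + (if Y = s then (if Y = j then w s * (U Y * U j) else 0) else 0) := by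
    intro s _
    by_cases h1 : Y = s
    · subst h1
      by_cases h2 : j = Y
      · subst h2; simp only [if_true]; ring
      · have h3 : ¬ Y = j := fun h => h2 h.symm
        simp only [if_true, if_neg h2, if_neg h3]; ring
    · by_cases h2 : j = s
      · simp only [if_neg h1, if_pos h2]; ring
      · simp only [if_neg h1, if_neg h2]; ring
  rw [sum_congr rfl e1, sum_add_distrib, sum_add_distrib, sum_add_distrib, ← sum_mul,
    sum_ite_eq, sum_ite_eq, sum_ite_eq]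
  simp only [mem_range, if_pos hY, if_pos hj]

/-- background rates -/
noncomputable def TT (b γ : ℝ) (r : ℕ → ℝ) (s : ℕ) : ℝ :=
  Real.exp (1 + (-(b / 2) + 4 * γ) * s) * r s

/-- inserted rates -/
noncomputable def UU (b γ : ℝ) (r : ℕ → ℝ) (s : ℕ) : ℝ := Real.exp (γ * s) * TT b γ r s

noncomputable def vv (b γ : ℝ) (s0 Y : ℕ) : ℝ :=
  if Y < s0 then 0 else 65 * (1 + b * Y) * Real.exp (2 * γ * Y)

noncomputable def zz (b γ : ℝ) (s0 j : ℕ) : ℝ := if j < s0 then 0 else Real.exp ((b + γ) * j)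

noncomputable def ww (γ A0 : ℝ) (m s0 s : ℕ) : ℝ :=
  if s < s0 then 0 else 17600 * (m : ℝ) ^ 2 * A0 * s * Real.exp (-(γ * s))

section
variable {b γ ρ A0 η : ℝ} {m s0 : ℕ} {r : ℕ → ℝ}

lemma TT_nonneg (hr : ∀ s, 0 ≤ r s) (s : ℕ) : 0 ≤ TT b γ r s :=
  mul_nonneg (Real.exp_nonneg _) (hr s)

lemma UU_nonneg (hr : ∀ s, 0 ≤ r s) (s : ℕ) : 0 ≤ UU b γ r s :=
  mul_nonneg (Real.exp_nonneg _) (TT_nonneg hr s)

lemma vv_nonneg (hb : 0 < b) (Y : ℕ) : 0 ≤ vv b γ s0 Y := by
  unfold vv; split_ifs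
  · exact le_rfl
  · positivity

lemma zz_nonneg (j : ℕ) : 0 ≤ zz b γ s0 j := by
  unfold zz; split_ifs
  · exact le_rfl
  · positivity

lemma ww_nonneg (hA : 1 ≤ A0) (s : ℕ) : 0 ≤ ww γ A0 m s0 s := by
  unfold ww; split_ifs
  · exact le_rfl
  · have : 0 ≤ A0 := by linarith
    positivity

lemma TT_le (hρ : 8 * γ + ρ ≤ 3 * b / 8) (hr : ∀ s, r s ≤ Real.exp (ρ * s)) (s : ℕ) :
    TT b γ r s ≤ Real.exp 1 * Real.exp (-(b / 8 * s) - 4 * γ * s) := by
  unfold TT
  refine (mul_le_mul_of_nonneg_left (hr s) (Real.exp_nonneg _)).trans ?_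
  rw [← Real.exp_add, ← Real.exp_add]
  refine Real.exp_le_exp.mpr ?_
  have hs : (0 : ℝ) ≤ s := by positivity
  nlinarith

lemma UU_le (hρ : 8 * γ + ρ ≤ 3 * b / 8) (hr : ∀ s, r s ≤ Real.exp (ρ * s)) (s : ℕ) :
    UU b γ r s ≤ Real.exp 1 * Real.exp (-(b / 8 * s) - 3 * γ * s) := by
  unfold UU
  refine (mul_le_mul_of_nonneg_left (TT_le hρ hr s) (Real.exp_nonneg _)).trans ?_
  rw [← Real.exp_add, ← Real.exp_add, ← Real.exp_add]
  refine Real.exp_le_exp.mpr ?_
  linarith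

lemma TT_le_UU (hγ : 0 ≤ γ) (hr : ∀ s, 0 ≤ r s) (s : ℕ) : TT b γ r s ≤ UU b γ r s := by
  unfold UU
  exact le_mul_of_one_le_left (TT_nonneg hr s) (Real.one_le_exp (by positivity))

/-- linear part -/
lemma lin_num (G : Good b γ ρ A0 m η s0) (hb : 0 < b) (hγ : 0 < γ) (hρ : 8 * γ + ρ ≤ 3 * b / 8)
    (hr0 : ∀ s, 0 ≤ r s) (hr : ∀ s, r s ≤ Real.exp (ρ * s)) (n : ℕ) :
    ∑ Y ∈ range n, vv b γ s0 Y * (TT b γ r Y + UU b γ r Y) * Real.exp (γ * Y) ≤ 1 := by
  refine le_trans ?_ (G.f5 n)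
  rw [← sum_cut]
  refine sum_le_sum fun Y _ => ?_
  unfold vv
  split_ifs with h
  · simp
  · have h1 := UU_le hρ hr Y
    have h2 := TT_le_UU (b := b) hγ.le hr0 Y
    have h3 : TT b γ r Y + UU b γ r Y ≤ 2 * (Real.exp 1 * Real.exp (-(b / 8 * Y) - 3 * γ * Y)) := by
      linarith
    have hc : 0 ≤ 65 * (1 + b * Y) * Real.exp (2 * γ * Y) := by positivity
    calc 65 * (1 + b * Y) * Real.exp (2 * γ * Y) * (TT b γ r Y + UU b γ r Y) * Real.exp (γ * Y)
        ≤ 65 * (1 + b * Y) * Real.exp (2 * γ * Y) *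
          (2 * (Real.exp 1 * Real.exp (-(b / 8 * Y) - 3 * γ * Y))) * Real.exp (γ * Y) :=
          mul_le_mul_of_nonneg_right (mul_le_mul_of_nonneg_left h3 hc) (Real.exp_nonneg _)
      _ = 130 * Real.exp 1 * (1 + b * Y) * (Real.exp (2 * γ * Y) *
          Real.exp (-(b / 8 * Y) - 3 * γ * Y) * Real.exp (γ * Y)) := by ring
      _ = 130 * Real.exp 1 * (1 + b * Y) * Real.exp (-(b / 8 * Y)) := by
          rw [← Real.exp_add, ← Real.exp_add]
          congr 2
          ring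
      _ ≤ 520 * Real.exp 1 * (1 + b * Y) * Real.exp (-(b / 8 * Y)) := by
          have : 0 ≤ Real.exp 1 * (1 + b * Y) * Real.exp (-(b / 8 * Y)) := by positivity
          nlinarith

lemma W_num (G : Good b γ ρ A0 m η s0) (n : ℕ) :
    (∑ s ∈ range n, ww γ A0 m s0 s) * (2 + 2 * A0 / γ) ≤ η / 8 := by
  refine le_trans (le_of_eq ?_) (G.f4 n)
  unfold ww
  rw [sum_cut, sum_mul]

lemma W_num1 (G : Good b γ ρ A0 m η s0) (hγ : 0 < γ) (hA : 1 ≤ A0) (hη : 0 < η) (n : ℕ) :
    ∑ s ∈ range n, ww γ A0 m s0 s ≤ η / 16 := by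
  have h1 := W_num G n
  have h2 : 0 ≤ ∑ s ∈ range n, ww γ A0 m s0 s := sum_nonneg fun s _ => ww_nonneg hA s
  have h3 : 0 ≤ 2 * A0 / γ := by positivity
  nlinarith

/-- one cell of the quadratic form -/
lemma cell (G : Good b γ ρ A0 m η s0) (hb : 0 < b) (hγ : 0 < γ) (hA : 1 ≤ A0)
    (hr0 : ∀ s, 0 ≤ r s) {Y j : ℕ} (hj : j ≤ Y) {W : ℝ} (hW0 : 0 ≤ W) (hW : W ≤ 1) :
    vv b γ s0 Y * zz b γ s0 j * (W * (TT b γ r Y * TT b γ r j)
      + ww γ A0 m s0 Y * UU b γ r Y * TT b γ r j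
      + ww γ A0 m s0 j * (TT b γ r Y * UU b γ r j))
      ≤ 3 * (Real.exp (-(b / 2)) ^ (Y - j) * ((Real.exp (9 * γ * Y) * r Y) *
        (Real.exp (9 * γ * j) * r j))) := by
  have hrhs : 0 ≤ 3 * (Real.exp (-(b / 2)) ^ (Y - j) * ((Real.exp (9 * γ * Y) * r Y) *
        (Real.exp (9 * γ * j) * r j))) := by
    have := hr0 Y; have := hr0 j; positivity
  by_cases hY : Y < s0
  · have : vv b γ s0 Y = 0 := by unfold vv; rw [if_pos hY]
    rw [this]; simpa using hrhs
  by_cases hj0 : j < s0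
  · have : zz b γ s0 j = 0 := by unfold zz; rw [if_pos hj0]
    rw [this]; simpa using hrhs
  have hY' : s0 ≤ Y := by omega
  have hj' : s0 ≤ j := by omega
  have e1 : (1 : ℝ) ≤ Real.exp 1 := Real.one_le_exp (by norm_num)
  have hww : ∀ s, s0 ≤ s → ww γ A0 m s0 s * UU b γ r s ≤ Real.exp (γ * s) * TT b γ r s := by
    intro s hs
    unfold ww UU
    rw [if_neg (by omega)]
    have h1 := G.p2 s hs
    have h2 : 17600 * (m : ℝ) ^ 2 * A0 * s * Real.exp (-(γ * s)) * (Real.exp (γ * s) * TT b γ r s)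
        = 17600 * (m : ℝ) ^ 2 * A0 * s * TT b γ r s := by
      rw [Real.exp_neg]
      field_simp
    rw [h2]
    refine mul_le_mul_of_nonneg_right ?_ (TT_nonneg hr0 s)
    refine le_trans ?_ h1
    have : 0 ≤ 17600 * (m : ℝ) ^ 2 * A0 * s := by
      have : 0 ≤ A0 := by linarith
      positivity
    exact le_mul_of_one_le_right this e1
  have hT := TT_nonneg (b := b) (γ := γ) hr0
  have h1 : W * (TT b γ r Y * TT b γ r j) ≤ Real.exp (γ * Y) * (TT b γ r Y * TT b γ r j) := by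
    refine mul_le_mul_of_nonneg_right (hW.trans (Real.one_le_exp (by positivity)))
      (mul_nonneg (hT Y) (hT j))
  have h2 : ww γ A0 m s0 Y * UU b γ r Y * TT b γ r j
      ≤ Real.exp (γ * Y) * (TT b γ r Y * TT b γ r j) := by
    have := mul_le_mul_of_nonneg_right (hww Y hY') (hT j)
    linarith
  have h3 : ww γ A0 m s0 j * (TT b γ r Y * UU b γ r j)
      ≤ Real.exp (γ * Y) * (TT b γ r Y * TT b γ r j) := by
    have h4 := mul_le_mul_of_nonneg_right (hww j hj') (hT Y)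
    have h5 : Real.exp (γ * j) ≤ Real.exp (γ * Y) := by
      refine Real.exp_le_exp.mpr ?_
      have : (j : ℝ) ≤ Y := by exact_mod_cast hj
      nlinarith
    have h6 := mul_le_mul_of_nonneg_right h5 (mul_nonneg (hT Y) (hT j))
    linarith
  have hvz : 0 ≤ vv b γ s0 Y * zz b γ s0 j := mul_nonneg (vv_nonneg hb _) (zz_nonneg _)
  refine (mul_le_mul_of_nonneg_left (add_le_add (add_le_add h1 h2) h3) hvz).trans ?_
  unfold vv zz TT
  rw [if_neg hY, if_neg hj0]
  have hp := G.p1 Y hY'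
  have hq : Real.exp 1 ≤ Real.exp (γ * Y) := by
    have : 65 * Real.exp 1 * 1 ≤ 65 * Real.exp 1 * (1 + b * Y) := by
      refine mul_le_mul_of_nonneg_left ?_ (by positivity)
      have : 0 ≤ b * Y := by positivity
      linarith
    nlinarith
  have hpow : Real.exp (-(b / 2)) ^ (Y - j) = Real.exp (-(b / 2) * (Y - j)) := by
    rw [← Real.exp_nat_mul, Nat.cast_sub hj]
    congr 1
    ring
  rw [hpow]
  have hR : 0 ≤ r Y * r j := mul_nonneg (hr0 Y) (hr0 j)
  calc 65 * (1 + b * Y) * Real.exp (2 * γ * Y) * Real.exp ((b + γ) * j) *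
        (Real.exp (γ * Y) * ((Real.exp (1 + (-(b / 2) + 4 * γ) * Y) * r Y) *
          (Real.exp (1 + (-(b / 2) + 4 * γ) * j) * r j))
        + Real.exp (γ * Y) * ((Real.exp (1 + (-(b / 2) + 4 * γ) * Y) * r Y) *
          (Real.exp (1 + (-(b / 2) + 4 * γ) * j) * r j))
        + Real.exp (γ * Y) * ((Real.exp (1 + (-(b / 2) + 4 * γ) * Y) * r Y) *
          (Real.exp (1 + (-(b / 2) + 4 * γ) * j) * r j)))
      = 3 * ((65 * Real.exp 1 * (1 + b * Y)) * Real.exp 1 *
          Real.exp (-(b / 2) * (Y - j) + 7 * γ * Y + 5 * γ * j) * (r Y * r j)) := by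
        have : Real.exp (2 * γ * Y) * Real.exp ((b + γ) * j) * (Real.exp (γ * Y) *
            (Real.exp (1 + (-(b / 2) + 4 * γ) * Y) * Real.exp (1 + (-(b / 2) + 4 * γ) * j)))
            = Real.exp 1 * Real.exp 1 *
              Real.exp (-(b / 2) * (Y - j) + 7 * γ * Y + 5 * γ * j) := by
          simp only [← Real.exp_add]
          congr 1
          ring
        calc _ = 3 * (65 * (1 + b * Y) * (r Y * r j)) *
              (Real.exp (2 * γ * Y) * Real.exp ((b + γ) * j) * (Real.exp (γ * Y) *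
            (Real.exp (1 + (-(b / 2) + 4 * γ) * Y) *
              Real.exp (1 + (-(b / 2) + 4 * γ) * j)))) := by ring
          _ = _ := by rw [this]; ring
    _ ≤ 3 * (Real.exp (γ * Y) * Real.exp (γ * Y) *
          Real.exp (-(b / 2) * (Y - j) + 7 * γ * Y + 5 * γ * j) * (r Y * r j)) := by
        refine mul_le_mul_of_nonneg_left ?_ (by norm_num)
        refine mul_le_mul_of_nonneg_right ?_ hR
        refine mul_le_mul_of_nonneg_right ?_ (Real.exp_nonneg _)
        exact mul_le_mul hp hq (Real.exp_nonneg _) (Real.exp_nonneg _)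
    _ = 3 * (Real.exp (-(b / 2) * (Y - j) + 9 * γ * Y + 5 * γ * j) * (r Y * r j)) := by
        rw [← Real.exp_add, ← Real.exp_add]
        congr 3
        ring
    _ ≤ 3 * (Real.exp (-(b / 2) * (Y - j) + 9 * γ * Y + 9 * γ * j) * (r Y * r j)) := by
        refine mul_le_mul_of_nonneg_left ?_ (by norm_num)
        refine mul_le_mul_of_nonneg_right ?_ hR
        refine Real.exp_le_exp.mpr ?_
        have : 0 ≤ γ * j := by positivity
        linarith
    _ = _ := by
        rw [Real.exp_add, Real.exp_add]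
        ring

/-- the diagonal of the quadratic form -/
lemma cell_diag (G : Good b γ ρ A0 m η s0) (hb : 0 < b) (hγ : 0 < γ) (hA : 1 ≤ A0)
    (hr0 : ∀ s, 0 ≤ r s) (Y : ℕ) :
    vv b γ s0 Y * zz b γ s0 Y * (ww γ A0 m s0 Y * (UU b γ r Y * UU b γ r Y))
      ≤ if Y < s0 then 0 else Real.exp (18 * γ * Y) * r Y ^ 2 := by
  by_cases hY : Y < s0
  · have : vv b γ s0 Y = 0 := by unfold vv; rw [if_pos hY]
    rw [this, if_pos hY]; simp
  have hY' : s0 ≤ Y := by omega
  rw [if_neg hY]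
  unfold vv zz ww UU TT
  rw [if_neg hY, if_neg hY, if_neg hY]
  have hp := G.p3 Y hY'
  have hp1 := G.p1 Y hY'
  have hq : Real.exp 1 ≤ Real.exp (γ * Y) := by
    have : 65 * Real.exp 1 * 1 ≤ 65 * Real.exp 1 * (1 + b * Y) := by
      refine mul_le_mul_of_nonneg_left ?_ (by positivity)
      have : 0 ≤ b * Y := by positivity
      linarith
    have := Real.exp_pos 1
    nlinarith
  have hR : 0 ≤ r Y ^ 2 := sq_nonneg _
  have e1 : Real.exp (2 * γ * Y) * Real.exp ((b + γ) * Y) * Real.exp (-(γ * Y)) *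
      (Real.exp (γ * Y) * Real.exp (1 + (-(b / 2) + 4 * γ) * Y)) ^ 2
      = Real.exp 1 * Real.exp 1 * Real.exp (12 * γ * Y) := by
    rw [pow_two]
    simp only [← Real.exp_add]
    congr 1
    ring
  calc 65 * (1 + b * Y) * Real.exp (2 * γ * Y) * Real.exp ((b + γ) * Y) *
        (17600 * (m : ℝ) ^ 2 * A0 * Y * Real.exp (-(γ * Y)) *
          (Real.exp (γ * Y) * (Real.exp (1 + (-(b / 2) + 4 * γ) * Y) * r Y) *
          (Real.exp (γ * Y) * (Real.exp (1 + (-(b / 2) + 4 * γ) * Y) * r Y))))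
      = 17600 * (m : ℝ) ^ 2 * A0 * Y * (65 * (1 + b * Y)) * (Real.exp (2 * γ * Y) *
          Real.exp ((b + γ) * Y) * Real.exp (-(γ * Y)) *
      (Real.exp (γ * Y) * Real.exp (1 + (-(b / 2) + 4 * γ) * Y)) ^ 2) * r Y ^ 2 := by ring
    _ = (17600 * (m : ℝ) ^ 2 * A0 * Y * (65 * (1 + b * Y)) * Real.exp 1) * Real.exp 1 *
          Real.exp (12 * γ * Y) * r Y ^ 2 := by rw [e1]; ring
    _ ≤ Real.exp (γ * Y) * Real.exp (γ * Y) * Real.exp (12 * γ * Y) * r Y ^ 2 := by
        refine mul_le_mul_of_nonneg_right ?_ hR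
        refine mul_le_mul_of_nonneg_right ?_ (Real.exp_nonneg _)
        exact mul_le_mul hp hq (Real.exp_nonneg _) (Real.exp_nonneg _)
    _ = Real.exp (14 * γ * Y) * r Y ^ 2 := by
        rw [← Real.exp_add, ← Real.exp_add]
        congr 2
        ring
    _ ≤ _ := by
        refine mul_le_mul_of_nonneg_right ?_ hR
        refine Real.exp_le_exp.mpr ?_
        have : 0 ≤ γ * Y := by positivity
        linarith

/-- the quadratic form -/
theorem main_num (G : Good b γ ρ A0 m η s0) (hb : 0 < b) (hγ : 0 < γ) (hA : 1 ≤ A0)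
    (hη : 0 < η) (hη1 : η ≤ 1) (hr0 : ∀ s, 0 ≤ r s) (n : ℕ) :
    ∑ s ∈ range n, ww γ A0 m s0 s * ∑ Y ∈ range n, vv b γ s0 Y *
        (TT b γ r Y + if Y = s then UU b γ r Y else 0) *
        ∑ j ∈ range (Y + 1), zz b γ s0 j * (TT b γ r j + if j = s then UU b γ r j else 0)
      ≤ ∑ Y ∈ range n, Real.exp (19 * γ * Y) * r Y ^ 2 := by
  obtain ⟨r', hr'⟩ : ∃ r' : ℕ → ℝ, r' = fun s => if s < s0 then 0 else r s := ⟨_, rfl⟩
  have hr'0 : ∀ s, 0 ≤ r' s := fun s => by
    rw [hr']; beta_reduce; split_ifs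
    · exact le_rfl
    · exact hr0 s
  -- exchange of the sums
  have e1 : ∑ s ∈ range n, ww γ A0 m s0 s * ∑ Y ∈ range n, vv b γ s0 Y *
        (TT b γ r Y + if Y = s then UU b γ r Y else 0) *
        ∑ j ∈ range (Y + 1), zz b γ s0 j * (TT b γ r j + if j = s then UU b γ r j else 0)
      = ∑ Y ∈ range n, ∑ j ∈ range (Y + 1), vv b γ s0 Y * zz b γ s0 j *
        ∑ s ∈ range n, ww γ A0 m s0 s * ((TT b γ r Y + if Y = s then UU b γ r Y else 0) *
          (TT b γ r j + if j = s then UU b γ r j else 0)) := by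
    simp only [mul_sum]
    rw [sum_comm]
    refine sum_congr rfl fun Y _ => ?_
    rw [sum_comm]
    refine sum_congr rfl fun j _ => sum_congr rfl fun s _ => ?_
    ring
  rw [e1]
  have hW1 := W_num1 G hγ hA hη n
  have hW0 : 0 ≤ ∑ s ∈ range n, ww γ A0 m s0 s := sum_nonneg fun s _ => ww_nonneg hA s
  have e2 : ∀ Y ∈ range n, ∑ j ∈ range (Y + 1), vv b γ s0 Y * zz b γ s0 j *
        ∑ s ∈ range n, ww γ A0 m s0 s * ((TT b γ r Y + if Y = s then UU b γ r Y else 0) *
          (TT b γ r j + if j = s then UU b γ r j else 0))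
      ≤ ∑ j ∈ range (Y + 1), 3 * (Real.exp (-(b / 2)) ^ (Y - j) *
        ((Real.exp (9 * γ * Y) * r' Y) * (Real.exp (9 * γ * j) * r' j)))
        + Real.exp (18 * γ * Y) * r' Y ^ 2 := by
    intro Y hY
    rw [mem_range] at hY
    have e3 : ∀ j ∈ range (Y + 1), vv b γ s0 Y * zz b γ s0 j *
        ∑ s ∈ range n, ww γ A0 m s0 s * ((TT b γ r Y + if Y = s then UU b γ r Y else 0) *
          (TT b γ r j + if j = s then UU b γ r j else 0))
        ≤ 3 * (Real.exp (-(b / 2)) ^ (Y - j) *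
        ((Real.exp (9 * γ * Y) * r' Y) * (Real.exp (9 * γ * j) * r' j)))
          + if Y = j then Real.exp (18 * γ * Y) * r' Y ^ 2 else 0 := by
      intro j hj
      have hjY : j ≤ Y := by rw [mem_range] at hj; omega
      rw [expand _ _ _ hY (by omega)]
      rw [mul_add]
      refine add_le_add ?_ ?_
      · by_cases h1 : Y < s0
        · have : vv b γ s0 Y = 0 := by unfold vv; rw [if_pos h1]
          rw [this]
          have := hr'0 Y; have := hr'0 j
          have : 0 ≤ 3 * (Real.exp (-(b / 2)) ^ (Y - j) *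
            ((Real.exp (9 * γ * Y) * r' Y) * (Real.exp (9 * γ * j) * r' j))) := by positivity
          simpa using this
        by_cases h2 : j < s0
        · have : zz b γ s0 j = 0 := by unfold zz; rw [if_pos h2]
          rw [this]
          have := hr'0 Y; have := hr'0 j
          have : 0 ≤ 3 * (Real.exp (-(b / 2)) ^ (Y - j) *
            ((Real.exp (9 * γ * Y) * r' Y) * (Real.exp (9 * γ * j) * r' j))) := by positivity
          simpa using this
        have h3 : r' Y = r Y := by rw [hr']; beta_reduce; rw [if_neg h1]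
        have h4 : r' j = r j := by rw [hr']; beta_reduce; rw [if_neg h2]
        rw [h3, h4]
        exact cell G hb hγ hA hr0 hjY hW0 (by linarith)
      · by_cases h1 : Y = j
        · subst h1
          rw [if_pos rfl, if_pos rfl]
          refine (cell_diag G hb hγ hA hr0 Y).trans ?_
          split_ifs with h2
          · positivity
          · have h3 : r' Y = r Y := by rw [hr']; beta_reduce; rw [if_neg h2]
            rw [h3]
        · rw [if_neg h1, if_neg h1, mul_zero]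
    refine (sum_le_sum e3).trans ?_
    rw [sum_add_distrib, sum_ite_eq, if_pos (mem_range.mpr (by omega))]
  refine (sum_le_sum e2).trans ?_
  rw [sum_add_distrib]
  have e4 : ∑ Y ∈ range n, ∑ j ∈ range (Y + 1), 3 * (Real.exp (-(b / 2)) ^ (Y - j) *
        ((Real.exp (9 * γ * Y) * r' Y) * (Real.exp (9 * γ * j) * r' j)))
      ≤ 3 * ((1 - Real.exp (-(b / 2)))⁻¹ * ∑ Y ∈ range n, (Real.exp (9 * γ * Y) * r' Y) ^ 2) := by
    have h1 : Real.exp (-(b / 2)) < 1 := Real.exp_lt_one_iff.mpr (by linarith)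
    have := schur (Real.exp_nonneg _) h1 (fun Y => Real.exp (9 * γ * Y) * r' Y) n
    refine le_trans (le_of_eq ?_) (mul_le_mul_of_nonneg_left this (by norm_num : (0 : ℝ) ≤ 3))
    rw [mul_sum]
    exact sum_congr rfl fun Y _ => by rw [mul_sum]
  refine (add_le_add_left e4 _).trans ?_
  rw [mul_sum, mul_sum, ← sum_add_distrib]
  refine sum_le_sum fun Y _ => ?_
  by_cases h1 : Y < s0
  · have h3 : r' Y = 0 := by rw [hr']; beta_reduce; rw [if_pos h1]
    rw [h3]
    have : 0 ≤ Real.exp (19 * γ * Y) * r Y ^ 2 := by positivity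
    simpa using this
  have h3 : r' Y = r Y := by rw [hr']; beta_reduce; rw [if_neg h1]
  rw [h3]
  have hp := G.p4 Y (by omega)
  have e5 : (Real.exp (9 * γ * Y) * r Y) ^ 2 = Real.exp (18 * γ * Y) * r Y ^ 2 := by
    rw [mul_pow, ← Real.exp_nat_mul]
    congr 2
    push_cast
    ring
  rw [e5]
  have h6 : 0 ≤ Real.exp (18 * γ * Y) * r Y ^ 2 := by positivity
  calc 3 * ((1 - Real.exp (-(b / 2)))⁻¹ * (Real.exp (18 * γ * Y) * r Y ^ 2))
        + Real.exp (18 * γ * Y) * r Y ^ 2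
      = (3 / (1 - Real.exp (-(b / 2))) + 1) * (Real.exp (18 * γ * Y) * r Y ^ 2) := by
        rw [div_eq_mul_inv]; ring
    _ ≤ Real.exp (γ * Y) * (Real.exp (18 * γ * Y) * r Y ^ 2) :=
        mul_le_mul_of_nonneg_right hp h6
    _ = _ := by
        rw [← mul_assoc, ← Real.exp_add]
        congr 2
        ring

end

end Vale.Agent.P042.H461.LNum
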