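import Vale.Agent.P042.H461.LTrunc
import Vale.Agent.P042.H461.LNum2

/-! (F1*): the generating function of the component masses of a law satisfying the density and
pin hypotheses with scale-local losses `exp (γ s)`. -/

namespace Vale.Agent.P042.H779.Ab.Ll

open Finset Vale.Agent.P042.H482 Vale.Agent.P042.H461.LNum

set_option linter.unusedSectionVars false

section
variable {ι : Type*} [Fintype ι] [DecidableEq ι] {V : ι → Type*} [∀ i, Fintype (V i)]
  [∀ i, DecidableEq (V i)] {w : ∀ i, V i → ℝ} {μ : (∀ i, V i) → ℝ}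

/-- The hypotheses on the law, with losses `exp (γ s)` at the scale `s`. -/
structure Law (b γ A0 : ℝ) (w : ∀ i, V i → ℝ) (μ : (∀ i, V i) → ℝ) (sc : ι → ℕ) (ns : ℕ)
    (ℓ : ι → ℝ) (Λ : ℝ) (L gH : ι → ℝ) (lam a : ℕ → ℝ) (c : ℕ → ι → ℝ) : Prop where
  ref : Ref w μ
  scn : ∀ i, sc i < ns
  card : ∀ s : ℕ, ((At sc s).card : ℝ) ≤ Real.exp (b * s)
  L1 : ∀ i, 1 ≤ L i
  LA : ∀ i, L i ≤ A0 * sc i
  atoms : ∀ i v, w i v = 0 ∨ Real.exp (-L i) ≤ w i v
  gH0 : ∀ i, 0 ≤ gH i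
  gH1 : ∀ i, gH i ≤ γ * sc i
  hlog : ∀ M, len ℓ M ≤ Λ → ∀ x, 0 < gdw w μ M x → Real.log (gdw w μ M x) ≤ ∑ i ∈ M, gH i
  lam1 : ∀ s : ℕ, Real.exp (-(γ * s)) ≤ lam s
  a0 : ∀ s, 0 ≤ a s
  a1 : ∀ s : ℕ, a s ≤ Real.exp (γ * s)
  c0 : ∀ s i, 0 ≤ c s i
  c1 : ∀ s i, c s i ≤ γ * sc i
  pe : ∀ s, ∀ P, P ⊆ Lo sc (s + 1) → len ℓ P ≤ 2 * Λ →
    ∑ x, μ x * Real.exp (lam s * ∑ j ∈ At sc s \ P, Di w (gdw w μ) j P x)
      ≤ Real.exp (∑ i ∈ P, c s i + a s)
  ℓ0 : ∀ i, 0 ≤ ℓ i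
  Λ0 : 0 < Λ
  ℓΛ : ∀ i, 4 * ℓ i ≤ Λ

omit [∀ i, DecidableEq (V i)] [∀ i, Fintype (V i)] in
lemma site_sum {b : ℝ} {sc : ι → ℕ} {s0 n : ℕ} (hcard : ∀ s : ℕ, ((At sc s).card : ℝ) ≤ Real.exp (b * s))
    (hs0 : ∀ i, s0 ≤ sc i) (S : Finset ι) (hS : ∀ i ∈ S, sc i < n) {f : ι → ℝ} {F : ℕ → ℝ}
    (hF : ∀ s, 0 ≤ F s) (hf : ∀ i ∈ S, f i ≤ F (sc i)) :
    ∑ i ∈ S, f i ≤ ∑ s ∈ range n, if s < s0 then 0 else Real.exp (b * s) * F s := by
  have e1 : ∑ s ∈ range n, ∑ i ∈ S.filter (fun i => sc i = s), f i = ∑ i ∈ S, f i :=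
    sum_fiberwise_of_maps_to (fun i hi => mem_range.mpr (hS i hi)) f
  rw [← e1]
  refine sum_le_sum fun s _ => ?_
  by_cases hs : s < s0
  · rw [if_pos hs]
    refine le_of_eq (sum_eq_zero fun i hi => ?_)
    have h1 := (mem_filter.mp hi).2
    have h2 := hs0 i
    omega
  · rw [if_neg hs]
    have h1 : ∑ i ∈ S.filter (fun i => sc i = s), f i ≤ ∑ i ∈ S.filter (fun i => sc i = s), F s := by
      refine sum_le_sum fun i hi => ?_
      have h2 := mem_filter.mp hi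
      have := hf i h2.1
      rw [h2.2] at this
      exact this
    refine h1.trans ?_
    rw [sum_const, nsmul_eq_mul]
    refine mul_le_mul_of_nonneg_right ?_ (hF s)
    refine le_trans ?_ (hcard s)
    have : S.filter (fun i => sc i = s) ⊆ At sc s := by
      intro i hi
      unfold At
      exact mem_filter.mpr ⟨mem_univ _, (mem_filter.mp hi).2⟩
    exact_mod_cast card_le_card this

end

/-- **(F1*), planted mass**: the planted mass of a law at the rates `t i = σ i exp (3 γ s + 1)`,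
`τ i = exp (-(3 γ s) - 1)` (so `τ i * t i = σ i`). -/
theorem F1_core {b γ ρ A0 η : ℝ} (hb : 0 < b) (hγ : 0 < γ) (hρ : 8 * γ + ρ ≤ 3 * b / 8)
    (hA : 1 ≤ A0) (hη : 0 < η) (hη1 : η ≤ 1) : ∃ s1 : ℕ, ∀ {ι : Type*} [Fintype ι]
    [DecidableEq ι] {V : ι → Type*} [∀ i, Fintype (V i)] [∀ i, DecidableEq (V i)]
    {w : ∀ i, V i → ℝ} {μ : (∀ i, V i) → ℝ} {sc : ι → ℕ} {ns : ℕ} {ℓ : ι → ℝ} {Λ : ℝ}
    {L gH : ι → ℝ} {lam a : ℕ → ℝ} {c : ℕ → ι → ℝ}
    [DecidablePred fun R : Finset ι => len ℓ R ≤ Λ],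
    Law b γ A0 w μ sc ns ℓ Λ L gH lam a c → (∀ i, s1 ≤ sc i) →
    ∀ {σ : ι → ℝ} {r : ℕ → ℝ}, (∀ i, 0 ≤ σ i) → (∀ s, 0 ≤ r s) →
    (∀ s : ℕ, r s ≤ Real.exp (ρ * s)) →
    (∀ i, σ i ≤ Real.exp ((-(b / 2) + γ) * sc i) * r (sc i)) →
    8 * ∑ i, σ i * Real.exp (4 * γ * sc i + 1) * ℓ i ≤ Λ →
    (∀ i, σ i * Real.exp (3 * γ * sc i + 1) ≤ 1 / 2) ∧
    8 * ∑ i, σ i * Real.exp (3 * γ * sc i + 1) * ℓ i ≤ Λ ∧
    Gm w (gdw w μ) (rw' (fun i => σ i * Real.exp (3 * γ * sc i + 1)) (fun R => len ℓ R ≤ Λ))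
      (fun i => Real.exp (-(3 * γ * sc i) - 1))
      ≤ Real.exp (η + ∑ j ∈ range ns, Real.exp (19 * γ * j) * r j ^ 2) := by
  obtain ⟨m, hm⟩ : ∃ m : ℕ, m = ⌈b / γ⌉₊ := ⟨_, rfl⟩
  have hm1 : 1 ≤ m := by
    rw [hm]
    exact Nat.one_le_iff_ne_zero.mpr (Nat.ceil_pos.mpr (div_pos hb hγ)).ne'
  have hmb : b ≤ γ * m := by
    have := Nat.le_ceil (b / γ)
    rw [← hm, div_le_iff₀ hγ] at this
    linarith
  obtain ⟨s1, hs1⟩ := exists_good (b := b) (γ := γ) (ρ := ρ) (A0 := A0) m hb hγ hA hη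
  refine ⟨s1, ?_⟩
  intro ι _ _ V _ _ w μ sc ns ℓ Λ L gH lam a c _ Lw hsc σ r σ0 r0 r1 σ1 hsum
  have G := hs1 s1 le_rfl
  obtain ⟨s0, hs0⟩ : ∃ s0, s0 = s1 := ⟨_, rfl⟩
  rw [← hs0] at G hsc
  -- parameters
  obtain ⟨τ, hτ⟩ : ∃ τ : ι → ℝ, τ = fun i => Real.exp (-(3 * γ * sc i) - 1) := ⟨_, rfl⟩
  obtain ⟨θ, hθ⟩ : ∃ θ : ι → ℝ, θ = fun i => Real.exp (-(γ * sc i)) := ⟨_, rfl⟩
  obtain ⟨t, ht⟩ : ∃ t : ι → ℝ, t = fun i => σ i * Real.exp (3 * γ * sc i + 1) := ⟨_, rfl⟩
  obtain ⟨u, hu⟩ : ∃ u : ι → ℝ, u = fun i => Real.exp (γ * sc i) * t i := ⟨_, rfl⟩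
  obtain ⟨K, hK⟩ : ∃ K : ℕ → ℝ, K = fun s : ℕ => Real.exp (γ * s) := ⟨_, rfl⟩
  obtain ⟨Lb, hLb⟩ : ∃ Lb : ℕ → ℝ, Lb = fun s : ℕ => if s < s0 then 0 else A0 * s := ⟨_, rfl⟩
  obtain ⟨κ, hκ⟩ : ∃ κ : ℝ, κ = γ / (2 * A0) := ⟨_, rfl⟩
  obtain ⟨qb, hqb⟩ : ∃ qb : ℕ → ℕ → ℝ, qb = fun s Y : ℕ => 65 * Real.exp (γ * Y) *
    (TT b γ r Y + if Y = s then UU b γ r Y else 0) := ⟨_, rfl⟩
  have hA0 : 0 < A0 := by linarith
  have hκ0 : 0 < κ := by rw [hκ]; positivity
  have hκi : κ⁻¹ = 2 * A0 / γ := by rw [hκ, inv_div]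
  have hsc0 : ∀ i, (s0 : ℝ) ≤ sc i := fun i => by exact_mod_cast hsc i
  have τ0 : ∀ i, 0 < τ i := fun i => by rw [hτ]; exact Real.exp_pos _
  have θ0 : ∀ i, 0 < θ i := fun i => by rw [hθ]; exact Real.exp_pos _
  have t0 : ∀ i, 0 ≤ t i := fun i => by rw [ht]; exact mul_nonneg (σ0 i) (Real.exp_nonneg _)
  have u0 : ∀ i, 0 ≤ u i := fun i => by rw [hu]; exact mul_nonneg (Real.exp_nonneg _) (t0 i)
  have hTT0 := TT_nonneg (b := b) (γ := γ) r0
  have hUU0 := UU_nonneg (b := b) (γ := γ) r0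
  -- rates
  have htT : ∀ i, t i ≤ TT b γ r (sc i) := by
    intro i
    rw [ht]
    unfold TT
    refine (mul_le_mul_of_nonneg_right (σ1 i) (Real.exp_nonneg _)).trans (le_of_eq ?_)
    rw [mul_right_comm, ← Real.exp_add]
    congr 2
    ring
  have huU : ∀ i, u i ≤ UU b γ r (sc i) := by
    intro i
    rw [hu]
    unfold UU
    exact mul_le_mul_of_nonneg_left (htT i) (Real.exp_nonneg _)
  have htu : ∀ i, t i ≤ u i := by
    intro i
    rw [hu]
    exact le_mul_of_one_le_left (t0 i) (Real.one_le_exp (by positivity))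
  have u1 : ∀ i, u i ≤ 1 / 2 := by
    intro i
    refine (huU i).trans ((UU_le hρ r1 (sc i)).trans ?_)
    have h1 := G.f3 (sc i) (hsc i)
    have h2 : Real.exp (-(b / 8 * sc i) - 3 * γ * sc i) ≤ (Real.exp (b / 8 * sc i))⁻¹ := by
      rw [← Real.exp_neg]
      refine Real.exp_le_exp.mpr ?_
      have : 0 ≤ 3 * γ * sc i := by positivity
      linarith
    have h3 := mul_le_mul_of_nonneg_left h2 (Real.exp_pos 1).le
    refine h3.trans ?_
    rw [← div_eq_mul_inv, div_le_iff₀ (Real.exp_pos _)]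
    linarith
  have hR : Rates t u sc ns K :=
    { t0 := t0
      t1 := fun i => (htu i).trans (u1 i)
      u0 := u0
      u1 := u1
      K0 := fun s => by rw [hK]; exact Real.exp_pos _
      Kt := fun i => by rw [hK, hu]
      scn := Lw.scn }
  have hLb0 : ∀ s, 0 ≤ Lb s := fun s => by
    rw [hLb]; beta_reduce; split_ifs
    · exact le_rfl
    · positivity
  have hD' : Dens w μ (fun R => len ℓ R ≤ Λ) sc L gH Lb :=
    { L1 := Lw.L1
      Lb1 := fun i => by
        rw [hLb]; beta_reduce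
        rw [if_neg (by have := hsc i; omega)]
        exact Lw.LA i
      Lb0 := hLb0
      gH0 := Lw.gH0
      atoms := Lw.atoms
      hlog := Lw.hlog }
  have hlam0 : ∀ s, 0 < lam s := fun s => (Real.exp_pos _).trans_le (Lw.lam1 s)
  have hP : Pins w μ sc (fun R => len ℓ R ≤ 2 * Λ) lam a c :=
    { lam0 := hlam0
      a0 := Lw.a0
      c0 := Lw.c0
      down := fun P Q hPQ hQ => (len_mono Lw.ℓ0 hPQ).trans hQ
      pe := Lw.pe }
  -- lengths
  have hΛ := Lw.Λ0
  have hsu : ∑ i, u i * ℓ i = ∑ i, σ i * Real.exp (4 * γ * sc i + 1) * ℓ i := by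
    refine sum_congr rfl fun i _ => ?_
    rw [hu, ht]
    beta_reduce
    have : Real.exp (4 * γ * sc i + 1) = Real.exp (γ * sc i) * Real.exp (3 * γ * sc i + 1) := by
      rw [← Real.exp_add]; congr 1; ring
    rw [this]; ring
  have hst : ∑ i, t i * ℓ i = ∑ i, σ i * Real.exp (3 * γ * sc i + 1) * ℓ i :=
    sum_congr rfl fun i _ => by rw [ht]
  have hu8 : 8 * ∑ i, u i * ℓ i ≤ Λ := by rw [hsu]; exact hsum
  have htu' : ∑ i, t i * ℓ i ≤ ∑ i, u i * ℓ i :=
    sum_le_sum fun i _ => mul_le_mul_of_nonneg_right (htu i) (Lw.ℓ0 i)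
  have hus : ∀ s, ∑ i, us u sc s i * ℓ i ≤ ∑ i, u i * ℓ i := by
    intro s
    refine sum_le_sum fun i _ => mul_le_mul_of_nonneg_right ?_ (Lw.ℓ0 i)
    unfold us
    split_ifs
    · exact le_rfl
    · exact u0 i
  have hB : ∀ s, Wts (rw' t (fun R => len ℓ R ≤ Λ)) (rw' (us u sc s) (fun R => len ℓ R ≤ Λ)) t
      (us u sc s) (fun R => len ℓ R ≤ 2 * Λ) (1 / 4) := by
    intro s
    have h1 := hus s
    refine wts_len t0 (fun i => (hR.t1 i).trans (by norm_num)) ?_ ?_ Lw.ℓ0 hΛ Lw.ℓΛ (by linarith) ?_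
    · intro i; unfold us; split_ifs
      · exact u0 i
      · exact le_rfl
    · intro i; unfold us; split_ifs
      · exact (u1 i).trans (by norm_num)
      · norm_num
    · rw [div_le_iff₀ hΛ]; linarith
  -- exponents
  have hexpm : ∀ i, θ i ^ m ≤ Real.exp (-(b * sc i)) := by
    intro i
    rw [hθ]; beta_reduce
    rw [← Real.exp_nat_mul]
    refine Real.exp_le_exp.mpr ?_
    have h1 : (0 : ℝ) ≤ sc i := by positivity
    nlinarith
  have hτm : ∀ i, 16 * m * τ i ≤ 1 := by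
    intro i
    have h1 := G.f1 (sc i) (hsc i)
    have h2 : τ i ≤ (Real.exp (γ * sc i))⁻¹ := by
      rw [hτ, ← Real.exp_neg]
      refine Real.exp_le_exp.mpr ?_
      have : 0 ≤ γ * sc i := by positivity
      linarith
    calc 16 * m * τ i ≤ Real.exp (γ * sc i) * (Real.exp (γ * sc i))⁻¹ :=
          mul_le_mul h1 h2 (τ0 i).le (Real.exp_nonneg _)
      _ = 1 := mul_inv_cancel₀ (Real.exp_pos _).ne'
  have hbig : ∀ i, 2 * gH i + 1 ≤ Real.log (θ i / τ i) := by
    intro i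
    rw [hθ, hτ]; beta_reduce
    rw [← Real.exp_sub, Real.log_exp]
    have := Lw.gH1 i
    linarith
  have hgh : ∀ i, gH i * θ i ^ m ≤ 1 / 8 := by
    intro i
    have h1 := G.f2 (sc i) (hsc i)
    have h2 : gH i * θ i ^ m ≤ γ * sc i * Real.exp (-(b * sc i)) :=
      mul_le_mul (Lw.gH1 i) (hexpm i) (pow_nonneg (θ0 i).le _) (by positivity)
    refine h2.trans ?_
    rw [Real.exp_neg, ← div_eq_mul_inv, div_le_iff₀ (Real.exp_pos _)]
    linarith
  have hTi : ∀ s Y, 0 ≤ TT b γ r Y + if Y = s then UU b γ r Y else 0 := fun s Y => by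
    split_ifs
    · exact add_nonneg (hTT0 Y) (hUU0 Y)
    · simpa using hTT0 Y
  have hTi' : ∀ s Y, (TT b γ r Y + if Y = s then UU b γ r Y else 0) ≤ TT b γ r Y + UU b γ r Y :=
    fun s Y => by
      split_ifs
      · exact le_rfl
      · have := hUU0 Y; linarith
  have hti : ∀ s i, t i + us u sc s i
      ≤ TT b γ r (sc i) + if sc i = s then UU b γ r (sc i) else 0 := by
    intro s i
    unfold us
    split_ifs
    · exact add_le_add (htT i) (huU i)
    · exact add_le_add (htT i) le_rfl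
  have hus0 : ∀ s i, 0 ≤ us u sc s i := fun s i => by
    unfold us; split_ifs
    · exact u0 i
    · exact le_rfl
  have qb0 : ∀ s Y, 0 ≤ qb s Y := fun s Y => by
    rw [hqb]
    exact mul_nonneg (by positivity) (hTi s Y)
  have qb1 : ∀ s i, Mk κ L i * (t i + us u sc s i) ≤ qb s (sc i) := by
    intro s i
    rw [hqb]
    refine mul_le_mul ?_ (hti s i) (add_nonneg (t0 i) (hus0 s i)) (by positivity)
    unfold Mk
    refine mul_le_mul_of_nonneg_left (Real.exp_le_exp.mpr ?_) (by norm_num)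
    have h1 := Lw.LA i
    have h2 : 2 * κ * L i ≤ 2 * κ * (A0 * sc i) := mul_le_mul_of_nonneg_left h1 (by positivity)
    refine h2.trans (le_of_eq ?_)
    rw [hκ]
    field_simp
  -- the harmonic factors
  have hHn : ∀ Y : ℕ, Hn (At sc Y).card / lam Y ≤
      if Y < s0 then 0 else (1 + b * Y) * Real.exp (γ * Y) := by
    intro Y
    by_cases hY : Y < s0
    · rw [if_pos hY]
      have : At sc Y = ∅ := by
        refine eq_empty_of_forall_notMem fun i hi => ?_
        have h1 := (mem_filter.mp hi).2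
        have h2 := hsc i
        omega
      rw [this]
      simp [Hn]
    · rw [if_neg hY]
      have h1 : Hn (At sc Y).card ≤ 1 + b * Y := by
        refine (Hn_le _).trans ?_
        rcases Nat.eq_zero_or_pos (At sc Y).card with h0 | h0
        · rw [h0]; simp; positivity
        · have h2 : (0 : ℝ) < ((At sc Y).card : ℝ) := by exact_mod_cast h0
          have := Real.log_le_log h2 (Lw.card Y)
          rw [Real.log_exp] at this
          linarith
      have h2 : (lam Y)⁻¹ ≤ Real.exp (γ * Y) := by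
        have := inv_anti₀ (Real.exp_pos _) (Lw.lam1 Y)
        rwa [← Real.exp_neg, neg_neg] at this
      rw [div_eq_mul_inv]
      exact mul_le_mul h1 h2 (inv_nonneg.mpr (hlam0 Y).le) (by positivity)
  have hqv : ∀ s Y : ℕ, qb s Y * Hn (At sc Y).card / lam Y
      ≤ vv b γ s0 Y * (TT b γ r Y + if Y = s then UU b γ r Y else 0) := by
    intro s Y
    rw [mul_div_assoc]
    refine (mul_le_mul_of_nonneg_left (hHn Y) (qb0 s Y)).trans (le_of_eq ?_)
    rw [hqb]
    unfold vv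
    beta_reduce
    split_ifs
    · ring
    · have : Real.exp (2 * γ * Y) = Real.exp (γ * Y) * Real.exp (γ * Y) := by
        rw [← Real.exp_add]; congr 1; ring
      rw [this]; ring
    · ring
    · have : Real.exp (2 * γ * Y) = Real.exp (γ * Y) * Real.exp (γ * Y) := by
        rw [← Real.exp_add]; congr 1; ring
      rw [this]; ring
  have hq0 : ∀ s Y : ℕ, 0 ≤ qb s Y * Hn (At sc Y).card / lam Y := fun s Y =>
    div_nonneg (mul_nonneg (qb0 s Y) (Hn_nonneg _)) (hlam0 Y).le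
  have hlin := lin_num G hb hγ hρ r0 r1 ns
  have hqsum : ∀ s, ∑ Y ∈ range ns, qb s Y * Hn (At sc Y).card / lam Y * Real.exp (γ * Y) ≤ 1 := by
    intro s
    refine le_trans (sum_le_sum fun Y _ => ?_) hlin
    refine mul_le_mul_of_nonneg_right ?_ (Real.exp_nonneg _)
    exact (hqv s Y).trans (mul_le_mul_of_nonneg_left (hTi' s Y) (vv_nonneg hb Y))
  have hqsum1 : ∀ s, ∑ Y ∈ range ns, qb s Y * Hn (At sc Y).card / lam Y ≤ 1 := by
    intro s
    refine le_trans (sum_le_sum fun Y _ => ?_) (hqsum s)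
    exact le_mul_of_one_le_right (hq0 s Y) (Real.one_le_exp (by positivity))
  have hwLb : ∀ s : ℕ, 17600 * (m : ℝ) ^ 2 * (Lb s / K s) = ww γ A0 m s0 s := by
    intro s
    rw [hLb, hK]
    unfold ww
    beta_reduce
    split_ifs
    · simp
    · rw [Real.exp_neg, div_eq_mul_inv]; ring
  have hLK0 : ∀ s, 0 ≤ Lb s / K s := fun s => div_nonneg (hLb0 s) (hR.K0 s).le
  have hW := W_num G ns
  -- the coefficient of the entropy
  have hα : αα sc ns K qb Lb (1 / 8) κ m lam ≤ 1 := by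
    unfold αα
    have h1 : 17600 * (m : ℝ) ^ 2 * ∑ s ∈ range ns, Lb s / K s *
        (1 + κ⁻¹ + ∑ Y ∈ range ns, qb s Y * Hn (At sc Y).card / lam Y)
        ≤ (∑ s ∈ range ns, ww γ A0 m s0 s) * (2 + 2 * A0 / γ) := by
      rw [mul_sum, sum_mul]
      refine sum_le_sum fun s _ => ?_
      rw [← mul_assoc, hwLb]
      refine mul_le_mul_of_nonneg_left ?_ (ww_nonneg hA s)
      have := hqsum1 s
      rw [hκi]
      linarith
    linarith
  -- MULTI
  have hmul := multi (w := w) (μ := μ) (ok := fun R => len ℓ R ≤ Λ)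
    (ok' := fun R => len ℓ R ≤ 2 * Λ) (t := t) (u := u) (sc := sc) (ns := ns) (K := K) (L := L)
    (gH := gH) (τ := τ) (θ := θ) (Lb := Lb) (lam := lam) (a := a) (c := c)
    (β' := fun s => rw' (us u sc s) (fun R => len ℓ R ≤ Λ)) (ε := fun _ => 1 / 4) (qb := qb)
    (h := 1 / 8) (κ := κ) (m := m) Lw.ref hR hD' hP
    (fun R S hRS hS => (len_mono Lw.ℓ0 hRS).trans hS) hB (fun _ => by norm_num) hm1 τ0 hτm θ0
    hbig hκ0 (by norm_num) hgh qb0 qb1 hα
  -- the error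
  obtain ⟨Q, hQ⟩ : ∃ Q, Q = ∑ j ∈ range ns, Real.exp (19 * γ * j) * r j ^ 2 := ⟨_, rfl⟩
  have hX : XX t u sc ns K qb τ θ gH Lb κ m (fun _ => 1 / 4) lam a c ≤ η + Q := by
    unfold XX
    -- first term
    have x1 : 4 * ∑ i, t i * (gH i * θ i ^ m) ≤ η / 8 := by
      refine le_trans ?_ (G.f6 ns)
      have h1 : ∑ i, t i * (gH i * θ i ^ m) ≤ ∑ s ∈ range ns, if s < s0 then 0 else
          Real.exp (b * s) * (TT b γ r s * (γ * s * Real.exp (-(b * s)))) := by
        refine site_sum Lw.card hsc univ (fun i _ => Lw.scn i)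
          (F := fun s : ℕ => TT b γ r s * (γ * s * Real.exp (-(b * s))))
          (fun s => mul_nonneg (hTT0 s) (by positivity)) fun i _ => ?_
        refine mul_le_mul (htT i) ?_ (mul_nonneg (Lw.gH0 i) (pow_nonneg (θ0 i).le _)) (hTT0 _)
        exact mul_le_mul (Lw.gH1 i) (hexpm i) (pow_nonneg (θ0 i).le _) (by positivity)
      refine (mul_le_mul_of_nonneg_left h1 (by norm_num)).trans ?_
      rw [← sum_cut, mul_sum]
      refine sum_le_sum fun s _ => ?_
      split_ifs with hs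
      · simp
      · have h2 := TT_le (b := b) hρ r1 s
        have h3 : Real.exp (b * s) * Real.exp (-(b * s)) = 1 := by
          rw [← Real.exp_add, add_neg_cancel, Real.exp_zero]
        have h4 : TT b γ r s ≤ Real.exp 1 * Real.exp (-(b / 8 * s)) := by
          refine h2.trans (mul_le_mul_of_nonneg_left (Real.exp_le_exp.mpr ?_) (Real.exp_nonneg _))
          have : 0 ≤ 4 * γ * s := by positivity
          linarith
        calc 4 * (Real.exp (b * s) * (TT b γ r s * (γ * s * Real.exp (-(b * s)))))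
            = 4 * (γ * s) * TT b γ r s * (Real.exp (b * s) * Real.exp (-(b * s))) := by ring
          _ = 4 * (γ * s) * TT b γ r s := by rw [h3, mul_one]
          _ ≤ _ := mul_le_mul_of_nonneg_left h4 (by positivity)
    -- second term
    have x2 : 16 * ∑ i, τ i * t i * ((15 * τ i) ^ m) ^ 2 ≤ η / 8 := by
      refine le_trans ?_ (G.f7 ns)
      have h1 : ∑ i, τ i * t i * ((15 * τ i) ^ m) ^ 2 ≤ ∑ s ∈ range ns, if s < s0 then 0 else
          Real.exp (b * s) * (TT b γ r s * ((15 : ℝ) ^ (2 * m) * Real.exp (-(2 * b * s)))) := by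
        refine site_sum Lw.card hsc univ (fun i _ => Lw.scn i)
          (F := fun s : ℕ => TT b γ r s * ((15 : ℝ) ^ (2 * m) * Real.exp (-(2 * b * s))))
          (fun s => mul_nonneg (hTT0 s) (by positivity)) fun i _ => ?_
        have h2 : τ i ≤ 1 := by
          rw [hτ]
          refine Real.exp_le_one_iff.mpr ?_
          have : 0 ≤ 3 * γ * (sc i : ℝ) := by positivity
          linarith
        have h3 : τ i ^ (2 * m) ≤ Real.exp (-(2 * b * sc i)) := by
          rw [hτ]; beta_reduce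
          rw [← Real.exp_nat_mul]
          refine Real.exp_le_exp.mpr ?_
          push_cast
          have h1 : (0 : ℝ) ≤ sc i := by positivity
          have h4 : b * sc i ≤ γ * m * sc i := mul_le_mul_of_nonneg_right hmb h1
          have h5 : (0 : ℝ) ≤ m := by positivity
          have h6 : 0 ≤ γ * m * sc i := by positivity
          nlinarith
        calc τ i * t i * ((15 * τ i) ^ m) ^ 2
            = τ i * t i * ((15 : ℝ) ^ (2 * m) * τ i ^ (2 * m)) := by
              rw [← mul_pow, ← pow_mul, mul_comm m 2]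
          _ ≤ 1 * TT b γ r (sc i) * ((15 : ℝ) ^ (2 * m) * Real.exp (-(2 * b * sc i))) := by
              refine mul_le_mul ?_ (mul_le_mul_of_nonneg_left h3 (by positivity)) ?_ ?_
              · exact mul_le_mul h2 (htT i) (t0 i) (by norm_num)
              · have := (τ0 i).le; positivity
              · rw [one_mul]; exact hTT0 _
          _ = _ := by rw [one_mul]
      refine (mul_le_mul_of_nonneg_left h1 (by norm_num)).trans ?_
      rw [← sum_cut, mul_sum]
      refine sum_le_sum fun s _ => ?_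
      split_ifs with hs
      · simp
      · have h2 := TT_le (b := b) hρ r1 s
        have h4 : TT b γ r s ≤ Real.exp 1 := by
          refine h2.trans (mul_le_of_le_one_right (Real.exp_nonneg _) (Real.exp_le_one_iff.mpr ?_))
          have : 0 ≤ 4 * γ * s := by positivity
          have : 0 ≤ b / 8 * s := by positivity
          linarith
        have h3 : Real.exp (b * s) * Real.exp (-(2 * b * s)) = Real.exp (-(b * s)) := by
          rw [← Real.exp_add]; congr 1; ring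
        calc 16 * (Real.exp (b * s) * (TT b γ r s * ((15 : ℝ) ^ (2 * m) *
              Real.exp (-(2 * b * s)))))
            = 16 * (15 : ℝ) ^ (2 * m) * (TT b γ r s *
              (Real.exp (b * s) * Real.exp (-(2 * b * s)))) := by ring
          _ = 16 * (15 : ℝ) ^ (2 * m) * (TT b γ r s * Real.exp (-(b * s))) := by rw [h3]
          _ ≤ _ := by
              refine mul_le_mul_of_nonneg_left ?_ (by positivity)
              exact mul_le_mul_of_nonneg_right h4 (Real.exp_nonneg _)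
    -- third term
    have x3 : 17600 * (m : ℝ) ^ 2 * ∑ s ∈ range ns, Lb s / K s * (κ⁻¹ * (1 / 4) +
        ∑ Y ∈ range ns, qb s Y * Hn (At sc Y).card / lam Y *
          (1 / 4 + Es t (us u sc s) sc a c Y)) ≤ η / 8 + Q := by
      have h1 : ∀ s Y : ℕ, Es t (us u sc s) sc a c Y ≤ Real.exp (γ * Y) +
          ∑ j ∈ range (Y + 1), zz b γ s0 j *
            (TT b γ r j + if j = s then UU b γ r j else 0) := by
        intro s Y
        unfold Es
        refine add_le_add (Lw.a1 Y) ?_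
        refine (site_sum (n := Y + 1) Lw.card hsc (Lo sc (Y + 1))
          (fun i hi => (mem_filter.mp hi).2)
          (F := fun j : ℕ => (TT b γ r j + if j = s then UU b γ r j else 0) * Real.exp (γ * j))
          (fun j => mul_nonneg (hTi s j) (Real.exp_nonneg _)) fun i _ => ?_).trans ?_
        · refine mul_le_mul (hti s i) ?_ ?_ (hTi s _)
          · have := Real.exp_le_exp.mpr (Lw.c1 Y i)
            linarith
          · have := Real.one_le_exp (Lw.c0 Y i)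
            linarith
        · refine sum_le_sum fun j _ => ?_
          unfold zz
          by_cases hj : j < s0
          · rw [if_pos hj, if_pos hj, zero_mul]
          · rw [if_neg hj, if_neg hj]
            have : Real.exp ((b + γ) * j) = Real.exp (b * j) * Real.exp (γ * j) := by
              rw [← Real.exp_add]; congr 1; ring
            rw [this]
            exact le_of_eq (by ring)
      have h2 : ∀ s ∈ range ns, 17600 * (m : ℝ) ^ 2 * (Lb s / K s * (κ⁻¹ * (1 / 4) +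
          ∑ Y ∈ range ns, qb s Y * Hn (At sc Y).card / lam Y *
          (1 / 4 + Es t (us u sc s) sc a c Y)))
          ≤ ww γ A0 m s0 s * (2 + 2 * A0 / γ) + ww γ A0 m s0 s * ∑ Y ∈ range ns, vv b γ s0 Y *
            (TT b γ r Y + if Y = s then UU b γ r Y else 0) *
            ∑ j ∈ range (Y + 1), zz b γ s0 j *
              (TT b γ r j + if j = s then UU b γ r j else 0) := by
        intro s _
        rw [← mul_assoc, hwLb, ← mul_add]
        refine mul_le_mul_of_nonneg_left ?_ (ww_nonneg hA s)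
        have h3 : ∑ Y ∈ range ns, qb s Y * Hn (At sc Y).card / lam Y *
            (1 / 4 + Es t (us u sc s) sc a c Y)
            ≤ (1 / 4) * ∑ Y ∈ range ns, qb s Y * Hn (At sc Y).card / lam Y
              + ∑ Y ∈ range ns, qb s Y * Hn (At sc Y).card / lam Y * Real.exp (γ * Y)
              + ∑ Y ∈ range ns, vv b γ s0 Y *
                (TT b γ r Y + if Y = s then UU b γ r Y else 0) *
                ∑ j ∈ range (Y + 1), zz b γ s0 j *
                (TT b γ r j + if j = s then UU b γ r j else 0) := by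
          rw [mul_sum, ← sum_add_distrib, ← sum_add_distrib]
          refine sum_le_sum fun Y _ => ?_
          have h4 := mul_le_mul_of_nonneg_left (h1 s Y) (hq0 s Y)
          have h5 : 0 ≤ ∑ j ∈ range (Y + 1), zz b γ s0 j *
                (TT b γ r j + if j = s then UU b γ r j else 0) :=
            sum_nonneg fun j _ => mul_nonneg (zz_nonneg j) (hTi s j)
          have h6 := mul_le_mul_of_nonneg_right (hqv s Y) h5
          linarith
        have h7 := hqsum s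
        have h8 := hqsum1 s
        have h9 : 0 ≤ κ⁻¹ := inv_nonneg.mpr hκ0.le
        rw [hκi] at h9 ⊢
        linarith
      rw [mul_sum]
      refine (sum_le_sum h2).trans ?_
      rw [sum_add_distrib, ← sum_mul]
      have h10 := main_num G hb hγ hA hη hη1 r0 ns
      rw [← hQ] at h10
      exact add_le_add hW h10
    linarith
  have hfam : Fam w (gdw w μ) (fun R => len ℓ R ≤ Λ) :=
    Lw.ref.fam fun R S hRS hS => (len_mono Lw.ℓ0 hRS).trans hS
  have ht1 : ∀ i, t i ≤ 1 := fun i => (hR.t1 i).trans (by norm_num)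
  have hGm0 : 0 ≤ Gm w (gdw w μ) (rw' t (fun R => len ℓ R ≤ Λ)) τ := by
    have hτ1 : ∀ i, τ i < 1 := fun i => by
      have h1 := hτm i
      have h2 := τ0 i
      have : (1 : ℝ) ≤ m := by exact_mod_cast hm1
      nlinarith
    unfold Gm
    exact sum_nonneg fun R _ => mul_nonneg ((wt_rw' t t0 ht1).nonneg R) (sum_nonneg fun A _ =>
        mul_nonneg (bw_pos τ0 hτ1 R A).le (Wq_nonneg hfam A))
  have hGe : Gm w (gdw w μ) (rw' t (fun R => len ℓ R ≤ Λ)) τ ≤ Real.exp (η + Q) := by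
    rcases hGm0.eq_or_lt with h | h
    · rw [← h]; exact Real.exp_nonneg _
    · rw [← Real.log_le_iff_le_exp h]
      exact hmul.trans hX
  rw [← hQ, ← hst]
  refine ⟨fun i => ?_, by linarith, ?_⟩
  · have := hR.t1 i
    rw [ht] at this
    exact this
  · rw [ht, hτ] at hGe
    exact hGe

/-- **(F1*)**: for all rates `σ i ≤ n_i^(-1/2+γ) r`, with radii `0 ≤ r s ≤ exp (ρ s)`, the sum of
the component masses over a family of sets of length at most `Λ / 2` is at most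
`2 exp (η + ∑ exp (19 γ j) r_j^2)`. -/
theorem F1 {b γ ρ A0 η : ℝ} (hb : 0 < b) (hγ : 0 < γ) (hρ : 8 * γ + ρ ≤ 3 * b / 8) (hA : 1 ≤ A0)
    (hη : 0 < η) (hη1 : η ≤ 1) : ∃ s1 : ℕ, ∀ {ι : Type*} [Fintype ι] [DecidableEq ι]
    {V : ι → Type*} [∀ i, Fintype (V i)] [∀ i, DecidableEq (V i)] {w : ∀ i, V i → ℝ}
    {μ : (∀ i, V i) → ℝ} {sc : ι → ℕ} {ns : ℕ} {ℓ : ι → ℝ} {Λ : ℝ} {L gH : ι → ℝ} {lam a : ℕ → ℝ}
    {c : ℕ → ι → ℝ}, Law b γ A0 w μ sc ns ℓ Λ L gH lam a c → (∀ i, s1 ≤ sc i) →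
    ∀ {σ : ι → ℝ} {r : ℕ → ℝ}, (∀ i, 0 ≤ σ i) → (∀ s, 0 ≤ r s) →
    (∀ s : ℕ, r s ≤ Real.exp (ρ * s)) →
    (∀ i, σ i ≤ Real.exp ((-(b / 2) + γ) * sc i) * r (sc i)) →
    8 * ∑ i, σ i * Real.exp (4 * γ * sc i + 1) * ℓ i ≤ Λ →
    ∀ D : Finset (Finset ι), (∀ B ∈ D, 2 * len ℓ B ≤ Λ) →
    (∑ B ∈ D, (∏ i ∈ B, σ i) * nh w (gdw w μ) B
      ≤ 2 * Real.exp (η + ∑ j ∈ range ns, Real.exp (19 * γ * j) * r j ^ 2)) ∧
    (∅ ∉ D → ∑ B ∈ D, (∏ i ∈ B, σ i) * nh w (gdw w μ) B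
      ≤ 2 * (Real.exp (η + ∑ j ∈ range ns, Real.exp (19 * γ * j) * r j ^ 2) - 1
        + 2 * (∑ i, σ i * Real.exp (3 * γ * sc i + 1) * ℓ i) / Λ)) := by
  obtain ⟨s1, hs1⟩ := F1_core hb hγ hρ hA hη hη1
  refine ⟨s1, ?_⟩
  intro ι _ _ V _ _ w μ sc ns ℓ Λ L gH lam a c Lw hsc σ r σ0 r0 r1 σ1 hsum D hD
  classical
  obtain ⟨ht1, ht8, hGe⟩ := hs1 Lw hsc σ0 r0 r1 σ1 hsum
  have hfam : Fam w (gdw w μ) (fun R => len ℓ R ≤ Λ) :=
    Lw.ref.fam fun R S hRS hS => (len_mono Lw.ℓ0 hRS).trans hS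
  have hfin : ∑ B ∈ D, (∏ i ∈ B, σ i) * nh w (gdw w μ) B
      = ∑ B ∈ D, (∏ i ∈ B, Real.exp (-(3 * γ * sc i) - 1) *
        (σ i * Real.exp (3 * γ * sc i + 1))) * nh w (gdw w μ) B := by
    refine sum_congr rfl fun B _ => ?_
    rw [prod_congr rfl fun i _ => ?_]
    rw [mul_left_comm, ← Real.exp_add]
    have : -(3 * γ * (sc i : ℝ)) - 1 + (3 * γ * sc i + 1) = 0 := by ring
    rw [this, Real.exp_zero, mul_one]
  have t0 : ∀ i, 0 ≤ σ i * Real.exp (3 * γ * sc i + 1) := fun i =>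
    mul_nonneg (σ0 i) (Real.exp_nonneg _)
  have t1 : ∀ i, σ i * Real.exp (3 * γ * sc i + 1) ≤ 1 := fun i => (ht1 i).trans (by norm_num)
  rw [hfin]
  refine ⟨?_, fun hDe => ?_⟩
  · have := trunc_len' hfam (τ := fun i => Real.exp (-(3 * γ * sc i) - 1)) t0 t1 Lw.ℓ0
      (fun i => (Real.exp_pos _).le) Lw.Λ0 D hD ht8
    linarith
  · have := trunc_len'' hfam (τ := fun i => Real.exp (-(3 * γ * sc i) - 1)) t0 t1 Lw.ℓ0
      (fun i => (Real.exp_pos _).le) Lw.Λ0 D hD hDe ht8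
    linarith

end Vale.Agent.P042.H779.Ab.Ll
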