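import Vale.Agent.P042.H461.LF1

/-! Second moments of the densities at a random set of coordinates (Bernoulli with the rates
`σ i`, truncated by length). -/

namespace Vale.Agent.P042.H779.Ab.Ll

open Finset Vale.Agent.P042.H482 Vale.Agent.P042.H461.LNum

set_option linter.unusedSectionVars false

section
variable {ι : Type*} [Fintype ι] [DecidableEq ι] {V : ι → Type*} [∀ i, Fintype (V i)]
  {w : ∀ i, V i → ℝ} {g : Finset ι → (∀ i, V i) → ℝ}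

/-- thinning of the truncated Bernoulli weight -/
lemma rw'_thin {ℓ t τ : ι → ℝ} (t0 : ∀ i, 0 ≤ t i) (t1 : ∀ i, t i ≤ 1) (τ0 : ∀ i, 0 ≤ τ i)
    (τ1 : ∀ i, τ i < 1) (hℓ : ∀ i, 0 ≤ ℓ i) {Λ : ℝ} (hΛ : 0 < Λ) (T : Finset ι)
    (hT : 2 * len ℓ T ≤ Λ) [DecidablePred fun R : Finset ι => len ℓ R ≤ Λ] :
    bt (fun i => τ i * t i) T * (1 - 2 * (∑ i, t i * ℓ i) / Λ) ≤
      ∑ R ∈ (univ : Finset ι).powerset.filter (fun R => T ⊆ R),
        rw' t (fun R => len ℓ R ≤ Λ) R * bw τ R T := by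
  have hσ : ∀ i, τ i * t i < 1 := fun i => by
    have h1 := mul_le_mul_of_nonneg_left (t1 i) (τ0 i)
    have h2 := τ1 i
    linarith
  obtain ⟨s, hs⟩ : ∃ s : ι → ℝ, s = fun i => t i * (1 - τ i) / (1 - τ i * t i) := ⟨_, rfl⟩
  have hd : ∀ i, 0 < 1 - τ i * t i := fun i => by linarith [hσ i]
  have hs0 : ∀ i, 0 ≤ s i := fun i => by
    rw [hs]
    exact div_nonneg (mul_nonneg (t0 i) (by linarith [τ1 i])) (hd i).le
  have hst : ∀ i, s i ≤ t i := fun i => by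
    rw [hs]; beta_reduce
    rw [div_le_iff₀ (hd i)]
    have h1 := mul_le_mul_of_nonneg_left (t1 i) (τ0 i)
    have h2 := mul_le_mul_of_nonneg_left h1 (t0 i)
    linarith
  have hs1 : ∀ i, s i ≤ 1 := fun i => (hst i).trans (t1 i)
  have hs' : ∀ i, (1 - τ i * t i) * s i = t i * (1 - τ i) := fun i => by
    rw [hs]; beta_reduce
    rw [mul_div_cancel₀ _ (hd i).ne']
  have hs'' : ∀ i, (1 - τ i * t i) * (1 - s i) = 1 - t i := fun i => by
    rw [mul_sub, mul_one, hs' i]; ring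
  rw [sum_supersets (subset_univ T)]
  have h1 := fw_markov_len hs0 hs1 hℓ (univ \ T) (K := Λ / 2) (by positivity)
  have h0 : 0 ≤ bt (fun i => τ i * t i) T := bt_nonneg (fun i => mul_nonneg (τ0 i) (t0 i))
    (fun i => (hσ i).le) T
  have e1 : (∑ i, s i * ℓ i) / (Λ / 2) ≤ 2 * (∑ i, t i * ℓ i) / Λ := by
    have h2 : ∑ i, s i * ℓ i ≤ ∑ i, t i * ℓ i :=
      sum_le_sum fun i _ => mul_le_mul_of_nonneg_right (hst i) (hℓ i)
    rw [div_le_div_iff₀ (by positivity) hΛ]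
    nlinarith
  have h2 : bt (fun i => τ i * t i) T * (1 - 2 * (∑ i, t i * ℓ i) / Λ)
      ≤ bt (fun i => τ i * t i) T * ∑ R ∈ (univ \ T).powerset,
        if len ℓ R ≤ Λ / 2 then fw s (univ \ T) R else 0 :=
    mul_le_mul_of_nonneg_left (by linarith) h0
  refine h2.trans ?_
  rw [mul_sum]
  refine sum_le_sum fun A hA => ?_
  rw [mem_powerset] at hA
  have hd2 : Disjoint T A := disjoint_left.mpr fun j hj hjA => (mem_sdiff.mp (hA hjA)).2 hj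
  have e3 : univ \ (T ∪ A) = (univ \ T) \ A := by
    ext j
    simp only [mem_sdiff, mem_univ, true_and, mem_union, not_or]
  have e4 : (T ∪ A) \ T = A := by
    ext j
    simp only [mem_sdiff, mem_union]
    constructor
    · rintro ⟨h | h, h'⟩
      · exact absurd h h'
      · exact h
    · exact fun h => ⟨Or.inr h, fun h' => disjoint_left.mp hd2 h' h⟩
  have e2 : ((∏ i ∈ T ∪ A, t i) * ∏ i ∈ univ \ (T ∪ A), (1 - t i)) * bw τ (T ∪ A) T
      = bt (fun i => τ i * t i) T * fw s (univ \ T) A := by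
    unfold fw bt bw
    rw [prod_union hd2, e3, e4]
    have e5 : ∏ i ∈ univ \ T, (1 - τ i * t i) = (∏ i ∈ A, (1 - τ i * t i)) *
        ∏ i ∈ (univ \ T) \ A, (1 - τ i * t i) := by
      rw [mul_comm, prod_sdiff hA]
    rw [e5]
    have e6 : (∏ i ∈ A, (1 - τ i * t i)) * ∏ i ∈ A, s i = ∏ i ∈ A, (t i * (1 - τ i)) := by
      rw [← prod_mul_distrib]
      exact prod_congr rfl fun i _ => hs' i
    have e7 : (∏ i ∈ (univ \ T) \ A, (1 - τ i * t i)) * ∏ i ∈ (univ \ T) \ A, (1 - s i)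
        = ∏ i ∈ (univ \ T) \ A, (1 - t i) := by
      rw [← prod_mul_distrib]
      exact prod_congr rfl fun i _ => hs'' i
    calc (∏ i ∈ T, t i) * (∏ i ∈ A, t i) * (∏ i ∈ (univ \ T) \ A, (1 - t i)) *
          ((∏ i ∈ T, τ i) * ∏ i ∈ A, (1 - τ i))
        = (∏ i ∈ T, τ i) * (∏ i ∈ T, t i) * ((∏ i ∈ A, t i) * ∏ i ∈ A, (1 - τ i)) *
          ∏ i ∈ (univ \ T) \ A, (1 - t i) := by ring
      _ = (∏ i ∈ T, τ i) * (∏ i ∈ T, t i) * (∏ i ∈ A, (t i * (1 - τ i))) *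
          ∏ i ∈ (univ \ T) \ A, (1 - t i) := by rw [prod_mul_distrib (f := t)]
      _ = _ := by
          rw [← e6, ← e7, prod_mul_distrib (f := τ)]
          ring
  unfold rw'
  by_cases h3 : len ℓ A ≤ Λ / 2
  · rw [if_pos h3]
    have h4 : len ℓ (T ∪ A) ≤ Λ := by
      have := len_union_le hℓ T A
      linarith
    rw [if_pos h4, e2]
  · rw [if_neg h3, mul_zero]
    split_ifs
    · rw [e2]
      exact mul_nonneg h0 (fw_nonneg hs0 hs1 _ _)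
    · rw [zero_mul]

/-- second moments at a random set of length at most `Λ / 2`, from the planted mass -/
theorem trunc_T {ℓ t τ : ι → ℝ} {Λ : ℝ} [DecidablePred fun R : Finset ι => len ℓ R ≤ Λ]
    (F : Fam w g (fun R => len ℓ R ≤ Λ)) (t0 : ∀ i, 0 ≤ t i) (t1 : ∀ i, t i ≤ 1)
    (τ0 : ∀ i, 0 < τ i) (τ1 : ∀ i, τ i < 1) (hℓ : ∀ i, 0 ≤ ℓ i) (hΛ : 0 < Λ)
    (D : Finset (Finset ι)) (hD : ∀ T ∈ D, 2 * len ℓ T ≤ Λ) (hsum : 8 * ∑ i, t i * ℓ i ≤ Λ) :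
    ∑ T ∈ D, bt (fun i => τ i * t i) T * Wq w g T
      ≤ 2 * Gm w g (rw' t (fun R => len ℓ R ≤ Λ)) τ := by
  have hs : 0 ≤ ∑ i, t i * ℓ i := sum_nonneg fun i _ => mul_nonneg (t0 i) (hℓ i)
  have h2 : 2 * (∑ i, t i * ℓ i) / Λ ≤ 1 / 4 := by
    rw [div_le_iff₀ hΛ]
    linarith
  have hσ0 : ∀ i, 0 ≤ τ i * t i := fun i => mul_nonneg (τ0 i).le (t0 i)
  have hσ1 : ∀ i, τ i * t i ≤ 1 := fun i => by
    have h1 := mul_le_mul_of_nonneg_left (t1 i) (τ0 i).le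
    have h2 := τ1 i
    linarith
  have hβ0 : ∀ R, 0 ≤ rw' t (fun R => len ℓ R ≤ Λ) R := (wt_rw' t t0 t1).nonneg
  have e1 : Gm w g (rw' t (fun R => len ℓ R ≤ Λ)) τ
      = ∑ T ∈ (univ : Finset ι).powerset, (∑ R ∈ (univ : Finset ι).powerset.filter
        (fun R => T ⊆ R), rw' t (fun R => len ℓ R ≤ Λ) R * bw τ R T) * Wq w g T := by
    unfold Gm
    have e2 : ∀ R ∈ (univ : Finset ι).powerset, rw' t (fun R => len ℓ R ≤ Λ) R *
        ∑ A ∈ R.powerset, bw τ R A * Wq w g A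
        = ∑ T ∈ (univ : Finset ι).powerset, if T ⊆ R then
          rw' t (fun R => len ℓ R ≤ Λ) R * bw τ R T * Wq w g T else 0 := by
      intro R _
      rw [← sum_filter, mul_sum]
      have : (univ : Finset ι).powerset.filter (fun T => T ⊆ R) = R.powerset := by
        ext T
        simp only [mem_filter, mem_powerset]
        exact ⟨fun h => h.2, fun h => ⟨subset_univ _, h⟩⟩
      rw [this]
      exact sum_congr rfl fun A _ => by ring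
    rw [sum_congr rfl e2, sum_comm]
    refine sum_congr rfl fun T _ => ?_
    rw [← sum_filter, sum_mul]
  have h3 : ∑ T ∈ D, bt (fun i => τ i * t i) T * (3 / 4) * Wq w g T
      ≤ Gm w g (rw' t (fun R => len ℓ R ≤ Λ)) τ := by
    rw [e1]
    refine le_trans (sum_le_sum fun T hT => ?_) (sum_le_sum_of_subset_of_nonneg (s := D)
      (fun B _ => by simp) fun T _ _ => mul_nonneg (sum_nonneg fun R _ =>
        mul_nonneg (hβ0 R) (bw_pos τ0 τ1 R T).le) (Wq_nonneg F T))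
    refine mul_le_mul_of_nonneg_right ?_ (Wq_nonneg F T)
    refine le_trans ?_ (rw'_thin t0 t1 (fun i => (τ0 i).le) τ1 hℓ hΛ T (hD T hT))
    exact mul_le_mul_of_nonneg_left (by linarith) (bt_nonneg hσ0 hσ1 T)
  have h4 : 0 ≤ ∑ T ∈ D, bt (fun i => τ i * t i) T * Wq w g T :=
    sum_nonneg fun T _ => mul_nonneg (bt_nonneg hσ0 hσ1 T) (Wq_nonneg F T)
  have h5 : ∑ T ∈ D, bt (fun i => τ i * t i) T * (3 / 4) * Wq w g T
      = 3 / 4 * ∑ T ∈ D, bt (fun i => τ i * t i) T * Wq w g T := by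
    rw [mul_sum]
    exact sum_congr rfl fun T _ => by ring
  rw [h5] at h3
  linarith

end

/-- **second moments at a random set** of rates `σ i ≤ n_i^(-1/2+γ) r`, truncated by length. -/
theorem F1_mom {b γ ρ A0 η : ℝ} (hb : 0 < b) (hγ : 0 < γ) (hρ : 8 * γ + ρ ≤ 3 * b / 8)
    (hA : 1 ≤ A0) (hη : 0 < η) (hη1 : η ≤ 1) : ∃ s1 : ℕ, ∀ {ι : Type*} [Fintype ι]
    [DecidableEq ι] {V : ι → Type*} [∀ i, Fintype (V i)] [∀ i, DecidableEq (V i)]
    {w : ∀ i, V i → ℝ} {μ : (∀ i, V i) → ℝ} {sc : ι → ℕ} {ns : ℕ} {ℓ : ι → ℝ} {Λ : ℝ}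
    {L gH : ι → ℝ} {lam a : ℕ → ℝ} {c : ℕ → ι → ℝ},
    Law b γ A0 w μ sc ns ℓ Λ L gH lam a c → (∀ i, s1 ≤ sc i) →
    ∀ {σ : ι → ℝ} {r : ℕ → ℝ}, (∀ i, 0 ≤ σ i) → (∀ s, 0 ≤ r s) →
    (∀ s : ℕ, r s ≤ Real.exp (ρ * s)) →
    (∀ i, σ i ≤ Real.exp ((-(b / 2) + γ) * sc i) * r (sc i)) →
    8 * ∑ i, σ i * Real.exp (4 * γ * sc i + 1) * ℓ i ≤ Λ →
    (∀ i, σ i ≤ 1 / 2) ∧ ∀ D : Finset (Finset ι), (∀ T ∈ D, 2 * len ℓ T ≤ Λ) →
    ∑ T ∈ D, bt σ T * Wq w (gdw w μ) T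
      ≤ 2 * Real.exp (η + ∑ j ∈ range ns, Real.exp (19 * γ * j) * r j ^ 2) := by
  obtain ⟨s1, hs1⟩ := F1_core hb hγ hρ hA hη hη1
  refine ⟨s1 + 1, ?_⟩
  intro ι _ _ V _ _ w μ sc ns ℓ Λ L gH lam a c Lw hsc σ r σ0 r0 r1 σ1 hsum
  classical
  obtain ⟨ht1, ht8, hGe⟩ := hs1 Lw (fun i => (Nat.le_succ s1).trans (hsc i)) σ0 r0 r1 σ1 hsum
  refine ⟨fun i => ?_, fun D hD => ?_⟩
  · refine le_trans ?_ (ht1 i)
    refine le_mul_of_one_le_right (σ0 i) (Real.one_le_exp ?_)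
    positivity
  have hfam : Fam w (gdw w μ) (fun R => len ℓ R ≤ Λ) :=
    Lw.ref.fam fun R S hRS hS => (len_mono Lw.ℓ0 hRS).trans hS
  have t0 : ∀ i, 0 ≤ σ i * Real.exp (3 * γ * sc i + 1) := fun i =>
    mul_nonneg (σ0 i) (Real.exp_nonneg _)
  have t1 : ∀ i, σ i * Real.exp (3 * γ * sc i + 1) ≤ 1 := fun i => (ht1 i).trans (by norm_num)
  have τ1 : ∀ i, Real.exp (-(3 * γ * sc i) - 1) < 1 := fun i => by
    refine Real.exp_lt_one_iff.mpr ?_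
    have : 0 ≤ 3 * γ * (sc i : ℝ) := by positivity
    linarith
  have h1 := trunc_T hfam (τ := fun i => Real.exp (-(3 * γ * sc i) - 1)) t0 t1
    (fun i => Real.exp_pos _) τ1 Lw.ℓ0 Lw.Λ0 D hD ht8
  have e1 : (fun i => Real.exp (-(3 * γ * sc i) - 1) * (σ i * Real.exp (3 * γ * sc i + 1))) = σ := by
    funext i
    rw [mul_left_comm, ← Real.exp_add]
    have : -(3 * γ * (sc i : ℝ)) - 1 + (3 * γ * sc i + 1) = 0 := by ring
    rw [this, Real.exp_zero, mul_one]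
  rw [e1] at h1
  linarith

end Vale.Agent.P042.H779.Ab.Ll
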