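import Vale.Agent.P042.H461.LMain

/-! The planted mass is small: several scales, scale-local constants. -/

namespace Vale.Agent.P042.H779.Ab.Ll

open Finset

set_option linter.unusedSectionVars false

section
variable {ι : Type*} [Fintype ι] [DecidableEq ι] {V : ι → Type*} [∀ i, Fintype (V i)]
  [∀ i, DecidableEq (V i)] {w : ∀ i, V i → ℝ} {μ : (∀ i, V i) → ℝ}

lemma DD_le (H : Ref w μ) {β : Finset ι → ℝ} {t τ cc : ι → ℝ} (hβ0 : ∀ R, 0 ≤ β R)
    (hc0 : ∀ i, 0 ≤ cc i)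
    (hins : ∀ R i, i ∉ R → β (insert i R) ≤ 2 * t i * β R) (h0 : ∀ i, 0 < τ i)
    (h1 : ∀ i, τ i < 1) (ht0 : ∀ i, 0 ≤ t i) :
    DD w (gdw w μ) β τ cc ≤ 4 * ∑ i, cc i * (t i * Vi w μ β τ i) := by
  have hmain : ∀ R ∈ (univ : Finset ι).powerset,
      ∑ i ∈ univ \ R, cc i * (β (insert i R) * ∑ A ∈ R.powerset, bw τ R A *
        ∑ x, pw w x * (gdw w μ A x * gdw w μ R x *
          (Di w (gdw w μ) i R x + Di w (gdw w μ) i A x)))
      ≤ ∑ i, 4 * (cc i * (t i * (β R * ∑ A ∈ R.powerset, bw τ R A *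
        ∑ x, μ x * (gdw w μ A x * (if i ∈ R then 0 else Di w (gdw w μ) i R x))))) := by
    intro R _
    have e0 : ∑ i, 4 * (cc i * (t i * (β R * ∑ A ∈ R.powerset, bw τ R A *
        ∑ x, μ x * (gdw w μ A x * (if i ∈ R then 0 else Di w (gdw w μ) i R x)))))
        = ∑ i ∈ univ \ R, 4 * (cc i * (t i * (β R * ∑ A ∈ R.powerset, bw τ R A *
        ∑ x, μ x * (gdw w μ A x * (if i ∈ R then 0 else Di w (gdw w μ) i R x))))) := by
      symm
      refine sum_subset sdiff_subset fun i _ hi => ?_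
      have : i ∈ R := by simpa using hi
      simp [this]
    rw [e0]
    refine sum_le_sum fun i hi => ?_
    have hiR : i ∉ R := (mem_sdiff.mp hi).2
    have hA : ∀ A ∈ R.powerset, bw τ R A *
        ∑ x, pw w x * (gdw w μ A x * gdw w μ R x *
          (Di w (gdw w μ) i R x + Di w (gdw w μ) i A x))
        ≤ 2 * (bw τ R A * ∑ x, μ x * (gdw w μ A x *
          (if i ∈ R then 0 else Di w (gdw w μ) i R x))) := by
      intro A hA
      have hAR := mem_powerset.mp hA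
      rw [← mul_assoc, mul_comm 2, mul_assoc]
      refine mul_le_mul_of_nonneg_left ?_ (bw_pos h0 h1 R A).le
      have e1 : ∑ x, pw w x * (gdw w μ A x * gdw w μ R x *
          (Di w (gdw w μ) i R x + Di w (gdw w μ) i A x))
          = ∑ x, μ x * (gdw w μ A x * Di w (gdw w μ) i R x)
            + ∑ x, μ x * (gdw w μ A x * Di w (gdw w μ) i A x) := by
        rw [H.mu_sum (R := R) (((loc_gdw A).mono hAR).mul (loc_Di i R)),
          H.mu_sum (R := R) (((loc_gdw A).mono hAR).mul ((loc_Di i A).mono hAR)),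
          ← sum_add_distrib]
        exact sum_congr rfl fun x _ => by ring
      rw [e1]
      have h2 := Di_mono H (R \ A) (P := A) (i := i) sdiff_disjoint
        (by rw [union_sdiff_of_subset hAR]; exact hiR) (loc_gdw (w := w) (μ := μ) A)
        (fun x => H.famT.g_nonneg A x)
      rw [union_sdiff_of_subset hAR] at h2
      simp only [if_neg hiR]
      linarith
    have h3 := sum_le_sum hA
    rw [← mul_sum] at h3
    have hnn : 0 ≤ ∑ A ∈ R.powerset, bw τ R A * ∑ x, μ x * (gdw w μ A x *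
          (if i ∈ R then 0 else Di w (gdw w μ) i R x)) := by
      refine sum_nonneg fun A _ => mul_nonneg (bw_pos h0 h1 R A).le (sum_nonneg fun x _ =>
        mul_nonneg (H.prob.nonneg x) (mul_nonneg (H.famT.g_nonneg _ _) ?_))
      rw [if_neg hiR]
      exact Di_nonneg H.famT _ _ _
    have hb : 0 ≤ β (insert i R) := hβ0 _
    have h5 : β (insert i R) * ∑ A ∈ R.powerset, bw τ R A *
        ∑ x, pw w x * (gdw w μ A x * gdw w μ R x *
          (Di w (gdw w μ) i R x + Di w (gdw w μ) i A x))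
        ≤ 4 * (t i * (β R * ∑ A ∈ R.powerset, bw τ R A * ∑ x, μ x * (gdw w μ A x *
          (if i ∈ R then 0 else Di w (gdw w μ) i R x)))) :=
      calc β (insert i R) * ∑ A ∈ R.powerset, bw τ R A *
        ∑ x, pw w x * (gdw w μ A x * gdw w μ R x *
          (Di w (gdw w μ) i R x + Di w (gdw w μ) i A x))
        ≤ β (insert i R) * (2 * ∑ A ∈ R.powerset, bw τ R A * ∑ x, μ x * (gdw w μ A x *
          (if i ∈ R then 0 else Di w (gdw w μ) i R x))) := mul_le_mul_of_nonneg_left h3 hb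
      _ ≤ (2 * t i * β R) * (2 * ∑ A ∈ R.powerset, bw τ R A * ∑ x, μ x * (gdw w μ A x *
          (if i ∈ R then 0 else Di w (gdw w μ) i R x))) :=
        mul_le_mul_of_nonneg_right (hins R i hiR) (by linarith)
      _ = _ := by ring
    have h6 := mul_le_mul_of_nonneg_left h5 (hc0 i)
    linarith
  unfold DD
  refine (sum_le_sum hmain).trans (le_of_eq ?_)
  rw [sum_comm, mul_sum]
  refine sum_congr rfl fun i _ => ?_
  unfold Vi JJ ET
  rw [mul_sum, mul_sum, mul_sum]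

lemma SS_le (H : Ref w μ) {β : Finset ι → ℝ} {t τ cc : ι → ℝ} (hβ0 : ∀ R, 0 ≤ β R)
    (hc0 : ∀ i, 0 ≤ cc i) (ht0 : ∀ i, 0 ≤ t i)
    (hins : ∀ R i, i ∉ R → β (insert i R) ≤ 2 * t i * β R) (h0 : ∀ i, 0 < τ i)
    (h1 : ∀ i, τ i < 1) :
    SS w (gdw w μ) β τ cc ≤ 2 * (∑ i, cc i * t i) * Gm w (gdw w μ) β τ := by
  unfold SS Gm
  rw [mul_sum]
  refine sum_le_sum fun R _ => ?_
  have hq : 0 ≤ ∑ A ∈ R.powerset, bw τ R A * Wq w (gdw w μ) A :=
    sum_nonneg fun A _ => mul_nonneg (bw_pos h0 h1 R A).le (Wq_nonneg H.famT A)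
  have e1 : ∑ i ∈ univ \ R, cc i * (β (insert i R) *
      ∑ A ∈ R.powerset, bw τ R A * Wq w (gdw w μ) A)
      ≤ ∑ i ∈ univ \ R, cc i * ((2 * t i * β R) *
        ∑ A ∈ R.powerset, bw τ R A * Wq w (gdw w μ) A) :=
    sum_le_sum fun i hi => mul_le_mul_of_nonneg_left
      (mul_le_mul_of_nonneg_right (hins R i (mem_sdiff.mp hi).2) hq) (hc0 i)
  have e2 : ∑ i ∈ univ \ R, cc i * ((2 * t i * β R) *
        ∑ A ∈ R.powerset, bw τ R A * Wq w (gdw w μ) A)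
      ≤ ∑ i, cc i * ((2 * t i * β R) * ∑ A ∈ R.powerset, bw τ R A * Wq w (gdw w μ) A) :=
    sum_le_sum_of_subset_of_nonneg sdiff_subset fun i _ _ =>
      mul_nonneg (hc0 i) (mul_nonneg (mul_nonneg (mul_nonneg (by norm_num) (ht0 i)) (hβ0 R)) hq)
  refine (e1.trans e2).trans (le_of_eq ?_)
  have e3 : ∀ i, cc i * ((2 * t i * β R) * ∑ A ∈ R.powerset, bw τ R A * Wq w (gdw w μ) A)
      = (cc i * t i) * (2 * (β R * ∑ A ∈ R.powerset, bw τ R A * Wq w (gdw w μ) A)) :=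
    fun i => by ring
  rw [sum_congr rfl fun i _ => e3 i, ← sum_mul]
  ring

/-- Rates `t` of the background, rates `u` of the inserted sets, scales `sc`. -/
structure Rates (t u : ι → ℝ) (sc : ι → ℕ) (ns : ℕ) (K : ℕ → ℝ) : Prop where
  t0 : ∀ i, 0 ≤ t i
  t1 : ∀ i, t i ≤ 1 / 2
  u0 : ∀ i, 0 ≤ u i
  u1 : ∀ i, u i ≤ 1 / 2
  K0 : ∀ s, 0 < K s
  Kt : ∀ i, K (sc i) * t i ≤ u i
  scn : ∀ i, sc i < ns

/-- the rates of the set inserted at scale `s` -/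
noncomputable def us (u : ι → ℝ) (sc : ι → ℕ) (s : ℕ) (i : ι) : ℝ := if sc i = s then u i else 0

/-- Local data of the law: atoms and densities. -/
structure Dens (w : ∀ i, V i → ℝ) (μ : (∀ i, V i) → ℝ) (ok : Finset ι → Prop) (sc : ι → ℕ)
    (L gH : ι → ℝ) (Lb : ℕ → ℝ) : Prop where
  L1 : ∀ i, 1 ≤ L i
  Lb1 : ∀ i, L i ≤ Lb (sc i)
  Lb0 : ∀ s, 0 ≤ Lb s
  gH0 : ∀ i, 0 ≤ gH i
  atoms : ∀ i b, w i b = 0 ∨ Real.exp (-L i) ≤ w i b
  hlog : ∀ M, ok M → ∀ x, 0 < gdw w μ M x → Real.log (gdw w μ M x) ≤ ∑ i ∈ M, gH i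

/-- the coefficient of the entropy -/
noncomputable def αα (sc : ι → ℕ) (ns : ℕ) (K : ℕ → ℝ) (qb : ℕ → ℕ → ℝ) (Lb : ℕ → ℝ) (h κ : ℝ)
    (m : ℕ) (lam : ℕ → ℝ) : ℝ :=
  2 * h + 17600 * m ^ 2 * ∑ s ∈ range ns, Lb s / K s *
    (1 + κ⁻¹ + ∑ Y ∈ range ns, qb s Y * Hn (At sc Y).card / lam Y)

/-- the final error -/
noncomputable def XX (t u : ι → ℝ) (sc : ι → ℕ) (ns : ℕ) (K : ℕ → ℝ) (qb : ℕ → ℕ → ℝ)
    (τ θ gH : ι → ℝ) (Lb : ℕ → ℝ) (κ : ℝ) (m : ℕ) (ε : ℕ → ℝ) (lam a : ℕ → ℝ)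
    (c : ℕ → ι → ℝ) : ℝ :=
  4 * ∑ i, t i * (gH i * θ i ^ m) + 16 * ∑ i, τ i * t i * ((15 * τ i) ^ m) ^ 2
    + 17600 * m ^ 2 * ∑ s ∈ range ns, Lb s / K s * (κ⁻¹ * ε s +
      ∑ Y ∈ range ns, qb s Y * Hn (At sc Y).card / lam Y *
        (ε s + Es t (us u sc s) sc a c Y))

/-- **MULTI, scale-local form**: the planted mass of a law satisfying the density and pin
hypotheses; every parameter is attached to a coordinate or to a scale, except the number of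
replicas `m` and the exponent `κ`. -/
theorem multi {ok ok' : Finset ι → Prop} {t u : ι → ℝ} {sc : ι → ℕ} {ns : ℕ} {K : ℕ → ℝ}
    {L gH τ θ : ι → ℝ} {Lb : ℕ → ℝ} {lam a : ℕ → ℝ} {c : ℕ → ι → ℝ} {β' : ℕ → Finset ι → ℝ}
    {ε : ℕ → ℝ} {qb : ℕ → ℕ → ℝ} {h κ : ℝ} {m : ℕ}
    (H : Ref w μ) (A : Rates t u sc ns K) (D : Dens w μ ok sc L gH Lb)
    (P : Pins w μ sc ok' lam a c) [DecidablePred ok]
    (hok : ∀ R S : Finset ι, R ⊆ S → ok S → ok R)
    (B : ∀ s, Wts (rw' t ok) (β' s) t (us u sc s) ok' (ε s)) (hε : ∀ s, 0 ≤ ε s)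
    (hm : 1 ≤ m) (h0 : ∀ i, 0 < τ i) (hmτ : ∀ i, 16 * m * τ i ≤ 1) (hθ : ∀ i, 0 < θ i)
    (hbig : ∀ i, 2 * gH i + 1 ≤ Real.log (θ i / τ i)) (hκ : 0 < κ)
    (hh : 0 < h) (hgh : ∀ i, gH i * θ i ^ m ≤ h)
    (qb0 : ∀ s Y, 0 ≤ qb s Y) (qb1 : ∀ s i, Mk κ L i * (t i + us u sc s i) ≤ qb s (sc i))
    (hα : αα sc ns K qb Lb h κ m lam ≤ 1) :
    Real.log (Gm w (gdw w μ) (rw' t ok) τ)
      ≤ XX t u sc ns K qb τ θ gH Lb κ m ε lam a c := by
  obtain ⟨β, hβ⟩ : ∃ β, β = rw' t ok := ⟨_, rfl⟩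
  rw [← hβ] at B ⊢
  obtain ⟨G, hGd⟩ : ∃ G, G = Gm w (gdw w μ) β τ := ⟨_, rfl⟩
  have hm' : (1 : ℝ) ≤ m := by exact_mod_cast hm
  have h1 : ∀ i, τ i < 1 := fun i => by have := hmτ i; have := h0 i; nlinarith
  have hK := A.K0
  have ht1 : ∀ i, t i ≤ 1 := fun i => (A.t1 i).trans (by norm_num)
  have hus0 : ∀ s i, 0 ≤ us u sc s i := fun s i => by
    unfold us; split_ifs
    · exact A.u0 i
    · exact le_rfl
  have hus1 : ∀ s i, us u sc s i ≤ 1 / 2 := fun s i => by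
    unfold us; split_ifs
    · exact A.u1 i
    · norm_num
  have hE0 : ∀ s Y, 0 ≤ Es t (us u sc s) sc a c Y := fun s Y => Es_nonneg A.t0 (hus0 s) P Y
  have hb0 : ∀ R, 0 ≤ β R := by
    rw [hβ]; exact (wt_rw' t A.t0 ht1).nonneg
  have hX0 : 0 ≤ XX t u sc ns K qb τ θ gH Lb κ m ε lam a c := by
    unfold XX
    refine add_nonneg (add_nonneg ?_ ?_) ?_
    · refine mul_nonneg (by norm_num) (sum_nonneg fun i _ => mul_nonneg (A.t0 i)
        (mul_nonneg (D.gH0 i) (pow_nonneg (hθ i).le m)))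
    · refine mul_nonneg (by norm_num) (sum_nonneg fun i _ => mul_nonneg
        (mul_nonneg (h0 i).le (A.t0 i)) (sq_nonneg _))
    · refine mul_nonneg (by positivity) (sum_nonneg fun s _ => mul_nonneg
        (div_nonneg (D.Lb0 s) (hK s).le) (add_nonneg (mul_nonneg (inv_nonneg.mpr hκ.le) (hε s))
        (sum_nonneg fun Y _ => mul_nonneg (div_nonneg (mul_nonneg (qb0 s Y) (Hn_nonneg _))
        (P.lam0 Y).le) (add_nonneg (hε s) (hE0 s Y)))))
  rcases lt_or_ge G 1 with hG | hG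
  · have : Real.log G ≤ 0 := by
      refine Real.log_nonpos ?_ hG.le
      rw [hGd]
      unfold Gm
      exact sum_nonneg fun R _ => mul_nonneg (hb0 R) (sum_nonneg fun A _ =>
        mul_nonneg (bw_pos h0 h1 R A).le (Wq_nonneg H.famT A))
    rw [← hGd]
    linarith
  rw [← hGd]
  have hG1 : 1 ≤ Gm w (gdw w μ) β τ := by rw [← hGd]; exact hG
  have hG0 : 0 < G := by linarith
  have hGp : 0 < Gm w (gdw w μ) β τ := by linarith
  have hsum1 : ∑ R ∈ (univ : Finset ι).powerset, β R ≤ 1 := by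
    rw [hβ]; exact (wt_rw' t A.t0 ht1).sum_le
  have hKK0 := KK_nonneg H hb0 hsum1 h0 h1 hGp
  obtain ⟨k, hk⟩ : ∃ k, k = KK w μ β τ := ⟨_, rfl⟩
  have hins : ∀ R i, i ∉ R → β (insert i R) ≤ 2 * t i * β R := by
    intro R i hi
    rw [hβ]; exact rw'_insert_le t A.t0 A.t1 hok hi
  have hwt : Wt ok β := by rw [hβ]; exact wt_rw' t A.t0 ht1
  have hbt : ∀ R, β R ≤ bt t R := by
    rw [hβ]
    intro R
    unfold rw'
    split_ifs
    · exact le_rfl
    · exact bt_nonneg A.t0 ht1 R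
  have hF : Fam w (gdw w μ) ok := H.fam hok
  have hc := abs_core' hF hwt h0 hm hmτ D.L1 D.atoms hθ D.gH0 hbig D.hlog hG1
  -- entropy
  have e1 : EJ w (gdw w μ) β τ (fun A _ x => Real.log (gdw w μ A x)) = k + G * Real.log G := by
    rw [← JJ_eq_EJ H β τ (f := fun A _ x => Real.log (gdw w μ A x)) fun A' R' hAR => by
      refine Loc.mono hAR ?_
      intro x y hxy
      beta_reduce
      rw [loc_gdw A' x y hxy], hk, hGd]
    unfold KK; ring
  have e2 : EJ w (gdw w μ) β τ (fun _ R _ => ∑ i ∈ R, gH i * θ i ^ m)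
      ≤ h * k + 2 * (∑ i, t i * (gH i * θ i ^ m)) * G := by
    rw [← JJ_eq_EJ H β τ (f := fun _ R _ => ∑ i ∈ R, gH i * θ i ^ m) fun A' R' hAR => by
      intro x y hxy; rfl]
    have := wt_le H A.t0 ht1 hb0 hbt h0 h1 hGp
      (c := fun i => gH i * θ i ^ m) (fun i => mul_nonneg (D.gH0 i) (pow_nonneg (hθ i).le m))
      hh hgh
    rw [hk, hGd]; exact this
  have hLi : ∀ i, 0 ≤ 1100 * (m : ℝ) ^ 2 * L i := fun i => by
    have := D.L1 i; positivity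
  have e3 := DD_le H hb0 hLi hins h0 h1 A.t0
  have e4 := SS_le H (cc := fun i => 4 * τ i * ((15 * τ i) ^ m) ^ 2) hb0
    (fun i => by have := h0 i; positivity) A.t0 hins h0 h1
  have e4' : (∑ i, 4 * τ i * ((15 * τ i) ^ m) ^ 2 * t i)
      = 4 * ∑ i, τ i * t i * ((15 * τ i) ^ m) ^ 2 := by
    rw [mul_sum]
    exact sum_congr rfl fun i _ => by ring
  rw [e4', ← hGd] at e4
  -- the scales
  have hV0 := Vi_nonneg H hb0 h0 h1
  have e5 : ∀ s, ∑ i ∈ At sc s, 1100 * (m : ℝ) ^ 2 * L i * (t i * Vi w μ β τ i)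
      ≤ 1100 * m ^ 2 * (Lb s / K s) * (2 * (k + (κ⁻¹ * (k + ε s * G)
        + ∑ Y ∈ range ns, qb s Y * ((k + (ε s + Es t (us u sc s) sc a c Y) *
          G) / lam Y) * Hn (At sc Y).card))) := by
    intro s
    have hi := insertion H A.t0 A.t1 (hus0 s) (hus1 s) A.scn hκ D.L1 D.atoms (qb0 s)
      (fun i => qb1 s i) P (B s) (hε s) h0 h1 hGp
    rw [← hk, ← hGd] at hi
    have hcoef : 0 ≤ 1100 * (m : ℝ) ^ 2 * (Lb s / K s) :=
      mul_nonneg (by positivity) (div_nonneg (D.Lb0 s) (hK s).le)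
    refine le_trans ?_ (mul_le_mul_of_nonneg_left hi hcoef)
    have h6 : ∑ i, us u sc s i * Vi w μ β τ i = ∑ i ∈ At sc s, u i * Vi w μ β τ i := by
      unfold At us
      rw [sum_filter]
      exact sum_congr rfl fun i _ => by split_ifs <;> simp
    rw [h6, mul_sum]
    refine sum_le_sum fun i hi => ?_
    have hsi : sc i = s := (mem_filter.mp hi).2
    have h7 := A.Kt i
    rw [hsi] at h7
    have h8 := D.Lb1 i
    rw [hsi] at h8
    have h9 : L i * t i ≤ Lb s / K s * u i := by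
      have h10 : t i ≤ u i / K s := by
        rw [le_div_iff₀ (hK s)]; linarith
      calc L i * t i ≤ Lb s * (u i / K s) :=
            mul_le_mul h8 h10 (A.t0 i) (D.Lb0 s)
        _ = Lb s / K s * u i := by ring
    have h11 := mul_le_mul_of_nonneg_right h9 (hV0 i)
    have h12 := mul_le_mul_of_nonneg_left h11 (show 0 ≤ 1100 * (m : ℝ) ^ 2 by positivity)
    linarith
  have e6 : ∑ i, 1100 * (m : ℝ) ^ 2 * L i * (t i * Vi w μ β τ i)
      = ∑ s ∈ range ns, ∑ i ∈ At sc s, 1100 * (m : ℝ) ^ 2 * L i * (t i * Vi w μ β τ i) := by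
    have : ∀ i ∈ (univ : Finset ι), sc i ∈ range ns := fun i _ => mem_range.mpr (A.scn i)
    exact (sum_fiberwise_of_maps_to this _).symm
  have e7 := sum_le_sum fun s (_ : s ∈ range ns) => e5 s
  rw [← e6] at e7
  -- algebra of the scales
  obtain ⟨q1, hq1⟩ : ∃ q1 : ℕ → ℝ, q1 = fun s => ∑ Y ∈ range ns,
    qb s Y * Hn (At sc Y).card / lam Y := ⟨_, rfl⟩
  obtain ⟨q2, hq2⟩ : ∃ q2 : ℕ → ℝ, q2 = fun s => ∑ Y ∈ range ns,
    qb s Y * Hn (At sc Y).card / lam Y * (ε s + Es t (us u sc s) sc a c Y) := ⟨_, rfl⟩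
  have e8 : ∑ s ∈ range ns, 1100 * (m : ℝ) ^ 2 * (Lb s / K s) * (2 * (k + (κ⁻¹ * (k + ε s * G)
        + ∑ Y ∈ range ns, qb s Y * ((k + (ε s + Es t (us u sc s) sc a c Y) *
          G) / lam Y) * Hn (At sc Y).card)))
      = 2200 * m ^ 2 * (k * ∑ s ∈ range ns, Lb s / K s * (1 + κ⁻¹ + q1 s)
        + G * ∑ s ∈ range ns, Lb s / K s * (κ⁻¹ * ε s + q2 s)) := by
    rw [mul_add, mul_left_comm, mul_left_comm _ G, mul_sum, mul_sum, mul_sum, mul_sum,
      ← sum_add_distrib]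
    refine sum_congr rfl fun s _ => ?_
    have e9 : ∑ Y ∈ range ns, qb s Y * ((k + (ε s + Es t (us u sc s) sc a c Y) *
          G) / lam Y) * Hn (At sc Y).card = k * q1 s + G * q2 s := by
      rw [hq1, hq2]
      beta_reduce
      rw [mul_sum, mul_sum, ← sum_add_distrib]
      exact sum_congr rfl fun Y _ => by ring
    rw [e9]; ring
  rw [e8] at e7
  have hXe : XX t u sc ns K qb τ θ gH Lb κ m ε lam a c
      = 4 * ∑ i, t i * (gH i * θ i ^ m) + 16 * ∑ i, τ i * t i * ((15 * τ i) ^ m) ^ 2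
        + 17600 * m ^ 2 * ∑ s ∈ range ns, Lb s / K s * (κ⁻¹ * ε s + q2 s) := by
    unfold XX; rw [hq2]
  have hαe : αα sc ns K qb Lb h κ m lam
      = 2 * h + 17600 * m ^ 2 * ∑ s ∈ range ns, Lb s / K s * (1 + κ⁻¹ + q1 s) := by
    unfold αα; rw [hq1]
  rw [hXe]
  rw [hαe] at hα
  obtain ⟨S1, hS1⟩ : ∃ S1, S1 = ∑ s ∈ range ns, Lb s / K s * (1 + κ⁻¹ + q1 s) := ⟨_, rfl⟩
  obtain ⟨S2, hS2⟩ : ∃ S2, S2 = ∑ s ∈ range ns, Lb s / K s * (κ⁻¹ * ε s + q2 s) := ⟨_, rfl⟩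
  rw [← hS1] at hα e7
  rw [← hS2] at e7 ⊢
  rw [← hk] at hKK0
  rw [e1] at hc
  have f6 := mul_le_mul_of_nonneg_left hα hKK0
  obtain ⟨N1, hN1⟩ : ∃ N1, N1 = ∑ i, t i * (gH i * θ i ^ m) := ⟨_, rfl⟩
  obtain ⟨N2, hN2⟩ : ∃ N2, N2 = ∑ i, τ i * t i * ((15 * τ i) ^ m) ^ 2 := ⟨_, rfl⟩
  rw [← hN1] at e2 ⊢
  rw [← hN2] at e4 ⊢
  have hfin : G * Real.log G ≤ G * (4 * N1 + 16 * N2 + 17600 * m ^ 2 * S2) := by
    have g1 : k + G * Real.log G ≤ 2 * ((h * k + 2 * N1 * G)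
        + 4 * (2200 * m ^ 2 * (k * S1 + G * S2)) + 2 * (4 * N2) * G) := by
      linarith
    have g2 : 2 * ((h * k + 2 * N1 * G)
        + 4 * (2200 * m ^ 2 * (k * S1 + G * S2)) + 2 * (4 * N2) * G)
        = k * (2 * h + 17600 * m ^ 2 * S1)
          + G * (4 * N1 + 16 * N2 + 17600 * m ^ 2 * S2) := by
      ring
    linarith
  exact le_of_mul_le_mul_left hfin hG0

end

end Vale.Agent.P042.H779.Ab.Ll
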