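import Vale.Agent.P042.H461.LPost

/-! The entropy step for one outer configuration; individual noise rates and thresholds.
(Generalisation of helper779's `AbKl`.) -/

namespace Vale.Agent.P042.H779.Ab.Ll

open Finset

set_option linter.unusedSectionVars false

section
variable {ι : Type*} [Fintype ι] [DecidableEq ι] {V : ι → Type*} [∀ i, Fintype (V i)]
  {w : ∀ i, V i → ℝ} {g : Finset ι → (∀ i, V i) → ℝ} {ok : Finset ι → Prop}

/-- posterior membership probability -/
noncomputable def pu (g : Finset ι → (∀ i, V i) → ℝ) (τ : ι → ℝ) (R : Finset ι) (x : ∀ i, V i)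
    (u : ι) : ℝ :=
  ∑ A ∈ R.powerset, post g τ R x A * (if u ∈ A then 1 else 0)

lemma pu_nonneg (F : Fam w g ok) {τ : ι → ℝ} (h0 : ∀ i, 0 < τ i) (h1 : ∀ i, τ i < 1)
    (R : Finset ι) (x : ∀ i, V i) (u : ι) : 0 ≤ pu g τ R x u :=
  sum_nonneg fun A _ => mul_nonneg (post_nonneg F h0 h1 R x A) (by split_ifs <;> norm_num)

lemma pu_le_one (F : Fam w g ok) {τ : ι → ℝ} (h0 : ∀ i, 0 < τ i) (h1 : ∀ i, τ i < 1)
    (R : Finset ι) (x : ∀ i, V i) (u : ι) : pu g τ R x u ≤ 1 := by
  rw [← post_sum F h0 h1 R x]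
  refine sum_le_sum fun A _ => ?_
  have := post_nonneg F h0 h1 R x A
  split_ifs <;> simp [this]

lemma sum_post_mem (R : Finset ι) (x : ∀ i, V i) (τ : ι → ℝ) (c : ι → ℝ) :
    ∑ A ∈ R.powerset, post g τ R x A * ∑ u ∈ A, c u = ∑ u ∈ R, pu g τ R x u * c u := by
  have h1 : ∀ A ∈ R.powerset, post g τ R x A * ∑ u ∈ A, c u
      = ∑ u ∈ R, post g τ R x A * (if u ∈ A then 1 else 0) * c u := by
    intro A hA
    rw [mem_powerset] at hA
    rw [mul_sum, ← sum_subset hA]
    · refine sum_congr rfl fun u hu => by simp [hu]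
    · intro u _ hu; simp [hu]
  rw [sum_congr rfl h1, sum_comm]
  refine sum_congr rfl fun u _ => ?_
  rw [← sum_mul]; rfl

/-- Lower bound of the relative entropy of the posterior by its likely elements. -/
lemma kl_lower (F : Fam w g ok) {τ θ : ι → ℝ} (h0 : ∀ i, 0 < τ i) (h1 : ∀ i, τ i < 1)
    (hθ : ∀ i, 0 < θ i)
    {R : Finset ι} (hok : ok R) {x : ∀ i, V i} (hx : 0 < g R x) :
    ∑ u ∈ R.filter (fun u => θ u ≤ pu g τ R x u), pu g τ R x u * (Real.log (θ u / τ u) - 1)
      ≤ ∑ A ∈ R.powerset, post g τ R x A * Real.log (post g τ R x A / bw τ R A) := by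
  obtain ⟨c, hc⟩ : ∃ c : ι → ℝ, c = fun u => if θ u ≤ pu g τ R x u then
    Real.log (pu g τ R x u / τ u) else 0 := ⟨_, rfl⟩
  have hτ' : ∀ u, 0 < 1 - τ u := fun u => sub_pos.mpr (h1 u)
  have hfac : ∀ u, 0 < 1 - τ u + τ u * Real.exp (c u) := fun u => by
    have := hτ' u; have := h0 u; positivity
  obtain ⟨Z, hZ⟩ : ∃ Z, Z = ∑ u ∈ R, Real.log (1 - τ u + τ u * Real.exp (c u)) := ⟨_, rfl⟩
  have hexpZ : Real.exp Z = ∏ u ∈ R, (1 - τ u + τ u * Real.exp (c u)) := by
    rw [hZ, Real.exp_sum]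
    exact prod_congr rfl fun u _ => Real.exp_log (hfac u)
  have hsum1 : ∑ A ∈ R.powerset, bw τ R A * Real.exp (∑ u ∈ A, c u - Z) = 1 := by
    have h2 : ∀ A ∈ R.powerset, bw τ R A * Real.exp (∑ u ∈ A, c u - Z)
        = ((∏ u ∈ A, τ u * Real.exp (c u)) * ∏ u ∈ R \ A, (1 - τ u)) / Real.exp Z := by
      intro A _
      rw [Real.exp_sub, Real.exp_sum, prod_mul_distrib]
      unfold bw; ring
    rw [sum_congr rfl h2, ← sum_div, ← Finset.prod_add, hexpZ]
    have : ∏ i ∈ R, (τ i * Real.exp (c i) + (1 - τ i))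
        = ∏ i ∈ R, (1 - τ i + τ i * Real.exp (c i)) :=
      prod_congr rfl fun i _ => by ring
    rw [this]
    exact div_self (prod_pos fun u _ => hfac u).ne'
  have hpt : ∀ A ∈ R.powerset, post g τ R x A * (∑ u ∈ A, c u - Z) + post g τ R x A
      - bw τ R A * Real.exp (∑ u ∈ A, c u - Z)
      ≤ post g τ R x A * Real.log (post g τ R x A / bw τ R A) := by
    intro A hA
    have hA' := mem_powerset.mp hA
    have hpA : 0 < post g τ R x A := post_pos F h0 h1 (g_mono F hA' hok hx)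
    have hbA := bw_pos h0 h1 R A
    have h3 := Real.log_le_sub_one_of_pos
      (show 0 < bw τ R A * Real.exp (∑ u ∈ A, c u - Z) / post g τ R x A by positivity)
    rw [Real.log_div (by positivity) hpA.ne', Real.log_mul hbA.ne' (Real.exp_pos _).ne',
      Real.log_exp] at h3
    have h4 := mul_le_mul_of_nonneg_left h3 hpA.le
    have h5 : post g τ R x A * (bw τ R A * Real.exp (∑ u ∈ A, c u - Z) / post g τ R x A - 1)
        = bw τ R A * Real.exp (∑ u ∈ A, c u - Z) - post g τ R x A := by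
      field_simp
    rw [h5] at h4
    rw [Real.log_div hpA.ne' hbA.ne']
    nlinarith
  have hsum := sum_le_sum hpt
  rw [sum_sub_distrib, sum_add_distrib, hsum1, post_sum F h0 h1 R x] at hsum
  have h6 : ∑ A ∈ R.powerset, post g τ R x A * (∑ u ∈ A, c u - Z)
      = ∑ u ∈ R, pu g τ R x u * c u - Z := by
    have : ∀ A ∈ R.powerset, post g τ R x A * (∑ u ∈ A, c u - Z)
        = post g τ R x A * ∑ u ∈ A, c u - Z * post g τ R x A := fun A _ => by ring
    rw [sum_congr rfl this, sum_sub_distrib, sum_post_mem, ← mul_sum, post_sum F h0 h1, mul_one]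
  rw [h6] at hsum
  have h7 : ∑ u ∈ R.filter (fun u => θ u ≤ pu g τ R x u),
      pu g τ R x u * (Real.log (θ u / τ u) - 1)
      ≤ ∑ u ∈ R, pu g τ R x u * c u - Z := by
    rw [hZ, ← sum_sub_distrib, sum_filter]
    refine sum_le_sum fun u _ => ?_
    have hτu := h0 u
    have hθu := hθ u
    split_ifs with hu
    · have hpu : 0 < pu g τ R x u := lt_of_lt_of_le hθu hu
      have hcu : c u = Real.log (pu g τ R x u / τ u) := by rw [hc]; simp [hu]
      rw [hcu, Real.exp_log (by positivity), mul_div_cancel₀ _ hτu.ne']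
      have h8 := Real.log_le_sub_one_of_pos
        (show 0 < 1 - τ u + pu g τ R x u by linarith [hτ' u])
      have h9 : Real.log (θ u / τ u) ≤ Real.log (pu g τ R x u / τ u) :=
        Real.log_le_log (by positivity) (by gcongr)
      have h10 := mul_le_mul_of_nonneg_left h9 hpu.le
      linarith
    · have hcu : c u = 0 := by rw [hc]; simp [hu]
      rw [hcu]; simp
  linarith

/-- expected size of the core -/
lemma core_size {τ : ι → ℝ} (m : ℕ) (c : ι → ℝ)
    (R : Finset ι) (x : ∀ i, V i) :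
    ∑ A ∈ R.powerset, post g τ R x A * ∑ α ∈ reps m R.powerset,
      (∏ j, post g τ R x (α j)) * (∑ u ∈ A ∩ inter α, c u)
      = ∑ u ∈ R, c u * pu g τ R x u ^ (m + 1) := by
  have e1 : ∀ A ∈ R.powerset, ∀ α ∈ reps m R.powerset, (∑ u ∈ A ∩ inter α, c u)
      = ∑ u ∈ R, (c u * (if u ∈ A then (1 : ℝ) else 0)) *
        ∏ j, (if u ∈ α j then (1 : ℝ) else 0) := by
    intro A hA α _
    rw [mem_powerset] at hA
    have hsub : A ∩ inter α ⊆ R := inter_subset_left.trans hA
    rw [← sum_subset hsub]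
    · refine sum_congr rfl fun u hu => ?_
      rw [mem_inter] at hu
      have h2 : ∀ j, u ∈ α j := by simpa [inter] using hu.2
      rw [if_pos hu.1, prod_eq_one fun j _ => if_pos (h2 j)]; simp
    · intro u _ hu
      rw [mem_inter, not_and_or] at hu
      rcases hu with hu | hu
      · simp [hu]
      · have : ∃ j, u ∉ α j := by simpa [inter] using hu
        obtain ⟨j, hj⟩ := this
        rw [prod_eq_zero (mem_univ j) (if_neg hj)]; simp
  have e2 : ∀ A ∈ R.powerset, post g τ R x A * ∑ α ∈ reps m R.powerset,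
      (∏ j, post g τ R x (α j)) * (∑ u ∈ A ∩ inter α, c u)
      = ∑ u ∈ R, (post g τ R x A * (if u ∈ A then (1 : ℝ) else 0)) *
        (c u * pu g τ R x u ^ m) := by
    intro A hA
    have e3 : ∑ α ∈ reps m R.powerset, (∏ j, post g τ R x (α j)) * (∑ u ∈ A ∩ inter α, c u)
        = ∑ u ∈ R, (c u * (if u ∈ A then (1 : ℝ) else 0)) * pu g τ R x u ^ m := by
      rw [sum_congr rfl fun α hα => by rw [e1 A hA α hα, mul_sum], sum_comm]
      refine sum_congr rfl fun u _ => ?_
      have e4 := pi_sum_prod (m := m) R.powerset (post g τ R x)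
        (fun _ B => if u ∈ B then (1 : ℝ) else 0)
      have e5 : ∏ _j : Fin m, ∑ B ∈ R.powerset, post g τ R x B * (if u ∈ B then (1 : ℝ) else 0)
          = pu g τ R x u ^ m := by simp [pu]
      rw [e5] at e4
      rw [← e4, mul_sum]
      exact sum_congr rfl fun α _ => by ring
    rw [e3, mul_sum]
    exact sum_congr rfl fun u _ => by ring
  rw [sum_congr rfl e2, sum_comm]
  refine sum_congr rfl fun u _ => ?_
  rw [← sum_mul]
  change pu g τ R x u * (c u * pu g τ R x u ^ m) = _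
  ring

/-- weighted posterior mass of the likely elements -/
noncomputable def Hs (g : Finset ι → (∀ i, V i) → ℝ) (τ θ c : ι → ℝ) (R : Finset ι)
    (x : ∀ i, V i) :
    ℝ := ∑ u ∈ R.filter (fun u => θ u ≤ pu g τ R x u), pu g τ R x u * c u

lemma Hs_nonneg (F : Fam w g ok) {τ : ι → ℝ} (h0 : ∀ i, 0 < τ i) (h1 : ∀ i, τ i < 1)
    (θ : ι → ℝ) {c : ι → ℝ} (hc : ∀ i, 0 ≤ c i) (R : Finset ι)
    (x : ∀ i, V i) : 0 ≤ Hs g τ θ c R x :=
  sum_nonneg fun u _ => mul_nonneg (pu_nonneg F h0 h1 R x u) (hc u)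

lemma Hs_mono (F : Fam w g ok) {τ : ι → ℝ} (h0 : ∀ i, 0 < τ i) (h1 : ∀ i, τ i < 1)
    (θ : ι → ℝ) {c c' : ι → ℝ} (hc : ∀ i, c i ≤ c' i) (R : Finset ι)
    (x : ∀ i, V i) : Hs g τ θ c R x ≤ Hs g τ θ c' R x :=
  sum_le_sum fun u _ => mul_le_mul_of_nonneg_left (hc u) (pu_nonneg F h0 h1 R x u)

lemma size_le (F : Fam w g ok) {τ θ c : ι → ℝ} (h0 : ∀ i, 0 < τ i) (h1 : ∀ i, τ i < 1)
    (hθ : ∀ i, 0 < θ i) (hc : ∀ i, 0 ≤ c i) (m : ℕ)
    (R : Finset ι) (x : ∀ i, V i) :
    ∑ u ∈ R, c u * pu g τ R x u ^ (m + 1) ≤ Hs g τ θ c R x + ∑ u ∈ R, c u * θ u ^ m := by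
  unfold Hs
  rw [sum_filter, ← sum_add_distrib]
  refine sum_le_sum fun u _ => ?_
  have hp0 := pu_nonneg F h0 h1 R x u
  have hp1 := pu_le_one F h0 h1 R x u
  have hθm : 0 ≤ θ u ^ m := pow_nonneg (hθ u).le m
  have hcu := hc u
  split_ifs with hu
  · have : pu g τ R x u ^ (m + 1) ≤ pu g τ R x u ^ 1 :=
      pow_le_pow_of_le_one hp0 hp1 (by omega)
    rw [pow_one] at this
    have := mul_le_mul_of_nonneg_left this hcu
    have := mul_nonneg hcu hθm
    linarith
  · have hlt : pu g τ R x u ≤ θ u := (not_le.mp hu).le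
    rw [zero_add]
    refine mul_le_mul_of_nonneg_left ?_ hcu
    calc pu g τ R x u ^ (m + 1) = pu g τ R x u ^ m * pu g τ R x u := pow_succ _ _
      _ ≤ θ u ^ m * 1 := mul_le_mul (pow_le_pow_left₀ hp0 hlt m) hp1 hp0 hθm
      _ = θ u ^ m := by ring

/-- Gibbs identity for one outer configuration, with the entropy bounded below. -/
lemma log_Tg_le (F : Fam w g ok) {τ θ : ι → ℝ} (h0 : ∀ i, 0 < τ i) (h1 : ∀ i, τ i < 1)
    (hθ : ∀ i, 0 < θ i)
    {R : Finset ι} (hok : ok R) {x : ∀ i, V i} (hx : 0 < g R x) :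
    Real.log (Tg g τ R x) ≤ (∑ A ∈ R.powerset, post g τ R x A * Real.log (g A x))
      - Hs g τ θ (fun u => Real.log (θ u / τ u) - 1) R x := by
  have hT := Tg_pos F h0 h1 R x
  have hps := post_sum F h0 h1 R x
  have hgA : ∀ A ∈ R.powerset, 0 < g A x := fun A hA => g_mono F (mem_powerset.mp hA) hok hx
  have e1 : Real.log (Tg g τ R x) = ∑ A ∈ R.powerset, post g τ R x A * Real.log (g A x)
      - ∑ A ∈ R.powerset, post g τ R x A * Real.log (post g τ R x A / bw τ R A) := by
    rw [← sum_sub_distrib]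
    have : ∀ A ∈ R.powerset, post g τ R x A * Real.log (g A x)
        - post g τ R x A * Real.log (post g τ R x A / bw τ R A)
        = post g τ R x A * Real.log (Tg g τ R x) := by
      intro A hA
      have hpA : 0 < post g τ R x A := post_pos F h0 h1 (hgA A hA)
      have hbA := bw_pos h0 h1 R A
      have h2 : Real.log (Tg g τ R x * post g τ R x A) = Real.log (bw τ R A * g A x) := by
        rw [Tg_mul_post F h0 h1]
      rw [Real.log_mul hT.ne' hpA.ne', Real.log_mul hbA.ne' (hgA A hA).ne'] at h2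
      rw [Real.log_div hpA.ne' hbA.ne']
      have h3 : Real.log (Tg g τ R x) = Real.log (bw τ R A) + Real.log (g A x)
        - Real.log (post g τ R x A) := by linarith
      rw [h3]; ring
    rw [sum_congr rfl this, ← sum_mul, hps, one_mul]
  have e5 := kl_lower F h0 h1 hθ hok hx
  rw [e1]
  unfold Hs
  linarith

/-- Splitting off the core. -/
lemma log_g_le (F : Fam w g ok) {τ θ gH : ι → ℝ} (h0 : ∀ i, 0 < τ i) (h1 : ∀ i, τ i < 1)
    (hθ : ∀ i, 0 < θ i) (hgH : ∀ i, 0 ≤ gH i) (m : ℕ) {R : Finset ι} (hok : ok R)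
    {x : ∀ i, V i} (hx : 0 < g R x)
    (hlog : ∀ M ⊆ R, Real.log (g M x) ≤ ∑ i ∈ M, gH i) :
    ∑ A ∈ R.powerset, post g τ R x A * Real.log (g A x)
      ≤ (∑ A ∈ R.powerset, post g τ R x A * ∑ α ∈ reps m R.powerset,
      (∏ j, post g τ R x (α j)) * Real.log (g A x / g (A ∩ inter α) x))
      + (Hs g τ θ gH R x + ∑ u ∈ R, gH u * θ u ^ m) := by
  have hps := post_sum F h0 h1 R x
  have hgA : ∀ A ∈ R.powerset, 0 < g A x := fun A hA => g_mono F (mem_powerset.mp hA) hok hx
  have hone : ∑ α ∈ reps m R.powerset, (∏ j, post g τ R x (α j)) = 1 :=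
    pi_sum_one R.powerset (post g τ R x) hps
  have e2 : ∑ A ∈ R.powerset, post g τ R x A * ∑ α ∈ reps m R.powerset,
      (∏ j, post g τ R x (α j)) * Real.log (g A x / g (A ∩ inter α) x)
      = ∑ A ∈ R.powerset, post g τ R x A * Real.log (g A x)
        - ∑ A ∈ R.powerset, post g τ R x A * ∑ α ∈ reps m R.powerset,
      (∏ j, post g τ R x (α j)) * Real.log (g (A ∩ inter α) x) := by
    rw [← sum_sub_distrib]
    refine sum_congr rfl fun A hA => ?_
    rw [← mul_sub]
    congr 1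
    have : ∀ α ∈ reps m R.powerset,
        (∏ j, post g τ R x (α j)) * Real.log (g A x / g (A ∩ inter α) x)
        = Real.log (g A x) * (∏ j, post g τ R x (α j))
          - (∏ j, post g τ R x (α j)) * Real.log (g (A ∩ inter α) x) := by
      intro α _
      have hM : A ∩ inter α ∈ R.powerset :=
        mem_powerset.mpr (inter_subset_left.trans (mem_powerset.mp hA))
      rw [Real.log_div (hgA A hA).ne' (hgA _ hM).ne']; ring
    rw [sum_congr rfl this, sum_sub_distrib, ← mul_sum, hone, mul_one]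
  have e3 : ∑ A ∈ R.powerset, post g τ R x A * ∑ α ∈ reps m R.powerset,
      (∏ j, post g τ R x (α j)) * Real.log (g (A ∩ inter α) x)
      ≤ ∑ u ∈ R, gH u * pu g τ R x u ^ (m + 1) := by
    rw [← core_size m gH R x]
    refine sum_le_sum fun A hA => ?_
    refine mul_le_mul_of_nonneg_left ?_ (post_nonneg F h0 h1 R x A)
    refine sum_le_sum fun α _ => ?_
    refine mul_le_mul_of_nonneg_left ?_ (prod_nonneg fun j _ => post_nonneg F h0 h1 _ _ _)
    exact hlog (A ∩ inter α) (inter_subset_left.trans (mem_powerset.mp hA))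
  have e6 := size_le F h0 h1 hθ hgH m R x
  rw [e2]
  linarith

end

end Vale.Agent.P042.H779.Ab.Ll
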