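import Vale.Agent.P042.H461.LRev
import Vale.Agent.P042.H779.MuMain

/-! The insertion functional of the planted law, one inserted scale; scale-local constants. -/

namespace Vale.Agent.P042.H779.Ab.Ll

open Finset

set_option linter.unusedSectionVars false

section
variable {ι : Type*} [Fintype ι] [DecidableEq ι] {V : ι → Type*} [∀ i, Fintype (V i)]
  [∀ i, DecidableEq (V i)] {w : ∀ i, V i → ℝ} {μ : (∀ i, V i) → ℝ} {β β' : Finset ι → ℝ}

/-- The pin hypothesis, in exponential-moment form, scale by scale. -/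
structure Pins (w : ∀ i, V i → ℝ) (μ : (∀ i, V i) → ℝ) (sc : ι → ℕ) (ok' : Finset ι → Prop)
    (lam a : ℕ → ℝ) (c : ℕ → ι → ℝ) : Prop where
  lam0 : ∀ s, 0 < lam s
  a0 : ∀ s, 0 ≤ a s
  c0 : ∀ s i, 0 ≤ c s i
  down : ∀ P Q : Finset ι, P ⊆ Q → ok' Q → ok' P
  pe : ∀ s, ∀ P, P ⊆ Lo sc (s + 1) → ok' P →
    ∑ x, μ x * Real.exp (lam s * ∑ j ∈ At sc s \ P, Di w (gdw w μ) j P x)
      ≤ Real.exp (∑ i ∈ P, c s i + a s)

/-- the error of one scale -/
noncomputable def Es (t u : ι → ℝ) (sc : ι → ℕ) (a : ℕ → ℝ) (c : ℕ → ι → ℝ) (s : ℕ) : ℝ :=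
  a s + ∑ i ∈ Lo sc (s + 1), (t i + u i) * (Real.exp (c s i) - 1)

variable {t u : ι → ℝ} {sc : ι → ℕ} {ns : ℕ} {K : ℝ} {qb : ℕ → ℝ} {ok' : Finset ι → Prop}
  {ε κ : ℝ} {τ L : ι → ℝ} {lam a : ℕ → ℝ} {c : ℕ → ι → ℝ}

lemma Es_nonneg (t0 : ∀ i, 0 ≤ t i) (u0 : ∀ i, 0 ≤ u i) (P : Pins w μ sc ok' lam a c) (s : ℕ) :
    0 ≤ Es t u sc a c s := by
  unfold Es
  refine add_nonneg (P.a0 s) (sum_nonneg fun i _ => mul_nonneg (add_nonneg (t0 i) (u0 i)) ?_)
  have := Real.one_le_exp (P.c0 s i)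
  linarith

/-- one scale -/
lemma scale_bound (H : Ref w μ) (t0 : ∀ i, 0 ≤ t i) (t1 : ∀ i, t i ≤ 1) (u0 : ∀ i, 0 ≤ u i)
    (u1 : ∀ i, u i ≤ 1) (P : Pins w μ sc ok' lam a c) (B : Wts β β' t u ok' ε)
    (h0 : ∀ i, 0 < τ i) (h1 : ∀ i, τ i < 1)
    (hG : 0 < Gm w (gdw w μ) β τ) (s : ℕ) (T : Finset ι) (hT : T ⊆ Lo sc (s + 1)) :
    ∑ j ∈ At sc s \ T, JP w μ β τ β' (fun S _ R x => Di w (gdw w μ) j ((R ∪ S) ∩ T) x)
      ≤ (KK w μ β τ + (ε + Es t u sc a c s) * Gm w (gdw w μ) β τ) / lam s := by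
  have hK0 := KK_nonneg H B.b0 B.sum1 h0 h1 hG
  have hl := P.lam0 s
  have hE0 := Es_nonneg t0 u0 P s
  rw [← JP_sum, le_div_iff₀ hl, mul_comm, ← JP_smul]
  obtain ⟨E, hE⟩ : ∃ E, E = Es t u sc a c s := ⟨_, rfl⟩
  rw [← hE] at hE0 ⊢
  obtain ⟨q, hq⟩ : ∃ q : ι → ℝ, q = fun i => t i + u i - t i * u i := ⟨_, rfl⟩
  have hq0 : ∀ i, 0 ≤ q i := fun i => by
    rw [hq]; have := mul_nonneg (u0 i) (sub_nonneg.mpr (t1 i)); have := t0 i
    beta_reduce; nlinarith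
  have hq1 : ∀ i, q i ≤ 1 := fun i => by
    rw [hq]
    have := mul_nonneg (sub_nonneg.mpr (t1 i)) (sub_nonneg.mpr (u1 i)); beta_reduce; nlinarith
  have hqtu : ∀ i, q i ≤ t i + u i := fun i => by
    rw [hq]; have := mul_nonneg (t0 i) (u0 i); beta_reduce; linarith
  have hZ : ∑ S ∈ (univ : Finset ι).powerset, β' S * ∑ R ∈ (univ : Finset ι).powerset,
      β R * ∑ x, μ x * Real.exp (lam s * ∑ j ∈ At sc s \ T,
        Di w (gdw w μ) j ((R ∪ S) ∩ T) x - E) ≤ 1 := by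
    have h2 := joint_le (F := fun Q => Real.exp (∑ i ∈ Q ∩ Lo sc (s + 1), c s i + (a s - E)))
      H B.b0 B.b1 B.b0' B.b1' (fun Q => Real.exp_nonneg _)
    have h3 : ∑ S ∈ (univ : Finset ι).powerset, β' S * ∑ R ∈ (univ : Finset ι).powerset,
      β R * ∑ x, μ x * Real.exp (lam s * ∑ j ∈ At sc s \ T,
        Di w (gdw w μ) j ((R ∪ S) ∩ T) x - E)
      ≤ ∑ S ∈ (univ : Finset ι).powerset, β' S * ∑ R ∈ (univ : Finset ι).powerset,
      β R * Real.exp (∑ i ∈ (R ∪ S) ∩ Lo sc (s + 1), c s i + (a s - E)) := by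
      refine sum_le_sum fun S _ => ?_
      by_cases hS : β' S = 0
      · rw [hS]; simp
      refine mul_le_mul_of_nonneg_left (sum_le_sum fun R _ => ?_) (B.b0' S)
      by_cases hR : β R = 0
      · rw [hR]; simp
      refine mul_le_mul_of_nonneg_left ?_ (B.b0 R)
      have hokP : ok' ((R ∪ S) ∩ T) := P.down _ _ inter_subset_left (B.hok R hR S hS)
      have hpe := P.pe s ((R ∪ S) ∩ T) (inter_subset_right.trans hT) hokP
      have h4 : ∑ x, μ x * Real.exp (lam s * ∑ j ∈ At sc s \ T,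
          Di w (gdw w μ) j ((R ∪ S) ∩ T) x - E)
          ≤ Real.exp (-E) * ∑ x, μ x * Real.exp (lam s * ∑ j ∈ At sc s \ ((R ∪ S) ∩ T),
            Di w (gdw w μ) j ((R ∪ S) ∩ T) x) := by
        rw [mul_sum]
        refine sum_le_sum fun x _ => ?_
        have h5 : ∑ j ∈ At sc s \ T, Di w (gdw w μ) j ((R ∪ S) ∩ T) x
            ≤ ∑ j ∈ At sc s \ ((R ∪ S) ∩ T), Di w (gdw w μ) j ((R ∪ S) ∩ T) x :=
          sum_le_sum_of_subset_of_nonneg
            (sdiff_subset_sdiff (Subset.refl _) inter_subset_right)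
            fun j _ _ => Di_nonneg H.famT _ _ _
        have h6 := mul_le_mul_of_nonneg_left h5 hl.le
        rw [sub_eq_add_neg, Real.exp_add]
        have h7 := mul_le_mul_of_nonneg_left (Real.exp_le_exp.mpr h6) (H.prob.nonneg x)
        have h8 := mul_le_mul_of_nonneg_right h7 (Real.exp_nonneg (-E))
        linarith
      refine h4.trans ?_
      have h9 := mul_le_mul_of_nonneg_left hpe (Real.exp_nonneg (-E))
      refine h9.trans ?_
      rw [← Real.exp_add]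
      refine Real.exp_le_exp.mpr ?_
      have h10 : ∑ i ∈ (R ∪ S) ∩ T, c s i ≤ ∑ i ∈ (R ∪ S) ∩ Lo sc (s + 1), c s i :=
        sum_le_sum_of_subset_of_nonneg (inter_subset_inter_left hT) fun i _ _ => P.c0 s i
      linarith
    refine h3.trans (h2.trans ?_)
    rw [← hq]
    have e1 : ∀ Q ∈ (univ : Finset ι).powerset, bt q Q *
        Real.exp (∑ i ∈ Q ∩ Lo sc (s + 1), c s i + (a s - E))
        = (bt q Q * Real.exp (∑ i ∈ Q ∩ Lo sc (s + 1), c s i)) * Real.exp (a s - E) := by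
      intro Q _; rw [Real.exp_add]; ring
    rw [sum_congr rfl e1, ← sum_mul]
    have h11 := mul_le_mul_of_nonneg_right (bt_exp_gen hq0 hq1 (c s) (P.c0 s) (Lo sc (s + 1)))
      (Real.exp_nonneg (a s - E))
    refine h11.trans ?_
    rw [← Real.exp_add]
    refine Real.exp_le_one_iff.mpr ?_
    have h12 : ∑ i ∈ Lo sc (s + 1), q i * (Real.exp (c s i) - 1)
        ≤ ∑ i ∈ Lo sc (s + 1), (t i + u i) * (Real.exp (c s i) - 1) := by
      refine sum_le_sum fun i _ => mul_le_mul_of_nonneg_right (hqtu i) ?_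
      have := Real.one_le_exp (P.c0 s i)
      linarith
    rw [hE]
    unfold Es
    linarith
  have hdv := JP_dv H B.b0 B.b0' h0 h1 hG hK0 B.sum1' B.mass
    (fun S R x => Real.exp (lam s * ∑ j ∈ At sc s \ T,
        Di w (gdw w μ) j ((R ∪ S) ∩ T) x - E)) (fun _ _ _ _ => Real.exp_pos _) hZ
  simp only [Real.log_exp] at hdv
  rw [JP_sub (f := fun S _ R x => lam s * ∑ j ∈ At sc s \ T,
        Di w (gdw w μ) j ((R ∪ S) ∩ T) x) (f' := fun _ _ _ _ => E),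
    JP_const H] at hdv
  have h4 : E * Gm w (gdw w μ) β τ * ∑ S ∈ (univ : Finset ι).powerset, β' S
      ≤ E * Gm w (gdw w μ) β τ * 1 :=
    mul_le_mul_of_nonneg_left B.sum1' (mul_nonneg hE0 hG.le)
  linarith

/-- revealing all coordinates -/
lemma reveal_all (H : Ref w μ) (t0 : ∀ i, 0 ≤ t i) (t1 : ∀ i, t i ≤ 1 / 2) (u0 : ∀ i, 0 ≤ u i)
    (u1 : ∀ i, u i ≤ 1 / 2) (hκ : 0 < κ) (hL : ∀ i, 1 ≤ L i)
    (hat : ∀ i b, w i b = 0 ∨ Real.exp (-L i) ≤ w i b)
    (B : Wts β β' t u ok' ε) (h0 : ∀ i, 0 < τ i) (h1 : ∀ i, τ i < 1)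
    (hG : 0 < Gm w (gdw w μ) β τ) {l : List ι} (hnd : l.Nodup) (hl : l.toFinset = univ) :
    JP w μ β τ β' (fun S _ R x => Real.log (gdw w μ (R ∪ S) x))
      ≤ κ⁻¹ * (KK w μ β τ + ε * Gm w (gdw w μ) β τ)
        + gc (fun i => Mk κ L i * (t i + u i - t i * u i)) (fun T j => JP w μ β τ β'
          (fun S _ R x => Di w (gdw w μ) j ((R ∪ S) ∩ T) x)) ∅ l := by
  obtain ⟨q, hq⟩ : ∃ q : ι → ℝ, q = fun i => t i + u i - t i * u i := ⟨_, rfl⟩
  have hK0 := KK_nonneg H B.b0 B.sum1 h0 h1 hG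
  have hq0 : ∀ i, 0 ≤ q i := fun i => by
    rw [hq]
    have := t0 i; have := t1 i; have := u0 i; have := u1 i
    beta_reduce
    nlinarith
  have hq1 : ∀ i, q i < 1 := fun i => by
    rw [hq]
    have := t0 i; have := t1 i; have := u0 i; have := u1 i
    beta_reduce
    nlinarith
  have hqe : (fun i => Mk κ L i * (t i + u i - t i * u i)) = fun i => Mk κ L i * q i := by
    rw [hq]
  rw [hqe, ← JP_CDl]
  have hZ : ∑ S ∈ (univ : Finset ι).powerset, β' S * ∑ R ∈ (univ : Finset ι).powerset,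
      β R * ∑ x, μ x * Zl w μ q κ ∅ ∅ l (R ∪ S) x ≤ 1 := by
    have h2 := joint_le (F := fun Q => ∑ x, μ x * Zl w μ q κ ∅ ∅ l Q x) H B.b0 B.b1 B.b0' B.b1'
      (fun Q => sum_nonneg fun x _ => by
        rcases (H.prob.nonneg x).eq_or_lt with hx | hx
        · rw [← hx]; simp
        · exact mul_nonneg hx.le (Zl_pos H hq0 hq1 κ ∅ l ∅ Q x hx).le)
    refine h2.trans (le_of_eq ?_)
    rw [← hq]
    have hm := mart H hq0 hq1 κ ∅ l ∅ hnd (by simp) (by simp) (fun _ _ => 1)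
      (fun _ _ _ _ => rfl) (fun _ _ _ => rfl)
    simp only [one_mul, mul_one] at hm
    rw [hm, H.prob.sum_eq]
    simp only [mul_one]
    exact bt_sum q
  have hdv : JP w μ β τ β' (fun S _ R x => Real.log (Zl w μ q κ ∅ ∅ l (R ∪ S) x))
      ≤ KK w μ β τ + ε * Gm w (gdw w μ) β τ :=
    JP_dv H B.b0 B.b0' h0 h1 hG hK0 B.sum1' B.mass (fun S R x => Zl w μ q κ ∅ ∅ l (R ∪ S) x)
      (fun S R x hx => Zl_pos H hq0 hq1 κ ∅ l ∅ (R ∪ S) x hx) hZ
  have h3 : κ * JP w μ β τ β' (fun S _ R x => Real.log (gdw w μ (R ∪ S) x)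
        - CDl w μ (fun i => Mk κ L i * q i) ∅ ∅ l (R ∪ S) x)
      ≤ JP w μ β τ β' (fun S _ R x => Real.log (Zl w μ q κ ∅ ∅ l (R ∪ S) x)) := by
    rw [← JP_smul]
    refine JP_mono H B.b0 B.b0' h0 h1 fun S _ R _ A' _ x hx => ?_
    have h4 := log_Zl_ge H hq0 hq1 hκ hL hat ∅ l ∅ hnd (by simp) (by simp) (R ∪ S) x hx
    rw [LR_eq H ∅ l ∅ (R ∪ S) x hx, hl] at h4
    simp only [empty_union, inter_univ, inter_empty, H.famT.g_empty, Real.log_one,
      sub_zero] at h4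
    exact h4
  rw [JP_sub (f := fun S _ R x => Real.log (gdw w μ (R ∪ S) x))] at h3
  have h5 := mul_le_mul_of_nonneg_left (h3.trans hdv) (inv_nonneg.mpr hκ.le)
  rw [← mul_assoc, inv_mul_cancel₀ hκ.ne', one_mul] at h5
  linarith

/-- the divergence functional of one coordinate -/
noncomputable def Vi (w : ∀ i, V i → ℝ) (μ : (∀ i, V i) → ℝ) (β : Finset ι → ℝ) (τ : ι → ℝ)
    (i : ι) : ℝ := JJ w μ β τ (fun _ R x => if i ∈ R then 0 else Di w (gdw w μ) i R x)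

lemma Vi_nonneg (H : Ref w μ) (hβ : ∀ R, 0 ≤ β R) (h0 : ∀ i, 0 < τ i) (h1 : ∀ i, τ i < 1)
    (i : ι) : 0 ≤ Vi w μ β τ i := by
  refine JJ_nonneg H hβ h0 h1 fun R _ A _ x _ => ?_
  split_ifs
  · exact le_rfl
  · exact Di_nonneg H.famT _ _ _

/-- insertion -/
lemma insert_le (H : Ref w μ) (hβ : ∀ R, 0 ≤ β R) (h0 : ∀ i, 0 < τ i) (h1 : ∀ i, τ i < 1)
    (S : Finset ι) :
    ∑ i, (if i ∈ S then 1 else 0) * Vi w μ β τ i
      ≤ JJ w μ β τ (fun _ R x => Real.log (gdw w μ (R ∪ S) x) - Real.log (gdw w μ R x)) := by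
  have e1 : ∀ i, (if i ∈ S then (1 : ℝ) else 0) * Vi w μ β τ i
      = JJ w μ β τ (fun _ R x => (if i ∈ S then 1 else 0) *
        (if i ∈ R then 0 else Di w (gdw w μ) i R x)) := fun i => by
    unfold Vi; rw [JJ_smul]
  rw [sum_congr rfl fun i _ => e1 i, ← JJ_sum]
  unfold JJ ET
  refine sum_le_sum fun R _ => mul_le_mul_of_nonneg_left ?_ (hβ R)
  refine sum_le_sum fun A hA => mul_le_mul_of_nonneg_left ?_ (bw_pos h0 h1 R A).le
  have hAR := mem_powerset.mp hA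
  have h2 := superadd H (R := R) (K := gdw w μ A) ((loc_gdw A).mono hAR)
    (fun x => H.famT.g_nonneg A x) (S \ R) sdiff_disjoint
  rw [union_sdiff_self_eq_union] at h2
  refine le_trans (le_of_eq ?_) h2
  rw [sum_comm]
  refine sum_congr rfl fun x _ => ?_
  beta_reduce
  rw [mul_sum, mul_sum]
  have h3 : ∀ i, μ x * (gdw w μ A x * ((if i ∈ S then 1 else 0) *
      (if i ∈ R then 0 else Di w (gdw w μ) i R x)))
      = if i ∈ S \ R then μ x * (gdw w μ A x * Di w (gdw w μ) i R x) else 0 := by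
    intro i
    by_cases hS : i ∈ S <;> by_cases hR : i ∈ R <;> simp [hS, hR]
  rw [sum_congr rfl fun i _ => h3 i, sum_ite_mem, univ_inter]

/-- **The insertion functional** of an inserted set with rates `u`. -/
theorem insertion (H : Ref w μ) (t0 : ∀ i, 0 ≤ t i) (t1 : ∀ i, t i ≤ 1 / 2)
    (u0 : ∀ i, 0 ≤ u i) (u1 : ∀ i, u i ≤ 1 / 2) (scn : ∀ i, sc i < ns) (hκ : 0 < κ)
    (hL : ∀ i, 1 ≤ L i) (hat : ∀ i b, w i b = 0 ∨ Real.exp (-L i) ≤ w i b)
    (qb0 : ∀ s, 0 ≤ qb s) (qb1 : ∀ i, Mk κ L i * (t i + u i) ≤ qb (sc i))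
    (P : Pins w μ sc ok' lam a c) (B : Wts β β' t u ok' ε) (hε : 0 ≤ ε)
    (h0 : ∀ i, 0 < τ i) (h1 : ∀ i, τ i < 1) (hG : 0 < Gm w (gdw w μ) β τ) :
    ∑ i, u i * Vi w μ β τ i
      ≤ 2 * (KK w μ β τ + (κ⁻¹ * (KK w μ β τ + ε * Gm w (gdw w μ) β τ)
        + ∑ s ∈ range ns, qb s * ((KK w μ β τ + (ε + Es t u sc a c s) *
          Gm w (gdw w μ) β τ) / lam s) * Hn (At sc s).card)) := by
  have hK0 := KK_nonneg H B.b0 B.sum1 h0 h1 hG
  have hBs0 : ∀ s, 0 ≤ (KK w μ β τ + (ε + Es t u sc a c s) * Gm w (gdw w μ) β τ) / lam s := by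
    intro s
    refine div_nonneg (add_nonneg hK0 (mul_nonneg (add_nonneg hε ?_) hG.le)) (P.lam0 s).le
    exact Es_nonneg t0 u0 P s
  have hM := Mk_pos κ L
  obtain ⟨l, hl1, hl2, hl3⟩ := scales (fun i => Mk κ L i * (t i + u i - t i * u i))
    (fun T j => JP w μ β τ β' (fun S _ R x => Di w (gdw w μ) j ((R ∪ S) ∩ T) x)) sc qb
    (fun s => (KK w μ β τ + (ε + Es t u sc a c s) * Gm w (gdw w μ) β τ) / lam s)
    (fun i => by
      have := t0 i; have := t1 i; have := u0 i; have := u1 i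
      refine mul_nonneg (hM i).le ?_
      nlinarith)
    (fun i => by
      refine le_trans (mul_le_mul_of_nonneg_left ?_ (hM i).le) (qb1 i)
      have := mul_nonneg (t0 i) (u0 i)
      linarith)
    qb0 hBs0
    (fun T j => JP_nonneg H B.b0 B.b0' h0 h1 fun _ _ _ _ _ _ _ _ => Di_nonneg H.famT _ _ _)
    (fun s T _ hT => scale_bound H t0 (fun i => (t1 i).trans (by norm_num)) u0
      (fun i => (u1 i).trans (by norm_num)) P B h0 h1 hG s T hT) ns
  have hu : Lo sc ns = univ := by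
    ext i; simp [Lo, scn i]
  rw [hu] at hl2
  have hrev := reveal_all H t0 t1 u0 u1 hκ hL hat B h0 h1 hG hl1 hl2
  have hins : 1 / 2 * ∑ i, u i * Vi w μ β τ i
      ≤ JP w μ β τ β' (fun S _ R x => Real.log (gdw w μ (R ∪ S) x)
        - Real.log (gdw w μ R x)) := by
    have e1 : ∑ S ∈ (univ : Finset ι).powerset, β' S *
        ∑ i, (if i ∈ S then 1 else 0) * Vi w μ β τ i
        ≤ JP w μ β τ β' (fun S _ R x => Real.log (gdw w μ (R ∪ S) x)
        - Real.log (gdw w μ R x)) :=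
      sum_le_sum fun S _ => mul_le_mul_of_nonneg_left (insert_le H B.b0 h0 h1 S) (B.b0' S)
    refine le_trans ?_ e1
    have e2 : ∑ S ∈ (univ : Finset ι).powerset, β' S *
        ∑ i, (if i ∈ S then 1 else 0) * Vi w μ β τ i
        = ∑ i, (∑ S ∈ (univ : Finset ι).powerset, β' S * (if i ∈ S then 1 else 0)) *
          Vi w μ β τ i := by
      simp only [mul_sum, sum_mul]
      rw [sum_comm]
      exact sum_congr rfl fun i _ => sum_congr rfl fun S _ => by ring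
    rw [e2, mul_sum]
    refine sum_le_sum fun i _ => ?_
    have h3 := B.pt i
    have h5 := mul_le_mul_of_nonneg_right (show 1 / 2 * u i ≤
      ∑ S ∈ (univ : Finset ι).powerset, β' S * (if i ∈ S then 1 else 0) by linarith)
      (Vi_nonneg H B.b0 h0 h1 i)
    linarith
  rw [JP_sub (f := fun S _ R x => Real.log (gdw w μ (R ∪ S) x))
    (f' := fun _ _ R x => Real.log (gdw w μ R x))] at hins
  have hR : - JP w μ β τ β' (fun _ _ R x => Real.log (gdw w μ R x)) ≤ KK w μ β τ := by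
    have e1 := neg_log_le H B.b0 B.sum1 h0 h1 hG (fun R => R)
    have e2 : JJ w μ β τ (fun _ R x => -Real.log (gdw w μ R x))
        = - JJ w μ β τ (fun _ R x => Real.log (gdw w μ R x)) := by
      have := JJ_smul w μ β τ (-1) (fun _ R x => Real.log (gdw w μ R x))
      simpa using this
    rw [e2] at e1
    unfold JP
    rw [← sum_mul]
    have e3 := B.sum1'
    have e4 : 0 ≤ ∑ S ∈ (univ : Finset ι).powerset, β' S := sum_nonneg fun S _ => B.b0' S
    have e5 := mul_le_mul_of_nonneg_left e1 e4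
    have e6 := mul_le_mul_of_nonneg_right e3 hK0
    linarith
  linarith

end

end Vale.Agent.P042.H779.Ab.Ll
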