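import Vale.Agent.P042.H461.LBase
import Vale.Agent.P042.H779.MuScale

/-! Revealing the coordinates one by one: an exponential martingale for the true law, with one
exponent `κ` and individual atoms. (Generalisation of helper779's `MuMart`.) -/

namespace Vale.Agent.P042.H779.Ab.Ll

open Finset

set_option linter.unusedSectionVars false

/-- `r^{1+κ}` is at most `r` plus a multiple of `(r-1)` plus the entropy term -/
lemma rpow_scalar {r κ L : ℝ} (hr : 0 ≤ r) (hκ : 0 < κ) (hL : 1 ≤ L)
    (hrL : r ≤ Real.exp L) :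
    r * r ^ κ ≤ r + κ * (r - 1) + κ * (65 * Real.exp (2 * κ * L) * phi r) := by
  have hL0 : 0 < L := by linarith
  obtain ⟨E, hE⟩ : ∃ E, E = Real.exp (κ * L) := ⟨_, rfl⟩
  have hE2 : Real.exp (2 * κ * L) = E ^ 2 := by
    rw [hE, ← Real.exp_nat_mul]; congr 1; push_cast; ring
  have hκL : 0 < κ * L := mul_pos hκ hL0
  have hE1 : 1 ≤ E := by rw [hE]; exact Real.one_le_exp hκL.le
  have hEL : κ * L ≤ E := by rw [hE]; have := Real.add_one_le_exp (κ * L); linarith
  have hEE : 1 ≤ E ^ 2 := by nlinarith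
  have hphi := phi_nonneg hr
  rw [hE2]
  rcases hr.eq_or_lt with rfl | hr
  · have h0 : phi 0 = 1 := by simp [phi]
    rw [h0, zero_mul]
    nlinarith
  obtain ⟨u, hu⟩ : ∃ u, u = κ * Real.log r := ⟨_, rfl⟩
  have h1 : r ^ κ = Real.exp u := by
    rw [Real.rpow_def_of_pos hr, hu]; congr 1; ring
  have hlr : Real.log r ≤ L := by
    have := Real.log_le_log hr hrL
    rwa [Real.log_exp] at this
  have huL : u ≤ κ * L := by rw [hu]; exact mul_le_mul_of_nonneg_left hlr hκ.le
  have h2 : Real.exp u ≤ 1 + u + u ^ 2 * E := by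
    rcases le_or_gt u 1 with h | h
    · have h3 : Real.exp u ≤ 1 + u + u ^ 2 := by
        rcases le_or_gt (-1) u with h' | h'
        · have := Real.abs_exp_sub_one_sub_id_le (abs_le.mpr ⟨h', h⟩)
          have := (abs_le.mp this).2
          linarith
        · have : Real.exp u ≤ 1 := Real.exp_le_one_iff.mpr (by linarith)
          nlinarith
      have h4 : u ^ 2 ≤ u ^ 2 * E := le_mul_of_one_le_right (sq_nonneg u) hE1
      linarith
    · have h3 : Real.exp u ≤ E := by rw [hE]; exact Real.exp_le_exp.mpr huL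
      have h4 : E ≤ u ^ 2 * E := le_mul_of_one_le_left (by linarith) (by nlinarith)
      linarith
  rw [h1]
  have h3 := mul_le_mul_of_nonneg_left h2 hr.le
  have h4 : r * (1 + u + u ^ 2 * E) = r + κ * (r * Real.log r)
      + κ ^ 2 * E * (r * Real.log r ^ 2) := by rw [hu]; ring
  have h5 : r * Real.log r = phi r + r - 1 := by unfold phi; ring
  have h6 := mul_le_mul_of_nonneg_left (r_log_sq_le hr hL hrL)
    (show 0 ≤ κ ^ 2 * E by positivity)
  have h7 : κ ^ 2 * E * (64 * L * phi r) = κ * (64 * (κ * L) * E * phi r) := by ring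
  rw [h7] at h6
  rw [h4, h5] at h3
  have h8 : 64 * (κ * L) * E * phi r ≤ 64 * E * E * phi r := by
    have := mul_le_mul_of_nonneg_right hEL (show 0 ≤ 64 * E * phi r by positivity)
    linarith
  have h9 := mul_le_mul_of_nonneg_left h8 hκ.le
  have h10 : κ * phi r ≤ κ * (E ^ 2 * phi r) := by
    refine mul_le_mul_of_nonneg_left ?_ hκ.le
    exact le_mul_of_one_le_left hphi hEE
  have h11 : κ * (65 * E ^ 2 * phi r) = κ * (64 * E * E * phi r) + κ * (E ^ 2 * phi r) := by ring
  rw [h11]
  linarith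

section
variable {ι : Type*} [Fintype ι] [DecidableEq ι] {V : ι → Type*} [∀ i, Fintype (V i)]
  [∀ i, DecidableEq (V i)] {w : ∀ i, V i → ℝ} {μ : (∀ i, V i) → ℝ}

/-- conditional normalisation of the exponential of one step -/
noncomputable def cj (w : ∀ i, V i → ℝ) (μ : (∀ i, V i) → ℝ) (t : ι → ℝ) (κ : ℝ) (j : ι)
    (P : Finset ι) (x : ∀ i, V i) : ℝ :=
  1 - t j + t j * avr w μ (fun r => r ^ κ) j P x

lemma avr_rpow_nonneg (H : Ref w μ) (κ : ℝ) (j : ι) (P : Finset ι) (x : ∀ i, V i) :
    0 ≤ avr w μ (fun r => r ^ κ) j P x := by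
  unfold avr
  refine sum_nonneg fun a _ => mul_nonneg (H.w_nonneg j a) (mul_nonneg (rt_nonneg H.famT _ _ _) ?_)
  exact Real.rpow_nonneg (rt_nonneg H.famT _ _ _) _

lemma cj_pos (H : Ref w μ) {t : ι → ℝ} (h0 : ∀ i, 0 ≤ t i) (h1 : ∀ i, t i < 1) (κ : ℝ) (j : ι)
    (P : Finset ι) (x : ∀ i, V i) : 0 < cj w μ t κ j P x := by
  unfold cj
  have := mul_nonneg (h0 j) (avr_rpow_nonneg H κ j P x)
  have := h1 j
  linarith

lemma loc_cj (t : ι → ℝ) (κ : ℝ) (j : ι) (P : Finset ι) : Loc P (cj w μ t κ j P) := by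
  intro x y hxy
  unfold cj
  rw [loc_avr _ j P x y hxy]

/-- the loss factor of one coordinate -/
noncomputable def Mk (κ : ℝ) (L : ι → ℝ) (j : ι) : ℝ := 65 * Real.exp (2 * κ * L j)

omit [Fintype ι] [DecidableEq ι] in
lemma Mk_pos (κ : ℝ) (L : ι → ℝ) (j : ι) : 0 < Mk κ L j := by
  unfold Mk; positivity

/-- the atoms bound the ratios -/
lemma rt_le (H : Ref w μ) {L : ι → ℝ} (hat : ∀ i a, w i a = 0 ∨ Real.exp (-L i) ≤ w i a) {i : ι}
    {P : Finset ι} (hi : i ∉ P) (x : ∀ i, V i) (a : V i) :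
    rt (gdw w μ) i (Function.update x i a) P ≤ Real.exp (L i) := by
  rcases hat i a with h0 | h0
  · have h1 : gdw w μ (insert i P) (Function.update x i a) = 0 := by
      by_contra hne
      have hpos : 0 < gdw w μ (insert i P) (Function.update x i a) :=
        lt_of_le_of_ne (H.famT.g_nonneg _ _) (Ne.symm hne)
      rw [gdw_pos_iff H.prob H.w_nonneg H.ac] at hpos
      have h3 := marg_eq_zero_of_w H.prob H.ac (mem_insert_self i P)
        (x := Function.update x i a) (by simpa using h0)
      exact hpos.ne' h3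
    unfold rt
    rw [h1, zero_div]
    exact Real.exp_nonneg _
  · exact rt_le_exp H.famT (by simpa using h0) hi trivial

lemma log_cj_le (H : Ref w μ) {t : ι → ℝ} (h0 : ∀ i, 0 ≤ t i) (h1 : ∀ i, t i < 1) {κ : ℝ}
    (hκ : 0 < κ) {L : ι → ℝ}
    (hL : ∀ i, 1 ≤ L i) (hat : ∀ i a, w i a = 0 ∨ Real.exp (-L i) ≤ w i a) {j : ι} {P : Finset ι}
    (hj : j ∉ P) {x : ∀ i, V i} (hx : 0 < gdw w μ P x) :
    Real.log (cj w μ t κ j P x) ≤ κ * (Mk κ L j * t j * Di w (gdw w μ) j P x) := by
  have h2 := Real.log_le_sub_one_of_pos (cj_pos H h0 h1 κ j P x)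
  have h3 : avr w μ (fun r => r ^ κ) j P x
      ≤ 1 + κ * (Mk κ L j * Di w (gdw w μ) j P x) := by
    have h4 : avr w μ (fun r => r ^ κ) j P x
        ≤ ∑ a, w j a * (rt (gdw w μ) j (Function.update x j a) P
          + κ * (rt (gdw w μ) j (Function.update x j a) P - 1)
          + κ * (Mk κ L j * phi (rt (gdw w μ) j (Function.update x j a) P))) := by
      unfold avr
      exact sum_le_sum fun a _ => mul_le_mul_of_nonneg_left
        (rpow_scalar (rt_nonneg H.famT _ _ _) hκ (hL j) (rt_le H hat hj x a))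
        (H.w_nonneg j a)
    have h5 : ∑ a, w j a * (rt (gdw w μ) j (Function.update x j a) P
          + κ * (rt (gdw w μ) j (Function.update x j a) P - 1)
          + κ * (Mk κ L j * phi (rt (gdw w μ) j (Function.update x j a) P)))
        = (1 + κ) * (∑ a, w j a * rt (gdw w μ) j (Function.update x j a) P)
          - κ * (∑ a, w j a) + κ * (Mk κ L j * Di w (gdw w μ) j P x) := by
      unfold Di
      rw [mul_sum, mul_sum, mul_sum, mul_sum, ← sum_sub_distrib, ← sum_add_distrib]
      exact sum_congr rfl fun a _ => by ring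
    rw [h5, sum_w_rt H hj hx, H.w_sum] at h4
    linarith
  have h6 : cj w μ t κ j P x - 1 ≤ t j * (κ * (Mk κ L j * Di w (gdw w μ) j P x)) := by
    unfold cj
    have := mul_le_mul_of_nonneg_left h3 (h0 j)
    linarith
  have h7 : t j * (κ * (Mk κ L j * Di w (gdw w μ) j P x))
      = κ * (Mk κ L j * t j * Di w (gdw w μ) j P x) := by ring
  linarith

/-- one factor of the martingale -/
noncomputable def fac (w : ∀ i, V i → ℝ) (μ : (∀ i, V i) → ℝ) (t : ι → ℝ) (κ : ℝ) (j : ι)
    (P R : Finset ι) (x : ∀ i, V i) : ℝ :=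
  (if j ∈ R then rt (gdw w μ) j x P ^ κ else 1) / cj w μ t κ j P x

/-- the martingale along a list, starting from the revealed set `T`; `W` are fixed pins -/
noncomputable def Zl (w : ∀ i, V i → ℝ) (μ : (∀ i, V i) → ℝ) (t : ι → ℝ) (κ : ℝ)
    (W : Finset ι) : Finset ι → List ι → Finset ι → (∀ i, V i) → ℝ
  | _, [], _, _ => 1
  | T, j :: l, R, x => fac w μ t κ j (W ∪ R ∩ T) R x * Zl w μ t κ W (insert j T) l R x

/-- expectation of the martingale under the true law with product rates -/
lemma mart (H : Ref w μ) {t : ι → ℝ} (h0 : ∀ i, 0 ≤ t i) (h1 : ∀ i, t i < 1) (κ : ℝ)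
    (W : Finset ι) (l : List ι) : ∀ (T : Finset ι), l.Nodup → (∀ j ∈ l, j ∉ T) →
    (∀ j ∈ l, j ∉ W) → ∀ K : Finset ι → (∀ i, V i) → ℝ,
    (∀ R, Loc (W ∪ R ∩ T) (K R)) →
    (∀ R R' : Finset ι, (∀ i, i ∉ l → (i ∈ R ↔ i ∈ R')) → K R = K R') →
    ∑ R ∈ (univ : Finset ι).powerset, bt t R * ∑ x, μ x * (K R x * Zl w μ t κ W T l R x)
      = ∑ R ∈ (univ : Finset ι).powerset, bt t R * ∑ x, μ x * K R x := by
  induction l with
  | nil =>
    intro T _ _ _ K _ _
    simp [Zl]
  | cons j l ih =>
    intro T hnd hT hW K hK hI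
    have hjT : j ∉ T := hT j (by simp)
    have hjW : j ∉ W := hW j (by simp)
    have hjl : j ∉ l := (List.nodup_cons.mp hnd).1
    have hjP : ∀ R : Finset ι, j ∉ W ∪ R ∩ T := fun R => by simp [hjW, hjT]
    have ih' := ih (insert j T) (List.nodup_cons.mp hnd).2
      (by
        intro k hk hc
        rcases mem_insert.mp hc with rfl | hc
        · exact hjl hk
        · exact hT k (List.mem_cons_of_mem _ hk) hc)
      (fun k hk => hW k (List.mem_cons_of_mem _ hk))
      (fun R x => K R x * fac w μ t κ j (W ∪ R ∩ T) R x)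
      (by
        intro R
        have hsub : W ∪ R ∩ T ⊆ W ∪ R ∩ insert j T := by
          intro k hk
          simp only [mem_union, mem_inter, mem_insert] at hk ⊢
          tauto
        refine ((hK R).mono hsub).mul ?_
        intro x y hxy
        unfold fac
        rw [loc_cj t κ j (W ∪ R ∩ T) x y fun k hk => hxy k (hsub hk)]
        congr 1
        split_ifs with hjR
        · have : rt (gdw w μ) j x (W ∪ R ∩ T) = rt (gdw w μ) j y (W ∪ R ∩ T) := by
            refine loc_rt j (W ∪ R ∩ T) x y fun k hk => ?_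
            rcases mem_insert.mp hk with rfl | hk
            · exact hxy k (by simp [hjR])
            · exact hxy k (hsub hk)
          rw [this]
        · rfl)
      (by
        intro R R' hRR
        have hj2 : j ∈ R ↔ j ∈ R' := hRR j hjl
        have hK' : K R = K R' := hI R R' fun i hi => hRR i fun hc => hi (List.mem_cons_of_mem _ hc)
        have hRT : R ∩ T = R' ∩ T := by
          ext k
          simp only [mem_inter]
          constructor
          · rintro ⟨h1, h2⟩
            exact ⟨(hRR k fun hc => hT k (List.mem_cons_of_mem _ hc) h2).mp h1, h2⟩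
          · rintro ⟨h1, h2⟩
            exact ⟨(hRR k fun hc => hT k (List.mem_cons_of_mem _ hc) h2).mpr h1, h2⟩
        funext x
        simp only [fac, hK', hRT]
        congr 2
        by_cases h : j ∈ R
        · rw [if_pos h, if_pos (hj2.mp h)]
        · rw [if_neg h, if_neg fun hc => h (hj2.mpr hc)])
    have e1 : ∀ R ∈ (univ : Finset ι).powerset, bt t R * ∑ x, μ x * (K R x *
        Zl w μ t κ W T (j :: l) R x)
        = bt t R * ∑ x, μ x * (K R x * fac w μ t κ j (W ∪ R ∩ T) R x *
          Zl w μ t κ W (insert j T) l R x) := by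
      intro R _
      congr 1
      refine sum_congr rfl fun x _ => ?_
      simp only [Zl]
      ring
    rw [sum_congr rfl e1, ih',
      bt_avg t j (fun R => ∑ x, μ x * (K R x * fac w μ t κ j (W ∪ R ∩ T) R x))]
    refine sum_congr rfl fun R _ => ?_
    congr 1
    have hRe : K (R.erase j) = K R := hI _ _ fun i hi => by
      have : i ≠ j := fun h => hi (by rw [h]; simp)
      simp [this]
    have hRi : K (insert j R) = K R := hI _ _ fun i hi => by
      have : i ≠ j := fun h => hi (by rw [h]; simp)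
      simp [this]
    have hTe : R.erase j ∩ T = R ∩ T := by
      ext k
      simp only [mem_inter, mem_erase]
      constructor
      · rintro ⟨⟨_, h1⟩, h2⟩; exact ⟨h1, h2⟩
      · rintro ⟨h1, h2⟩; exact ⟨⟨fun h => hjT (h ▸ h2), h1⟩, h2⟩
    have hTi : insert j R ∩ T = R ∩ T := by
      ext k
      simp only [mem_inter, mem_insert]
      constructor
      · rintro ⟨rfl | h1, h2⟩
        · exact absurd h2 hjT
        · exact ⟨h1, h2⟩
      · rintro ⟨h1, h2⟩; exact ⟨Or.inr h1, h2⟩
    rw [hRe, hRi, hTe, hTi]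
    obtain ⟨P, hP⟩ : ∃ P, P = W ∪ R ∩ T := ⟨_, rfl⟩
    rw [← hP]
    have hKP : Loc P (K R) := by rw [hP]; exact hK R
    have hjP' : j ∉ P := by rw [hP]; exact hjP R
    have hf1 : ∀ x, fac w μ t κ j P (R.erase j) x = 1 / cj w μ t κ j P x := by
      intro x; unfold fac; rw [if_neg (notMem_erase j R)]
    have hf2 : ∀ x, fac w μ t κ j P (insert j R) x
        = rt (gdw w μ) j x P ^ κ / cj w μ t κ j P x := by
      intro x; unfold fac; rw [if_pos (mem_insert_self j R)]
    have hKc : Loc P (fun x => K R x / cj w μ t κ j P x) := by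
      intro x y hxy
      beta_reduce
      rw [hKP x y hxy, loc_cj t κ j P x y hxy]
    have hos := one_step H hjP' hKc (fun r => r ^ κ)
    have e2 : ∑ x, μ x * (K R x * fac w μ t κ j P (insert j R) x)
        = ∑ x, μ x * (K R x / cj w μ t κ j P x * avr w μ (fun r => r ^ κ) j P x) := by
      rw [← hos]
      refine sum_congr rfl fun x _ => ?_
      rw [hf2]; ring
    rw [e2, mul_sum, mul_sum, ← sum_add_distrib]
    refine sum_congr rfl fun x _ => ?_
    rw [hf1]
    have hc := (cj_pos H h0 h1 κ j P x).ne'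
    have hcd : cj w μ t κ j P x = 1 - t j + t j * avr w μ (fun r => r ^ κ) j P x := rfl
    field_simp
    rw [hcd]

end

end Vale.Agent.P042.H779.Ab.Ll
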