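import Vale.Agent.P042.H461.LPin
import Vale.Agent.P042.H461.LF3

/-! Absolute second moments at all pins (power regime): a measure `m ν` of mass at most `κ` with
the pins inequality on dense cells. -/

namespace Vale.Agent.P042.H779.Ab.Ll

open Finset Vale.Agent.P042.H482 Vale.Agent.P042.H461.LNum
open Vale.Agent.P042.H779 (marg m1 IsProb marg_nonneg marg_congr phi phi_nonneg)

set_option linter.unusedSectionVars false

/-- The hypotheses on the measure `m ν`, `0 < m ≤ κ`. -/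
structure ThickG {ι : Type*} [Fintype ι] [DecidableEq ι] {V : ι → Type*} [∀ i, Fintype (V i)]
    [∀ i, DecidableEq (V i)] (b γ A0 : ℝ) (w w2 : ∀ i, V i → ℝ) (ν : (∀ i, V i) → ℝ)
    (sc : ι → ℕ) (ns : ℕ) (ℓ : ι → ℝ) (Λ : ℝ) (L A α lamf : ι → ℝ) (a del m κ : ℝ) : Prop where
  ref : Ref w ν
  m0 : 0 < m
  mκ : m ≤ κ
  scn : ∀ i, sc i < ns
  card : ∀ s : ℕ, ((At sc s).card : ℝ) ≤ Real.exp (b * s)
  L1 : ∀ i, 1 ≤ L i
  LA : ∀ i, L i ≤ A0 * sc i
  atoms : ∀ i v, w i v = 0 ∨ Real.exp (-L i) ≤ w i v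
  w20 : ∀ i v, 0 ≤ w2 i v
  w21 : ∀ i, ∑ v, w2 i v = 1
  w2A : ∀ i v, w i v = 0 ∨ (0 < w2 i v ∧ w2 i v ≤ Real.exp (A i) * w i v)
  A0' : ∀ i, 0 ≤ A i
  α0 : ∀ i, 0 ≤ α i
  a0 : 0 ≤ a
  gH1 : ∀ i, α i + A i + a + Real.log 2 ≤ γ * sc i
  a1 : ∀ i, a + 2 ≤ Real.exp (γ * sc i)
  lam0 : ∀ i, 0 ≤ lamf i
  lam1 : ∀ i, Real.exp (-(γ * sc i)) ≤ lamf i
  del0 : 0 ≤ del
  del1 : del ≤ 1
  delB : del * ∑ j, lamf j * (1 + L j) ≤ 1
  hQ : ∀ P : Finset ι, len ℓ P ≤ 3 * Λ → ∀ x, 0 < gdw w ν P x → del * κ ≤ m * gdw w ν P x →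
    ∑ j ∈ univ \ P, lamf j * Di w (gdw w ν) j P x
      ≤ ∑ i ∈ P, α i + a - Real.log (m * gdw w2 ν P x / κ)
  ℓ0 : ∀ i, 0 ≤ ℓ i
  Λ0 : 0 < Λ
  ℓΛ : ∀ i, 4 * ℓ i ≤ Λ

section
variable {ι : Type*} [Fintype ι] [DecidableEq ι] {V : ι → Type*} [∀ i, Fintype (V i)]
  [∀ i, DecidableEq (V i)] {b γ A0 : ℝ} {w w2 : ∀ i, V i → ℝ} {ν : (∀ i, V i) → ℝ}
  {sc : ι → ℕ} {ns : ℕ} {ℓ : ι → ℝ} {Λ : ℝ} {L A α lamf : ι → ℝ} {a del m κ : ℝ}

/-- the additive constant at a scale -/
noncomputable def aM (sc : ι → ℕ) (a : ℝ) (s : ℕ) : ℝ :=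
  if (At sc s).Nonempty then a + 2 else 0

lemma Di_le_one_add (H : Ref w ν) (hL1 : ∀ i, 1 ≤ L i)
    (hat : ∀ i v, w i v = 0 ∨ Real.exp (-L i) ≤ w i v) {j : ι} {P : Finset ι} (hj : j ∉ P)
    {x : ∀ i, V i} (hx : 0 < gdw w ν P x) : Di w (gdw w ν) j P x ≤ 1 + L j := by
  have h1 : Di w (gdw w ν) j P x
      ≤ ∑ v, w j v * (1 + L j * rt (gdw w ν) j (Function.update x j v) P) := by
    unfold Di
    refine sum_le_sum fun v _ => ?_
    rcases (H.w_nonneg j v).eq_or_lt with h0 | h0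
    · rw [← h0]; simp
    refine mul_le_mul_of_nonneg_left ?_ h0.le
    have hLe : Real.exp (-L j) ≤ w j v := by
      rcases hat j v with h | h
      · exact absurd h h0.ne'
      · exact h
    have hr : rt (gdw w ν) j (Function.update x j v) P ≤ Real.exp (L j) := by
      unfold rt
      have hup : gdw w ν P (Function.update x j v) = gdw w ν P x :=
        H.famT.g_upd P j hj x v
      rw [hup, div_le_iff₀ hx]
      have h2 := w_mul_g_insert_le H.famT hj trivial (Function.update x j v)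
      rw [Function.update_self, hup] at h2
      have hg0 : 0 ≤ gdw w ν (insert j P) (Function.update x j v) := H.famT.g_nonneg _ _
      have h3 : Real.exp (-L j) * gdw w ν (insert j P) (Function.update x j v)
          ≤ gdw w ν P x := (mul_le_mul_of_nonneg_right hLe hg0).trans h2
      calc gdw w ν (insert j P) (Function.update x j v)
          = Real.exp (L j) * (Real.exp (-L j) *
            gdw w ν (insert j P) (Function.update x j v)) := by
            rw [← mul_assoc, ← Real.exp_add]; simp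
        _ ≤ Real.exp (L j) * gdw w ν P x :=
            mul_le_mul_of_nonneg_left h3 (Real.exp_pos _).le
    exact H779.phi_le_of_le_exp (rt_nonneg H.famT _ _ _) hr
  have h2 : ∑ v, w j v * (1 + L j * rt (gdw w ν) j (Function.update x j v) P)
      = (∑ v, w j v) + L j * ∑ v, w j v * rt (gdw w ν) j (Function.update x j v) P := by
    rw [mul_sum, ← sum_add_distrib]
    exact sum_congr rfl fun v _ => by ring
  rw [h2, H.w_sum, sum_w_rt H hj hx, mul_one] at h1
  exact h1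

/-- the cost of the pins -/
noncomputable def κS (κ : ℝ) (α A : ι → ℝ) (a : ℝ) (S : Finset ι) : ℝ :=
  κ * Real.exp (∑ i ∈ S, (α i + A i) + a)

lemma ac2 (T : ThickG b γ A0 w w2 ν sc ns ℓ Λ L A α lamf a del m κ) :
    ∀ i v, w2 i v = 0 → m1 ν i v = 0 := by
  intro i v h
  rcases T.w2A i v with h1 | h1
  · exact T.ref.ac i v h1
  · exact absurd h h1.1.ne'

/-- comparison of the two references on a set of coordinates -/
lemma w2_prod (T : ThickG b γ A0 w w2 ν sc ns ℓ Λ L A α lamf a del m κ) {P : Finset ι}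
    {x : ∀ i, V i} (hx : 0 < ∏ i ∈ P, w i (x i)) :
    0 < ∏ i ∈ P, w2 i (x i) ∧
      ∏ i ∈ P, w2 i (x i) ≤ Real.exp (∑ i ∈ P, A i) * ∏ i ∈ P, w i (x i) := by
  refine ⟨prod_pos fun i hi => ?_, ?_⟩
  · rcases T.w2A i (x i) with h | h
    · exact absurd (prod_eq_zero hi h) hx.ne'
    · exact h.1
  · rw [Real.exp_sum, ← prod_mul_distrib]
    refine prod_le_prod (fun i hi => T.w20 i _) fun i hi => ?_
    rcases T.w2A i (x i) with h | h
    · exact absurd (prod_eq_zero hi h) hx.ne'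
    · exact h.2

/-- the mass of the pinned measure -/
lemma cap_pin (T : ThickG b γ A0 w w2 ν sc ns ℓ Λ L A α lamf a del m κ) {S : Finset ι}
    (hS : len ℓ S ≤ Λ) {u : ∀ i, V i} (hc : 0 < gdw w ν S u) :
    m * gdw w ν S u ≤ κS κ α A a S := by
  have hκ : 0 < κ := T.m0.trans_le T.mκ
  have hS0 : 0 ≤ ∑ i ∈ S, (α i + A i) := sum_nonneg fun i _ => add_nonneg (T.α0 i) (T.A0' i)
  have hE : 1 ≤ Real.exp (∑ i ∈ S, (α i + A i) + a) := Real.one_le_exp (add_nonneg hS0 T.a0)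
  unfold κS
  by_cases hd : del * κ ≤ m * gdw w ν S u
  · have h1 := T.hQ S (by have := T.Λ0; linarith) u hc hd
    have h2 : 0 ≤ ∑ j ∈ univ \ S, lamf j * Di w (gdw w ν) j S u :=
      sum_nonneg fun j _ => mul_nonneg (T.lam0 j) (Di_nonneg T.ref.famT _ _ _)
    have hmarg := (gdw_pos_iff T.ref.prob T.ref.w_nonneg T.ref.ac S u).mp hc
    have hw := prod_w_pos_of_marg T.ref.prob T.ref.w_nonneg T.ref.ac hmarg
    obtain ⟨h3, h4⟩ := w2_prod T hw
    have h5 : gdw w ν S u ≤ Real.exp (∑ i ∈ S, A i) * gdw w2 ν S u := by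
      unfold gdw
      rw [mul_div_assoc', div_le_div_iff₀ hw h3]
      calc marg ν S u * ∏ i ∈ S, w2 i (u i)
          ≤ marg ν S u * (Real.exp (∑ i ∈ S, A i) * ∏ i ∈ S, w i (u i)) :=
            mul_le_mul_of_nonneg_left h4 hmarg.le
        _ = _ := by ring
    have h6 : 0 < gdw w2 ν S u := div_pos hmarg h3
    have h7 : m * gdw w2 ν S u / κ ≤ Real.exp (∑ i ∈ S, α i + a) := by
      have := T.m0
      rw [← Real.log_le_iff_le_exp (by positivity)]
      linarith
    rw [div_le_iff₀ hκ] at h7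
    calc m * gdw w ν S u ≤ m * (Real.exp (∑ i ∈ S, A i) * gdw w2 ν S u) :=
          mul_le_mul_of_nonneg_left h5 T.m0.le
      _ = Real.exp (∑ i ∈ S, A i) * (m * gdw w2 ν S u) := by ring
      _ ≤ Real.exp (∑ i ∈ S, A i) * (Real.exp (∑ i ∈ S, α i + a) * κ) :=
          mul_le_mul_of_nonneg_left h7 (Real.exp_nonneg _)
      _ = _ := by
          rw [sum_add_distrib, ← mul_assoc, ← Real.exp_add]
          have : ∑ i ∈ S, A i + (∑ i ∈ S, α i + a) = ∑ i ∈ S, α i + ∑ i ∈ S, A i + a := by ring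
          rw [this]; ring
  · push Not at hd
    have h1 : del * κ ≤ κ := mul_le_of_le_one_left hκ.le T.del1
    have h2 : κ ≤ κ * Real.exp (∑ i ∈ S, (α i + A i) + a) := le_mul_of_one_le_right hκ.le hE
    linarith

omit [Fintype ι] [∀ i, Fintype (V i)] [∀ i, DecidableEq (V i)] in
lemma prod_piecewise_disj {f : ∀ i, V i → ℝ} {S P : Finset ι} (hd : Disjoint P S)
    (u x : ∀ i, V i) : ∏ i ∈ S ∪ P, f i (S.piecewise u x i)
      = (∏ i ∈ S, f i (u i)) * ∏ i ∈ P, f i (x i) := by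
  rw [prod_union hd.symm]
  congr 1
  · exact prod_congr rfl fun i hi => by rw [piecewise_eq_of_mem _ _ _ hi]
  · exact prod_congr rfl fun i hi => by
      rw [piecewise_eq_of_notMem _ _ _ (disjoint_left.mp hd hi)]

/-- the pins inequality of the pinned measure, at sets disjoint from the pins -/
lemma pinQ (T : ThickG b γ A0 w w2 ν sc ns ℓ Λ L A α lamf a del m κ) {S : Finset ι}
    (hS : len ℓ S ≤ Λ) {u : ∀ i, V i} (hc : 0 < gdw w ν S u) {P : Finset ι}
    (hP : len ℓ P ≤ 2 * Λ) (hd : Disjoint P S) (x : ∀ i, V i)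
    (hx : 0 < gdw w (nuS w ν S u) P x)
    (hdel : del * κS κ α A a S ≤ m * gdw w ν S u * gdw w (nuS w ν S u) P x) :
    ∑ j ∈ (univ \ S) \ P, lamf j * Di w (gdw w (nuS w ν S u)) j P x
      ≤ ∑ i ∈ P, α i + a
        - Real.log (m * gdw w ν S u * gdw w2 (nuS w ν S u) P x / κS κ α A a S) := by
  have H := T.ref
  have Hn := ref_nuS H hc
  have hκ : 0 < κ := T.m0.trans_le T.mκ
  have hm := T.m0
  have hmarg := (gdw_pos_iff Hn.prob Hn.w_nonneg Hn.ac P x).mp hx
  have hw := prod_w_pos_of_marg Hn.prob Hn.w_nonneg Hn.ac hmarg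
  obtain ⟨hw2P, _⟩ := w2_prod T hw
  have hmargS := (gdw_pos_iff H.prob H.w_nonneg H.ac S u).mp hc
  have hwS := prod_w_pos_of_marg H.prob H.w_nonneg H.ac hmargS
  obtain ⟨hw2S, hw2S'⟩ := w2_prod T hwS
  obtain ⟨G, hG⟩ : ∃ G, G = gdw w ν (S ∪ P) (S.piecewise u x) := ⟨_, rfl⟩
  have hgn : gdw w (nuS w ν S u) P x = G / gdw w ν S u := by rw [hG]; exact gdw_nuS H hc hw
  have hGpos : 0 < G := by
    rw [hgn] at hx
    by_contra h
    have h1 : G ≤ 0 := not_lt.mp h
    have : G / gdw w ν S u ≤ 0 := div_nonpos_of_nonpos_of_nonneg h1 hc.le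
    linarith
  have e1 : m * gdw w ν S u * gdw w (nuS w ν S u) P x = m * G := by
    rw [hgn]
    field_simp
  rw [e1] at hdel
  have hS0 : 0 ≤ ∑ i ∈ S, (α i + A i) := sum_nonneg fun i _ => add_nonneg (T.α0 i) (T.A0' i)
  have hE : 1 ≤ Real.exp (∑ i ∈ S, (α i + A i) + a) := Real.one_le_exp (add_nonneg hS0 T.a0)
  have hdel' : del * κ ≤ m * G := by
    refine le_trans ?_ hdel
    refine mul_le_mul_of_nonneg_left ?_ T.del0
    unfold κS
    exact le_mul_of_one_le_right hκ.le hE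
  have hlen : len ℓ (S ∪ P) ≤ 3 * Λ := by
    have := len_union_le T.ℓ0 S P
    linarith
  have h1 := T.hQ (S ∪ P) hlen (S.piecewise u x) (by rw [← hG]; exact hGpos)
    (by rw [← hG]; exact hdel')
  have e2 : univ \ (S ∪ P) = (univ \ S) \ P := by
    ext j
    simp only [mem_sdiff, mem_union, mem_univ, true_and, not_or]
  have e3 : ∑ j ∈ (univ \ S) \ P, lamf j * Di w (gdw w (nuS w ν S u)) j P x
      = ∑ j ∈ univ \ (S ∪ P), lamf j * Di w (gdw w ν) j (S ∪ P) (S.piecewise u x) := by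
    rw [e2]
    refine sum_congr rfl fun j hj => ?_
    have hjP := (mem_sdiff.mp hj).2
    have hjS := (mem_sdiff.mp (mem_sdiff.mp hj).1).2
    rw [Di_nuS H hc hjP hjS hw]
  rw [e3]
  refine h1.trans ?_
  -- densities with respect to the second reference
  have f1 : gdw w2 ν (S ∪ P) (S.piecewise u x)
      = G * ((∏ i ∈ S, w i (u i)) * ∏ i ∈ P, w i (x i)) /
        ((∏ i ∈ S, w2 i (u i)) * ∏ i ∈ P, w2 i (x i)) := by
    rw [hG]
    unfold gdw
    rw [prod_piecewise_disj hd, prod_piecewise_disj hd, div_mul_cancel₀]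
    exact (mul_pos hwS hw).ne'
  have f2 : gdw w2 (nuS w ν S u) P x
      = G / gdw w ν S u * (∏ i ∈ P, w i (x i)) / ∏ i ∈ P, w2 i (x i) := by
    rw [← hgn]
    unfold gdw
    rw [div_mul_cancel₀ _ hw.ne']
  have f3 : m * gdw w ν S u * gdw w2 (nuS w ν S u) P x / κS κ α A a S
      ≤ m * gdw w2 ν (S ∪ P) (S.piecewise u x) / κ * Real.exp (-(∑ i ∈ S, α i)) := by
    rw [f1, f2]
    obtain ⟨X, hX⟩ : ∃ X, X = (∏ i ∈ P, w i (x i)) / ∏ i ∈ P, w2 i (x i) := ⟨_, rfl⟩
    have hX0 : 0 < X := by rw [hX]; exact div_pos hw hw2P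
    obtain ⟨Y, hY⟩ : ∃ Y, Y = (∏ i ∈ S, w i (u i)) / ∏ i ∈ S, w2 i (u i) := ⟨_, rfl⟩
    have hY0 : Real.exp (-(∑ i ∈ S, A i)) ≤ Y := by
      rw [hY, le_div_iff₀ hw2S, Real.exp_neg, inv_mul_le_iff₀ (Real.exp_pos _)]
      exact hw2S'
    have g1 : m * gdw w ν S u * (G / gdw w ν S u * (∏ i ∈ P, w i (x i)) / ∏ i ∈ P, w2 i (x i))
        / κS κ α A a S = m * G * X / κ * Real.exp (-(∑ i ∈ S, (α i + A i) + a)) := by
      rw [hX]
      unfold κS
      rw [Real.exp_neg]
      field_simp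
    have g2 : m * (G * ((∏ i ∈ S, w i (u i)) * ∏ i ∈ P, w i (x i)) /
        ((∏ i ∈ S, w2 i (u i)) * ∏ i ∈ P, w2 i (x i))) / κ = m * G * X / κ * Y := by
      rw [hX, hY]
      field_simp
    rw [g1, g2, mul_assoc (m * G * X / κ)]
    refine mul_le_mul_of_nonneg_left ?_ (by positivity)
    have g3 : Real.exp (-(∑ i ∈ S, (α i + A i) + a))
        ≤ Real.exp (-(∑ i ∈ S, A i)) * Real.exp (-(∑ i ∈ S, α i)) := by
      rw [← Real.exp_add]
      refine Real.exp_le_exp.mpr ?_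
      rw [sum_add_distrib]
      have := T.a0
      linarith
    exact g3.trans (mul_le_mul_of_nonneg_right hY0 (Real.exp_nonneg _))
  have f4 : 0 < m * gdw w ν S u * gdw w2 (nuS w ν S u) P x / κS κ α A a S := by
    rw [f2]
    unfold κS
    positivity
  have f5 := Real.log_le_log f4 f3
  have f6 : 0 < m * gdw w2 ν (S ∪ P) (S.piecewise u x) / κ := by
    rw [f1]; positivity
  rw [Real.log_mul f6.ne' (Real.exp_pos _).ne', Real.log_exp] at f5
  rw [sum_union hd.symm]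
  linarith

/-- the mixture of the pinned measure satisfies the hypotheses of (F1*) -/
theorem pin_law (T : ThickG b γ A0 w w2 ν sc ns ℓ Λ L A α lamf a del m κ) {S : Finset ι}
    (hS : len ℓ S ≤ Λ) {u : ∀ i, V i} (hc : 0 < gdw w ν S u) :
    Law b γ A0 w (A2.mm (m * gdw w ν S u) (κS κ α A a S) w (nuS w ν S u)) sc ns ℓ Λ L
      (fun i => α i + A i + a + Real.log 2) (fun s => Real.exp (-(γ * s))) (aM sc a)
      (fun _ i => α i) := by
  have H := T.ref
  have Hn := ref_nuS H hc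
  have hm : 0 < m * gdw w ν S u := mul_pos T.m0 hc
  have hk := cap_pin T hS hc
  have hκ : 0 < κ := T.m0.trans_le T.mκ
  have Hm := A2.ref_mm Hn hm hk
  have hac2 : ∀ i v, w2 i v = 0 → m1 (nuS w ν S u) i v = 0 := by
    intro i v h
    rcases T.w2A i v with h1 | h1
    · exact Hn.ac i v h1
    · exact absurd h h1.1.ne'
  have hl2 : 0 < Real.log 2 := Real.log_pos (by norm_num)
  have hgH0 : ∀ i, 0 ≤ α i + A i + a + Real.log 2 := fun i => by
    have := T.A0' i; have := T.α0 i; have := T.a0; linarith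
  have hDi : ∀ (P : Finset ι) (x : ∀ i, V i) (j : ι), 0 ≤ Di w (gdw w (nuS w ν S u)) j P x :=
    fun P x j => Di_nonneg Hn.famT _ _ _
  have hpos_sdiff : ∀ {P : Finset ι} {x : ∀ i, V i}, 0 < ∏ i ∈ P, w i (x i) →
      0 < ∏ i ∈ P \ S, w i (x i) := by
    intro P x hx
    refine lt_of_le_of_ne (prod_nonneg fun i _ => H.w_nonneg i _) fun h => ?_
    obtain ⟨i, hi, h0⟩ := prod_eq_zero_iff.mp h.symm
    have : ∏ i ∈ P, w i (x i) = 0 := prod_eq_zero (mem_sdiff.mp hi).1 h0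
    exact hx.ne' this
  refine
    { ref := Hm
      scn := T.scn
      card := T.card
      L1 := T.L1
      LA := T.LA
      atoms := T.atoms
      gH0 := hgH0
      gH1 := T.gH1
      hlog := ?_
      lam1 := fun s => le_rfl
      a0 := fun s => by
        unfold aM
        split_ifs
        · have := T.a0; linarith
        · exact le_rfl
      a1 := fun s => by
        unfold aM
        split_ifs with h
        · obtain ⟨i, hi⟩ := h
          have h1 := T.a1 i
          unfold At at hi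
          rw [mem_filter] at hi
          rw [hi.2] at h1
          exact h1
        · exact (Real.exp_pos _).le
      c0 := fun s i => T.α0 i
      c1 := fun s i => by
        have := T.gH1 i; have := T.A0' i; have := T.a0; linarith
      pe := ?_
      ℓ0 := T.ℓ0
      Λ0 := T.Λ0
      ℓΛ := T.ℓΛ }
  · intro M hM x hx
    have hmm := (gdw_pos_iff Hm.prob Hm.w_nonneg Hm.ac M x).mp hx
    have hw : 0 < ∏ i ∈ M, w i (x i) := prod_w_pos_of_marg Hm.prob Hm.w_nonneg Hm.ac hmm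
    have e1 : S ∪ M = S ∪ (M \ S) := by rw [union_sdiff_self_eq_union]
    have e2 := gdw_mix_dead H hc hm hk e1 hw (hpos_sdiff hw)
    rw [e2] at hx ⊢
    have hlen : len ℓ (M \ S) ≤ 2 * Λ := by
      have h1 := len_mono T.ℓ0 (sdiff_subset (s := M) (t := S))
      have := T.Λ0
      linarith
    have h1 := A2.log_mm (w2 := w2) (A := A) (del := del) (lamf := lamf) (α := α) (a := a) Hn hm
      hk T.lam0 T.α0 T.A0' T.a0 T.del0 T.del1 T.w2A (univ \ S) (M \ S)
      (fun y hy hdy => pinQ T hS hc hlen sdiff_disjoint y hy hdy) x hx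
    refine h1.trans ?_
    exact sum_le_sum_of_subset_of_nonneg sdiff_subset fun i _ _ => hgH0 i
  · intro s P hP hlenP
    by_cases hne : (At sc s).Nonempty
    · have ha : aM sc a s = a + 2 := by unfold aM; rw [if_pos hne]
      rw [ha]
      have hlen : len ℓ (P \ S) ≤ 2 * Λ := by
        have h1 := len_mono T.ℓ0 (sdiff_subset (s := P) (t := S))
        linarith
      -- pointwise comparison of the exponents
      have hpt : ∀ x, A2.mm (m * gdw w ν S u) (κS κ α A a S) w (nuS w ν S u) x *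
          Real.exp (Real.exp (-(γ * s)) * ∑ j ∈ At sc s \ P, Di w (gdw w
            (A2.mm (m * gdw w ν S u) (κS κ α A a S) w (nuS w ν S u))) j P x)
          ≤ A2.mm (m * gdw w ν S u) (κS κ α A a S) w (nuS w ν S u) x *
          Real.exp (∑ j ∈ (At sc s \ S) \ (P \ S), lamf j * Di w (gdw w
            (A2.mm (m * gdw w ν S u) (κS κ α A a S) w (nuS w ν S u))) j (P \ S) x) := by
        intro x
        rcases (Hm.prob.nonneg x).eq_or_lt with h0 | h0
        · rw [← h0]; simp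
        refine mul_le_mul_of_nonneg_left (Real.exp_le_exp.mpr ?_) h0.le
        have hgx := (gdw_pos_iff Hm.prob Hm.w_nonneg Hm.ac P x).mp (Hm.g_pos h0 P)
        have hw : 0 < ∏ i ∈ P, w i (x i) := prod_w_pos_of_marg Hm.prob Hm.w_nonneg Hm.ac hgx
        rw [mul_sum]
        have e1 : ∑ j ∈ At sc s \ P, Real.exp (-(γ * s)) * Di w (gdw w
            (A2.mm (m * gdw w ν S u) (κS κ α A a S) w (nuS w ν S u))) j P x
            = ∑ j ∈ (At sc s \ S) \ (P \ S), Real.exp (-(γ * s)) * Di w (gdw w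
            (A2.mm (m * gdw w ν S u) (κS κ α A a S) w (nuS w ν S u))) j P x := by
          symm
          refine sum_subset ?_ fun j hj hj' => ?_
          · intro j hj
            rw [mem_sdiff, mem_sdiff, mem_sdiff] at hj
            rw [mem_sdiff]
            exact ⟨hj.1.1, fun h => hj.2 ⟨h, hj.1.2⟩⟩
          · rw [mem_sdiff] at hj
            have hjS : j ∈ S := by
              by_contra h
              refine hj' ?_
              rw [mem_sdiff, mem_sdiff, mem_sdiff]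
              exact ⟨⟨hj.1, h⟩, fun h' => hj.2 h'.1⟩
            rw [Di_mix_S H hc hm hk hj.2 hjS hw, mul_zero]
        rw [e1]
        refine sum_le_sum fun j hj => ?_
        rw [mem_sdiff, mem_sdiff, mem_sdiff] at hj
        have hjs : sc j = s := by
          have := hj.1.1
          unfold At at this
          exact (mem_filter.mp this).2
        have hjP : j ∉ P := fun h => hj.2 ⟨h, hj.1.2⟩
        rw [Di_mix_dead H hc hm hk hjP hw]
        have h2 := T.lam1 j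
        rw [hjs] at h2
        exact mul_le_mul_of_nonneg_right h2 (Di_nonneg Hm.famT _ _ _)
      refine (sum_le_sum fun x _ => hpt x).trans ?_
      have h1 := A2.pe_mm (w2 := w2) (lamf := lamf) (α := α) (a := a) (del := del)
        (B0 := ∑ j, lamf j * (1 + L j)) Hn hm hk T.w20 T.w21 hac2 T.lam0 T.α0 T.a0 T.del0 T.del1
        T.delB (At sc s \ S) (P \ S)
        (fun x hx => by
          have h1 : ∀ j ∈ (At sc s \ S) \ (P \ S), lamf j * Di w (gdw w (nuS w ν S u)) j (P \ S) x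
              ≤ lamf j * (1 + L j) := fun j hj =>
            mul_le_mul_of_nonneg_left (Di_le_one_add Hn T.L1 T.atoms (mem_sdiff.mp hj).2 hx)
              (T.lam0 j)
          refine (sum_le_sum h1).trans ?_
          exact sum_le_sum_of_subset_of_nonneg (subset_univ _) fun j _ _ =>
            mul_nonneg (T.lam0 j) (by have := T.L1 j; linarith))
        (fun x hx hdx => by
          refine le_trans ?_ (pinQ T hS hc hlen sdiff_disjoint x hx hdx)
          refine sum_le_sum_of_subset_of_nonneg ?_ fun j _ _ =>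
            mul_nonneg (T.lam0 j) (hDi _ _ _)
          exact sdiff_subset_sdiff (sdiff_subset_sdiff (subset_univ _) subset_rfl) subset_rfl)
      refine h1.trans (Real.exp_le_exp.mpr ?_)
      have h3 : ∑ i ∈ P \ S, α i ≤ ∑ i ∈ P, α i :=
        sum_le_sum_of_subset_of_nonneg sdiff_subset fun i _ _ => T.α0 i
      linarith
    · have h1 : At sc s = ∅ := not_nonempty_iff_eq_empty.mp hne
      have h2 : aM sc a s = 0 := by unfold aM; rw [if_neg hne]
      rw [h1, h2]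
      simp only [empty_sdiff, sum_empty, mul_zero, Real.exp_zero, mul_one, add_zero]
      rw [Hm.prob.sum_eq]
      exact Real.one_le_exp (sum_nonneg fun i _ => T.α0 i)

end

/-- **absolute second moments at all pins**. -/
theorem abs2_F {b γ ρ A0 η : ℝ} (hb : 0 < b) (hγ : 0 < γ) (hρ : 8 * γ + ρ ≤ 3 * b / 8)
    (hA : 1 ≤ A0) (hη : 0 < η) (hη1 : η ≤ 1) : ∃ s1 : ℕ, ∀ {ι : Type*} [Fintype ι]
    [DecidableEq ι] {V : ι → Type*} [∀ i, Fintype (V i)] [∀ i, DecidableEq (V i)]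
    {w w2 : ∀ i, V i → ℝ} {ν : (∀ i, V i) → ℝ} {sc : ι → ℕ} {ns : ℕ} {ℓ : ι → ℝ} {Λ : ℝ}
    {L A α lamf : ι → ℝ} {a del m κ : ℝ},
    ThickG b γ A0 w w2 ν sc ns ℓ Λ L A α lamf a del m κ → (∀ i, s1 ≤ sc i) →
    ∀ {σ : ι → ℝ} {r : ℕ → ℝ}, (∀ i, 0 ≤ σ i) → (∀ s, 0 ≤ r s) →
    (∀ s : ℕ, r s ≤ Real.exp (ρ * s)) →
    (∀ i, σ i ≤ Real.exp ((-(b / 2) + γ) * sc i) * r (sc i)) →
    8 * ∑ i, σ i * Real.exp (4 * γ * sc i + 1) * ℓ i ≤ Λ →
    (∀ i, σ i ≤ 1 / 2) ∧ ∀ S : Finset ι, len ℓ S ≤ Λ → ∀ u : ∀ i, V i,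
    ∀ D : Finset (Finset ι), (∀ T ∈ D, 2 * len ℓ T ≤ Λ) →
    ∑ T ∈ D, bt σ T * ∑ x, pw w x * (m * gdw w ν (S ∪ T) (S.piecewise u x)) ^ 2
      ≤ 8 * (κ * Real.exp (∑ i ∈ S, (α i + A i) + a)) ^ 2 *
        Real.exp (η + ∑ j ∈ range ns, Real.exp (19 * γ * j) * r j ^ 2) := by
  obtain ⟨s1, hs1⟩ := F1_mom hb hγ hρ hA hη hη1
  refine ⟨s1, ?_⟩
  intro ι _ _ V _ _ w w2 ν sc ns ℓ Λ L A α lamf a del m κ T hsc σ r σ0 r0 r1 σ1 hsum
  have H := T.ref
  have hσ : ∀ i, σ i ≤ 1 / 2 := by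
    -- the empty pins
    have hc : 0 < gdw w ν ∅ (fun i => Classical.choice (by
      by_contra h
      have : IsEmpty (V i) := not_nonempty_iff.mp h
      have h1 := H.w_sum i
      simp at h1)) := by
      rw [H.famT.g_empty]; exact one_pos
    have hl : len ℓ (∅ : Finset ι) ≤ Λ := by
      have := T.Λ0
      simp [len, this.le]
    exact (hs1 (pin_law T hl hc) hsc σ0 r0 r1 σ1 hsum).1
  refine ⟨hσ, fun S hS u D hD => ?_⟩
  have hE : 0 ≤ 8 * (κ * Real.exp (∑ i ∈ S, (α i + A i) + a)) ^ 2 *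
        Real.exp (η + ∑ j ∈ range ns, Real.exp (19 * γ * j) * r j ^ 2) := by positivity
  rcases (H.famT.g_nonneg S u).eq_or_lt with hc | hc
  · have h0 : ∀ (T' : Finset ι) (x : ∀ i, V i), gdw w ν (S ∪ T') (S.piecewise u x) = 0 := by
      intro T' x
      by_contra h
      have h1 : 0 < gdw w ν (S ∪ T') (S.piecewise u x) :=
        lt_of_le_of_ne (H.famT.g_nonneg _ _) (Ne.symm h)
      have h2 := H.famT.g_pos S (S ∪ T') subset_union_left trivial _ h1
      rw [loc_gdw S (S.piecewise u x) u fun k hk => piecewise_eq_of_mem _ _ _ hk, ← hc] at h2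
      exact lt_irrefl _ h2
    have : ∑ T' ∈ D, bt σ T' * ∑ x, pw w x * (m * gdw w ν (S ∪ T') (S.piecewise u x)) ^ 2 = 0 :=
      sum_eq_zero fun T' _ => by simp [h0]
    rw [this]
    exact hE
  have hm : 0 < m * gdw w ν S u := mul_pos T.m0 hc
  have hk := cap_pin T hS hc
  have Hn := ref_nuS H hc
  have h1 := (hs1 (pin_law T hS hc) hsc σ0 r0 r1 σ1 hsum).2 D hD
  have h2 : ∀ T' : Finset ι, ∑ x, pw w x * (m * gdw w ν (S ∪ T') (S.piecewise u x)) ^ 2
      ≤ 4 * κS κ α A a S ^ 2 * Wq w (gdw w (A2.mm (m * gdw w ν S u) (κS κ α A a S) w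
        (nuS w ν S u))) T' := by
    intro T'
    refine le_trans (le_of_eq ?_) (A2.wq_mm Hn hm hk T')
    unfold Wq
    rw [mul_sum]
    refine sum_congr rfl fun x _ => ?_
    rcases (pw_nonneg H.famT x).eq_or_lt with hx | hx
    · rw [← hx]; simp
    have hPx : 0 < ∏ i ∈ T', w i (x i) := by
      refine prod_pos fun i _ => lt_of_le_of_ne (H.w_nonneg i _) fun h0 => ?_
      have : pw w x = 0 := prod_eq_zero (mem_univ i) h0.symm
      exact hx.ne' this
    rw [gdw_nuS H hc hPx]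
    field_simp
  have h3 : ∀ T' ∈ D, bt σ T' * ∑ x, pw w x * (m * gdw w ν (S ∪ T') (S.piecewise u x)) ^ 2
      ≤ 4 * κS κ α A a S ^ 2 * (bt σ T' * Wq w (gdw w (A2.mm (m * gdw w ν S u) (κS κ α A a S) w
        (nuS w ν S u))) T') := by
    intro T' _
    have := mul_le_mul_of_nonneg_left (h2 T')
      (bt_nonneg σ0 (fun i => (hσ i).trans (by norm_num)) T')
    linarith
  refine (sum_le_sum h3).trans ?_
  rw [← mul_sum]
  refine (mul_le_mul_of_nonneg_left h1 (by positivity)).trans (le_of_eq ?_)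
  unfold κS
  ring

end Vale.Agent.P042.H779.Ab.Ll
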