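import Mathlib

/-! Numerics of the scale-local constants: real inequalities over the scales `s ≥ s0`. -/

namespace Vale.Agent.P042.H461.LNum

open Finset

/-- tails of polynomial times geometric series are small -/
lemma tail_small (k : ℕ) {C δ η : ℝ} (hδ : 0 < δ) (hη : 0 < η) :
    ∃ s0 : ℕ, ∀ a, s0 ≤ a → ∀ n : ℕ, ∑ s ∈ Ico a n, C * ((s : ℝ) ^ k * Real.exp (-(δ * s))) ≤ η := by
  have hr : ‖Real.exp (-δ)‖ < 1 := by
    rw [Real.norm_eq_abs, abs_of_pos (Real.exp_pos _)]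
    exact Real.exp_lt_one_iff.mpr (by linarith)
  have h1 := summable_pow_mul_geometric_of_norm_lt_one k hr
  have h2 : Summable fun s : ℕ => C * ((s : ℝ) ^ k * Real.exp (-(δ * s))) := by
    refine (h1.mul_left C).congr fun s => ?_
    rw [← Real.exp_nat_mul]
    congr 3
    ring
  rw [summable_iff_vanishing_norm] at h2
  obtain ⟨F, hF⟩ := h2 η hη
  refine ⟨F.sup id + 1, fun a ha n => ?_⟩
  have h3 := hF (Ico a n) (by
    rw [disjoint_left]
    intro x hx hxF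
    have h4 : x ≤ F.sup id := le_sup (f := id) hxF
    have h5 := (mem_Ico.mp hx).1
    omega)
  exact (le_abs_self _).trans (by rw [← Real.norm_eq_abs]; exact h3.le)

/-- polynomials are eventually below exponentials -/
lemma poly_le_exp (k : ℕ) {C δ : ℝ} (hC : 0 ≤ C) (hδ : 0 < δ) :
    ∃ s0 : ℕ, ∀ s : ℕ, s0 ≤ s → C * (s : ℝ) ^ k ≤ Real.exp (δ * s) := by
  obtain ⟨s0, h⟩ := tail_small k (C := C) hδ one_pos
  refine ⟨s0, fun s hs => ?_⟩
  have h1 := h s hs (s + 1)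
  rw [Nat.Ico_succ_singleton, sum_singleton, Real.exp_neg] at h1
  have hp := Real.exp_pos (δ * s)
  have h2 : C * ((s : ℝ) ^ k * (Real.exp (δ * s))⁻¹) = C * (s : ℝ) ^ k / Real.exp (δ * s) := by
    field_simp
  rw [h2, div_le_one hp] at h1
  exact h1

/-- The numerical facts used from the first scale on. -/
structure Good (b γ ρ A0 : ℝ) (m : ℕ) (η : ℝ) (s0 : ℕ) : Prop where
  one : 1 ≤ s0
  f1 : ∀ s : ℕ, s0 ≤ s → 16 * (m : ℝ) ≤ Real.exp (γ * s)
  f2 : ∀ s : ℕ, s0 ≤ s → 8 * (γ * s) ≤ Real.exp (b * s)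
  f3 : ∀ s : ℕ, s0 ≤ s → 2 * Real.exp 1 ≤ Real.exp (b / 8 * s)
  f4 : ∀ n : ℕ, ∑ s ∈ Ico s0 n, 17600 * (m : ℝ) ^ 2 * A0 * s * Real.exp (-(γ * s)) *
    (2 + 2 * A0 / γ) ≤ η / 8
  f5 : ∀ n : ℕ, ∑ s ∈ Ico s0 n, 520 * Real.exp 1 * (1 + b * s) * Real.exp (-(b / 8 * s)) ≤ 1
  f6 : ∀ n : ℕ, ∑ s ∈ Ico s0 n, 4 * (γ * s) * (Real.exp 1 * Real.exp (-(b / 8 * s))) ≤ η / 8
  f7 : ∀ n : ℕ, ∑ s ∈ Ico s0 n, 16 * (15 : ℝ) ^ (2 * m) *
    (Real.exp 1 * Real.exp (-(b * s))) ≤ η / 8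
  p1 : ∀ s : ℕ, s0 ≤ s → 65 * Real.exp 1 * (1 + b * s) ≤ Real.exp (γ * s)
  p2 : ∀ s : ℕ, s0 ≤ s → 17600 * (m : ℝ) ^ 2 * A0 * s * Real.exp 1 ≤ Real.exp (γ * s)
  p3 : ∀ s : ℕ, s0 ≤ s → 17600 * (m : ℝ) ^ 2 * A0 * s * (65 * (1 + b * s)) * Real.exp 1
    ≤ Real.exp (γ * s)
  p4 : ∀ s : ℕ, s0 ≤ s → 3 / (1 - Real.exp (-(b / 2))) + 1 ≤ Real.exp (γ * s)

theorem exists_good {b γ ρ A0 : ℝ} (m : ℕ) {η : ℝ} (hb : 0 < b) (hγ : 0 < γ) (hA : 1 ≤ A0)
    (hη : 0 < η) : ∃ s1 : ℕ, ∀ s0, s1 ≤ s0 → Good b γ ρ A0 m η s0 := by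
  have hm : (0 : ℝ) ≤ m := by positivity
  have hb4 : 0 < b / 8 := by positivity
  have hE : 0 < 1 - Real.exp (-(b / 2)) := by
    have : Real.exp (-(b / 2)) < 1 := Real.exp_lt_one_iff.mpr (by linarith)
    linarith
  obtain ⟨c1, h1⟩ := poly_le_exp 0 (C := 16 * m) (by positivity) hγ
  obtain ⟨c2, h2⟩ := poly_le_exp 1 (C := 8 * γ) (by positivity) hb
  obtain ⟨c3, h3⟩ := poly_le_exp 0 (C := 2 * Real.exp 1) (by positivity) hb4
  obtain ⟨c4, h4⟩ := tail_small 1 (C := 17600 * (m : ℝ) ^ 2 * A0 * (2 + 2 * A0 / γ)) hγ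
    (show 0 < η / 8 by positivity)
  obtain ⟨c5, h5⟩ := tail_small 0 (C := 520 * Real.exp 1) hb4 (show (0 : ℝ) < 1 / 2 by positivity)
  obtain ⟨c5', h5'⟩ := tail_small 1 (C := 520 * Real.exp 1 * b) hb4
    (show (0 : ℝ) < 1 / 2 by positivity)
  obtain ⟨c6, h6⟩ := tail_small 1 (C := 4 * γ * Real.exp 1) hb4 (show 0 < η / 8 by positivity)
  obtain ⟨c7, h7⟩ := tail_small 0 (C := 16 * (15 : ℝ) ^ (2 * m) * Real.exp 1) hb
    (show 0 < η / 8 by positivity)
  obtain ⟨d1, g1⟩ := poly_le_exp 1 (C := 65 * Real.exp 1 * (1 + b)) (by positivity) hγ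
  obtain ⟨d2, g2⟩ := poly_le_exp 1 (C := 17600 * (m : ℝ) ^ 2 * A0 * Real.exp 1) (by positivity) hγ
  obtain ⟨d3, g3⟩ := poly_le_exp 2 (C := 17600 * (m : ℝ) ^ 2 * A0 * (65 * (1 + b)) * Real.exp 1)
    (by positivity) hγ
  obtain ⟨d4, g4⟩ := poly_le_exp 0 (C := 3 / (1 - Real.exp (-(b / 2))) + 1)
    (by positivity) hγ
  refine ⟨c1 + c2 + c3 + c4 + c5 + c5' + c6 + c7 + d1 + d2 + d3 + d4 + 1, fun s0 hs => ?_⟩
  constructor
  · omega
  · intro s hs'
    have := h1 s (by omega)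
    simpa using this
  · intro s hs'
    have := h2 s (by omega)
    rw [pow_one] at this
    linarith
  · intro s hs'
    have := h3 s (by omega)
    simpa using this
  · intro n
    refine le_trans (le_of_eq ?_) (h4 s0 (by omega) n)
    exact sum_congr rfl fun s _ => by ring
  · intro n
    have e1 := h5 s0 (by omega) n
    have e2 := h5' s0 (by omega) n
    have e3 : ∑ s ∈ Ico s0 n, 520 * Real.exp 1 * (1 + b * s) * Real.exp (-(b / 8 * s))
        = ∑ s ∈ Ico s0 n, 520 * Real.exp 1 * ((s : ℝ) ^ 0 * Real.exp (-(b / 8 * s)))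
          + ∑ s ∈ Ico s0 n, 520 * Real.exp 1 * b * ((s : ℝ) ^ 1 * Real.exp (-(b / 8 * s))) := by
      rw [← sum_add_distrib]
      exact sum_congr rfl fun s _ => by ring
    rw [e3]
    linarith
  · intro n
    refine le_trans (le_of_eq ?_) (h6 s0 (by omega) n)
    exact sum_congr rfl fun s _ => by ring
  · intro n
    refine le_trans (le_of_eq ?_) (h7 s0 (by omega) n)
    exact sum_congr rfl fun s _ => by ring
  · intro s hs'
    have h := g1 s (by omega)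
    rw [pow_one] at h
    refine le_trans ?_ h
    have hs1 : (1 : ℝ) ≤ s := by
      have : 1 ≤ s := by omega
      exact_mod_cast this
    have : 1 + b * s ≤ (1 + b) * s := by nlinarith
    calc 65 * Real.exp 1 * (1 + b * s) ≤ 65 * Real.exp 1 * ((1 + b) * s) :=
          mul_le_mul_of_nonneg_left this (by positivity)
      _ = _ := by ring
  · intro s hs'
    have h := g2 s (by omega)
    rw [pow_one] at h
    refine le_trans (le_of_eq ?_) h
    ring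
  · intro s hs'
    have h := g3 s (by omega)
    refine le_trans ?_ h
    have hs1 : (1 : ℝ) ≤ s := by
      have : 1 ≤ s := by omega
      exact_mod_cast this
    have : 1 + b * s ≤ (1 + b) * s := by nlinarith
    have hA0 : 0 ≤ A0 := by linarith
    calc 17600 * (m : ℝ) ^ 2 * A0 * s * (65 * (1 + b * s)) * Real.exp 1
        ≤ 17600 * (m : ℝ) ^ 2 * A0 * s * (65 * ((1 + b) * s)) * Real.exp 1 := by
          refine mul_le_mul_of_nonneg_right (mul_le_mul_of_nonneg_left ?_ (by positivity))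
            (Real.exp_nonneg _)
          linarith
      _ = _ := by ring
  · intro s hs'
    have := g4 s (by omega)
    simpa using this

end Vale.Agent.P042.H461.LNum
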