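import Vale.Agent.P042.H779.Abs2

/-! The law of a family of densities; the law pinned at a set of coordinates, kept on the same
product space (the pinned coordinates become independent with the reference law). -/

namespace Vale.Agent.P042.H779.Ab.Ll

open Finset Vale.Agent.P042.H482
open Vale.Agent.P042.H779 (marg m1 IsProb marg_nonneg marg_congr phi phi_nonneg)

set_option linter.unusedSectionVars false

section
variable {ι : Type*} [Fintype ι] [DecidableEq ι] {V : ι → Type*} [∀ i, Fintype (V i)]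
  [∀ i, DecidableEq (V i)] {w : ∀ i, V i → ℝ} {g : Finset ι → (∀ i, V i) → ℝ}
  {ν : (∀ i, V i) → ℝ}

/-- the measure of a family of densities -/
noncomputable def mg (w : ∀ i, V i → ℝ) (g : Finset ι → (∀ i, V i) → ℝ) (x : ∀ i, V i) : ℝ :=
  pw w x * g univ x

lemma marg_mg (F : Fam w g (fun _ => True)) (hloc : ∀ P, Loc P (g P)) (P : Finset ι)
    (x : ∀ i, V i) : marg (mg w g) P x = (∏ i ∈ P, w i (x i)) * g P x := by
  have h1 := pw_g_subset F (A := P) (R := univ) (subset_univ P) trivial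
    (fun y => if (∀ i ∈ P, y i = x i) then (1 : ℝ) else 0) (fun i _ hi y a => by
      beta_reduce
      have : (∀ k ∈ P, Function.update y i a k = x k) ↔ ∀ k ∈ P, y k = x k := by
        constructor
        · intro h k hk
          have h2 := h k hk
          have : k ≠ i := fun h' => hi (h' ▸ hk)
          rwa [Function.update_of_ne this] at h2
        · intro h k hk
          have : k ≠ i := fun h' => hi (h' ▸ hk)
          rw [Function.update_of_ne this]
          exact h k hk
      by_cases h : ∀ k ∈ P, y k = x k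
      · rw [if_pos h, if_pos (this.mpr h)]
      · rw [if_neg h, if_neg (fun h' => h (this.mp h'))])
  have e1 : marg (mg w g) P x = ∑ y, pw w y *
      ((if (∀ i ∈ P, y i = x i) then (1 : ℝ) else 0) * g univ y) := by
    unfold marg mg
    refine sum_congr rfl fun y _ => ?_
    split_ifs <;> ring
  have e2 : ∑ y, pw w y * ((if (∀ i ∈ P, y i = x i) then (1 : ℝ) else 0) * g P y)
      = marg (pw w) P x * g P x := by
    unfold marg
    rw [sum_mul]
    refine sum_congr rfl fun y _ => ?_
    split_ifs with h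
    · rw [hloc P y x h]; ring
    · ring
  rw [e1, h1, e2, marg_pw F.w_sum]

lemma gdw_mg (F : Fam w g (fun _ => True)) (hloc : ∀ P, Loc P (g P)) {P : Finset ι}
    {x : ∀ i, V i} (hx : 0 < ∏ i ∈ P, w i (x i)) : gdw w (mg w g) P x = g P x := by
  unfold gdw
  rw [marg_mg F hloc, mul_div_cancel_left₀ _ hx.ne']

lemma ref_mg (F : Fam w g (fun _ => True)) : Ref w (mg w g) where
  prob :=
    { nonneg := fun x => mul_nonneg (pw_nonneg F x) (F.g_nonneg _ _)
      sum_eq := by
        unfold mg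
        exact pw_g_sum F trivial }
  w_nonneg := F.w_nonneg
  w_sum := F.w_sum
  ac := fun i a h => by
    unfold m1 mg
    refine sum_eq_zero fun y _ => ?_
    split_ifs with hy
    · have : pw w y = 0 := by
        unfold pw
        exact prod_eq_zero (mem_univ i) (by rw [hy, h])
      rw [this, zero_mul]
    · rfl

omit [Fintype ι] [∀ i, Fintype (V i)] [∀ i, DecidableEq (V i)] in
lemma prod_upd {P : Finset ι} {j : ι} (hj : j ∉ P) (x : ∀ i, V i) (a : V j) :
    ∏ i ∈ P, w i (Function.update x j a i) = ∏ i ∈ P, w i (x i) :=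
  prod_congr rfl fun i hi => by
    have : i ≠ j := fun h => hj (h ▸ hi)
    rw [Function.update_of_ne this]

omit [Fintype ι] [∀ i, Fintype (V i)] [∀ i, DecidableEq (V i)] in
lemma prod_upd_insert {P : Finset ι} {j : ι} (hj : j ∉ P) (x : ∀ i, V i) (a : V j) :
    ∏ i ∈ insert j P, w i (Function.update x j a i) = w j a * ∏ i ∈ P, w i (x i) := by
  rw [prod_insert hj, Function.update_self, prod_upd hj]

omit [∀ i, DecidableEq (V i)] in
/-- divergences depend on the ratios at the atoms of positive weight only -/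
lemma Di_congr {g' : Finset ι → (∀ i, V i) → ℝ} (hw : ∀ i a, 0 ≤ w i a) {j : ι}
    {P P' : Finset ι} {x x' : ∀ i, V i} (h : ∀ a, 0 < w j a →
      rt g j (Function.update x j a) P = rt g' j (Function.update x' j a) P') :
    Di w g j P x = Di w g' j P' x' := by
  unfold Di
  refine sum_congr rfl fun a _ => ?_
  rcases (hw j a).eq_or_lt with h0 | h0
  · rw [← h0]; ring
  · rw [h a h0]

lemma Di_mg (F : Fam w g (fun _ => True)) (hloc : ∀ P, Loc P (g P)) {P : Finset ι} {j : ι}
    (hj : j ∉ P) {x : ∀ i, V i} (hx : 0 < ∏ i ∈ P, w i (x i)) :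
    Di w (gdw w (mg w g)) j P x = Di w g j P x := by
  refine Di_congr F.w_nonneg fun a ha => ?_
  unfold rt
  rw [gdw_mg F hloc (by rw [prod_upd_insert hj]; exact mul_pos ha hx),
    gdw_mg F hloc (by rw [prod_upd hj]; exact hx)]

/-- the densities pinned at `S` -/
noncomputable def gS (w : ∀ i, V i → ℝ) (ν : (∀ i, V i) → ℝ) (S : Finset ι) (u : ∀ i, V i)
    (P : Finset ι) (x : ∀ i, V i) : ℝ :=
  gdw w ν (S ∪ P) (S.piecewise u x) / gdw w ν S u

lemma gS_loc (S P : Finset ι) (u : ∀ i, V i) : Loc P (gS w ν S u P) := by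
  intro x y hxy
  unfold gS
  rw [loc_gdw (S ∪ P) (S.piecewise u x) (S.piecewise u y) fun k hk => ?_]
  by_cases hkS : k ∈ S
  · rw [piecewise_eq_of_mem _ _ _ hkS, piecewise_eq_of_mem _ _ _ hkS]
  · rw [piecewise_eq_of_notMem _ _ _ hkS, piecewise_eq_of_notMem _ _ _ hkS]
    rcases mem_union.mp hk with h | h
    · exact absurd h hkS
    · exact hxy k h

omit [Fintype ι] [∀ i, Fintype (V i)] [∀ i, DecidableEq (V i)] in
lemma piecewise_upd {S : Finset ι} {j : ι} (hj : j ∉ S) (u x : ∀ i, V i) (a : V j) :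
    S.piecewise u (Function.update x j a) = Function.update (S.piecewise u x) j a := by
  funext k
  by_cases hk : k = j
  · subst hk
    rw [piecewise_eq_of_notMem _ _ _ hj, Function.update_self, Function.update_self]
  · rw [Function.update_of_ne hk]
    by_cases hkS : k ∈ S
    · rw [piecewise_eq_of_mem _ _ _ hkS, piecewise_eq_of_mem _ _ _ hkS]
    · rw [piecewise_eq_of_notMem _ _ _ hkS, piecewise_eq_of_notMem _ _ _ hkS,
        Function.update_of_ne hk]

omit [Fintype ι] [∀ i, Fintype (V i)] [∀ i, DecidableEq (V i)] in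
lemma piecewise_upd_mem {S : Finset ι} {j : ι} (hj : j ∈ S) (u x : ∀ i, V i) (a : V j) :
    S.piecewise u (Function.update x j a) = S.piecewise u x := by
  funext k
  by_cases hkS : k ∈ S
  · rw [piecewise_eq_of_mem _ _ _ hkS, piecewise_eq_of_mem _ _ _ hkS]
  · have : k ≠ j := fun h => hkS (h ▸ hj)
    rw [piecewise_eq_of_notMem _ _ _ hkS, piecewise_eq_of_notMem _ _ _ hkS,
      Function.update_of_ne this]

theorem gS_fam (H : Ref w ν) {S : Finset ι} {u : ∀ i, V i} (hc : 0 < gdw w ν S u) :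
    Fam w (gS w ν S u) (fun _ => True) where
  w_nonneg := H.w_nonneg
  w_sum := H.w_sum
  g_nonneg := fun R x => div_nonneg (H.famT.g_nonneg _ _) hc.le
  g_empty := fun x => by
    unfold gS
    rw [union_empty, loc_gdw S (S.piecewise u x) u fun k hk => piecewise_eq_of_mem _ _ _ hk,
      div_self hc.ne']
  g_upd := fun R i hi x a => gS_loc S R u _ _ fun k hk => by
    have : k ≠ i := fun h => hi (h ▸ hk)
    rw [Function.update_of_ne this]
  g_avg := fun R i hi _ x => by
    unfold gS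
    by_cases hiS : i ∈ S
    · have e1 : S ∪ insert i R = S ∪ R := by
        rw [union_insert, insert_eq_of_mem (mem_union_left _ hiS)]
      simp only [e1, piecewise_upd_mem hiS]
      rw [← sum_mul, H.w_sum, one_mul]
    · have hi' : i ∉ S ∪ R := by
        rw [mem_union, not_or]; exact ⟨hiS, hi⟩
      have h1 := H.famT.g_avg (S ∪ R) i hi' trivial (S.piecewise u x)
      simp only [union_insert, piecewise_upd hiS]
      rw [← h1, sum_div]
      exact sum_congr rfl fun a _ => by rw [mul_div_assoc]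
  g_pos := fun R T hRT _ x hx => by
    unfold gS at hx ⊢
    have h1 : 0 < gdw w ν (S ∪ T) (S.piecewise u x) := by
      by_contra h
      have h2 := H.famT.g_nonneg (S ∪ T) (S.piecewise u x)
      have h3 : gdw w ν (S ∪ T) (S.piecewise u x) = 0 := le_antisymm (not_lt.mp h) h2
      rw [h3, zero_div] at hx
      exact lt_irrefl _ hx
    exact div_pos (H.famT.g_pos (S ∪ R) (S ∪ T) (union_subset_union_right hRT) trivial _ h1) hc
  ok_down := fun _ _ _ _ => trivial

/-- the pinned law -/
noncomputable def nuS (w : ∀ i, V i → ℝ) (ν : (∀ i, V i) → ℝ) (S : Finset ι) (u : ∀ i, V i) :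
    (∀ i, V i) → ℝ := mg w (gS w ν S u)

theorem ref_nuS (H : Ref w ν) {S : Finset ι} {u : ∀ i, V i} (hc : 0 < gdw w ν S u) :
    Ref w (nuS w ν S u) := ref_mg (gS_fam H hc)

lemma gdw_nuS (H : Ref w ν) {S : Finset ι} {u : ∀ i, V i} (hc : 0 < gdw w ν S u)
    {P : Finset ι} {x : ∀ i, V i} (hx : 0 < ∏ i ∈ P, w i (x i)) :
    gdw w (nuS w ν S u) P x = gdw w ν (S ∪ P) (S.piecewise u x) / gdw w ν S u :=
  gdw_mg (gS_fam H hc) (fun P => gS_loc S P u) hx

lemma Di_nuS (H : Ref w ν) {S : Finset ι} {u : ∀ i, V i} (hc : 0 < gdw w ν S u)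
    {P : Finset ι} {j : ι} (hj : j ∉ P) (hjS : j ∉ S) {x : ∀ i, V i}
    (hx : 0 < ∏ i ∈ P, w i (x i)) :
    Di w (gdw w (nuS w ν S u)) j P x = Di w (gdw w ν) j (S ∪ P) (S.piecewise u x) := by
  rw [nuS, Di_mg (gS_fam H hc) (fun P => gS_loc S P u) hj hx]
  refine Di_congr H.w_nonneg fun a _ => ?_
  unfold rt gS
  rw [piecewise_upd hjS, union_insert, div_div_div_cancel_right₀ hc.ne']

variable {m κ : ℝ}

/-- the densities of the mixture of the pinned law do not see the pinned coordinates -/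
lemma gdw_mix_dead (H : Ref w ν) {S : Finset ι} {u : ∀ i, V i} (hc : 0 < gdw w ν S u)
    (hm : 0 < m) (hk : m ≤ κ) {P P' : Finset ι} (hPP : S ∪ P = S ∪ P') {x : ∀ i, V i}
    (hx : 0 < ∏ i ∈ P, w i (x i)) (hx' : 0 < ∏ i ∈ P', w i (x i)) :
    gdw w (A2.mm m κ w (nuS w ν S u)) P x = gdw w (A2.mm m κ w (nuS w ν S u)) P' x := by
  rw [A2.gdw_mm (ref_nuS H hc) hm hk hx, A2.gdw_mm (ref_nuS H hc) hm hk hx',
    gdw_nuS H hc hx, gdw_nuS H hc hx', hPP]

lemma gdw_mix_pos (H : Ref w ν) (hm : 0 < m) (hk : m ≤ κ) {P : Finset ι} {x : ∀ i, V i}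
    (hx : 0 < ∏ i ∈ P, w i (x i)) : 0 < gdw w (A2.mm m κ w ν) P x := by
  rw [A2.gdw_mm H hm hk hx]
  have h1 : 0 ≤ m * gdw w ν P x := mul_nonneg hm.le (H.famT.g_nonneg _ _)
  have h2 : 0 < κ := by linarith
  positivity

lemma phi_one : phi 1 = 0 := by unfold phi; simp

/-- the pinned coordinates carry no divergence in the mixture -/
lemma Di_mix_S (H : Ref w ν) {S : Finset ι} {u : ∀ i, V i} (hc : 0 < gdw w ν S u)
    (hm : 0 < m) (hk : m ≤ κ) {P : Finset ι} {j : ι} (hj : j ∉ P) (hjS : j ∈ S) {x : ∀ i, V i}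
    (hx : 0 < ∏ i ∈ P, w i (x i)) :
    Di w (gdw w (A2.mm m κ w (nuS w ν S u))) j P x = 0 := by
  unfold Di
  refine sum_eq_zero fun a _ => ?_
  rcases (H.w_nonneg j a).eq_or_lt with h0 | h0
  · rw [← h0, zero_mul]
  have hP : 0 < ∏ i ∈ P, w i (Function.update x j a i) := by rw [prod_upd hj]; exact hx
  have hjP : 0 < ∏ i ∈ insert j P, w i (Function.update x j a i) := by
    rw [prod_upd_insert hj]; exact mul_pos h0 hx
  have e1 : S ∪ insert j P = S ∪ P := by
    rw [union_insert, insert_eq_of_mem (mem_union_left _ hjS)]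
  unfold rt
  rw [gdw_mix_dead H hc hm hk e1 hjP hP, div_self (gdw_mix_pos (ref_nuS H hc) hm hk hP).ne',
    phi_one, mul_zero]

/-- the divergences of the mixture do not see the pinned coordinates -/
lemma Di_mix_dead (H : Ref w ν) {S : Finset ι} {u : ∀ i, V i} (hc : 0 < gdw w ν S u)
    (hm : 0 < m) (hk : m ≤ κ) {P : Finset ι} {j : ι} (hj : j ∉ P) {x : ∀ i, V i}
    (hx : 0 < ∏ i ∈ P, w i (x i)) :
    Di w (gdw w (A2.mm m κ w (nuS w ν S u))) j P x
      = Di w (gdw w (A2.mm m κ w (nuS w ν S u))) j (P \ S) x := by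
  have hj' : j ∉ P \ S := fun h => hj (mem_sdiff.mp h).1
  have hx' : 0 < ∏ i ∈ P \ S, w i (x i) := by
    refine lt_of_le_of_ne (prod_nonneg fun i _ => H.w_nonneg i _) fun h => ?_
    obtain ⟨i, hi, h0⟩ := prod_eq_zero_iff.mp h.symm
    have : ∏ i ∈ P, w i (x i) = 0 := prod_eq_zero (mem_sdiff.mp hi).1 h0
    exact hx.ne' this
  have e1 : S ∪ P = S ∪ (P \ S) := by rw [union_sdiff_self_eq_union]
  have e2 : S ∪ insert j P = S ∪ insert j (P \ S) := by
    rw [union_insert, union_insert, e1]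
  refine Di_congr H.w_nonneg fun a ha => ?_
  unfold rt
  rw [gdw_mix_dead H hc hm hk e2 (by rw [prod_upd_insert hj]; exact mul_pos ha hx)
      (by rw [prod_upd_insert hj']; exact mul_pos ha hx'),
    gdw_mix_dead H hc hm hk e1 (by rw [prod_upd hj]; exact hx) (by rw [prod_upd hj']; exact hx')]

end

end Vale.Agent.P042.H779.Ab.Ll
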