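import Vale.Agent.P042.H461.LMart

/-! Revealing: consequences of the martingale and of the Donsker-Varadhan transfer.
(Generalisation of helper779's `MuRev` and parts of `MuScale`.) -/

namespace Vale.Agent.P042.H779.Ab.Ll

open Finset

set_option linter.unusedSectionVars false

section
variable {ι : Type*} [Fintype ι] [DecidableEq ι] {V : ι → Type*} [∀ i, Fintype (V i)]
  [∀ i, DecidableEq (V i)] {w : ∀ i, V i → ℝ} {μ : (∀ i, V i) → ℝ} {β β' : Finset ι → ℝ}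

lemma Zl_pos (H : Ref w μ) {t : ι → ℝ} (h0 : ∀ i, 0 ≤ t i) (h1 : ∀ i, t i < 1) (κ : ℝ)
    (W : Finset ι) (l : List ι) : ∀ (T R : Finset ι) (x : ∀ i, V i), 0 < μ x →
    0 < Zl w μ t κ W T l R x := by
  induction l with
  | nil => intro T R x _; simp [Zl]
  | cons j l ih =>
    intro T R x hx
    simp only [Zl]
    refine mul_pos ?_ (ih _ R x hx)
    unfold fac
    refine div_pos ?_ (cj_pos H h0 h1 κ j _ x)
    split_ifs
    · refine Real.rpow_pos_of_pos ?_ _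
      unfold rt
      exact div_pos (H.g_pos hx _) (H.g_pos hx _)
    · exact one_pos

lemma log_Zl_ge (H : Ref w μ) {t : ι → ℝ} (h0 : ∀ i, 0 ≤ t i) (h1 : ∀ i, t i < 1) {κ : ℝ}
    (hκ : 0 < κ) {L : ι → ℝ}
    (hL : ∀ i, 1 ≤ L i) (hat : ∀ i a, w i a = 0 ∨ Real.exp (-L i) ≤ w i a)
    (W : Finset ι) (l : List ι) : ∀ (T : Finset ι), l.Nodup → (∀ j ∈ l, j ∉ T) →
    (∀ j ∈ l, j ∉ W) → ∀ (R : Finset ι) (x : ∀ i, V i), 0 < μ x →
    κ * (LR w μ W T l R x - CDl w μ (fun j => Mk κ L j * t j) W T l R x)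
      ≤ Real.log (Zl w μ t κ W T l R x) := by
  induction l with
  | nil => intro T _ _ _ R x _; simp [LR, CDl, Zl]
  | cons j l ih =>
    intro T hnd hT hW R x hx
    have hjT : j ∉ T := hT j (by simp)
    have hjW : j ∉ W := hW j (by simp)
    have hjl : j ∉ l := (List.nodup_cons.mp hnd).1
    have hjP : j ∉ W ∪ R ∩ T := by simp [hjW, hjT]
    have ih' := ih (insert j T) (List.nodup_cons.mp hnd).2
      (by
        intro k hk hc
        rcases mem_insert.mp hc with rfl | hc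
        · exact hjl hk
        · exact hT k (List.mem_cons_of_mem _ hk) hc)
      (fun k hk => hW k (List.mem_cons_of_mem _ hk)) R x hx
    simp only [LR, CDl, Zl]
    have hg := H.g_pos hx (W ∪ R ∩ T)
    have hrt : 0 < rt (gdw w μ) j x (W ∪ R ∩ T) := div_pos (H.g_pos hx _) hg
    have hc := cj_pos H h0 h1 κ j (W ∪ R ∩ T) x
    have hZ := Zl_pos H h0 h1 κ W l (insert j T) R x hx
    have hcj := log_cj_le H h0 h1 hκ hL hat hjP hg
    unfold fac
    by_cases hj : j ∈ R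
    · rw [if_pos hj, if_pos hj]
      have hp : 0 < rt (gdw w μ) j x (W ∪ R ∩ T) ^ κ := Real.rpow_pos_of_pos hrt _
      rw [Real.log_mul (div_pos hp hc).ne' hZ.ne', Real.log_div hp.ne' hc.ne',
        Real.log_rpow hrt]
      nlinarith
    · rw [if_neg hj, if_neg hj]
      rw [Real.log_mul (div_pos one_pos hc).ne' hZ.ne', Real.log_div one_ne_zero hc.ne',
        Real.log_one]
      nlinarith

/-- densities are not small on average -/
lemma neg_log_le (H : Ref w μ) (hβ0 : ∀ R, 0 ≤ β R)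
    (hβ1 : ∑ R ∈ (univ : Finset ι).powerset, β R ≤ 1) {τ : ι → ℝ} (ht0 : ∀ i, 0 < τ i)
    (ht1 : ∀ i, τ i < 1)
    (hG : 0 < Gm w (gdw w μ) β τ) (P : Finset ι → Finset ι) :
    JJ w μ β τ (fun _ R x => - Real.log (gdw w μ (P R) x)) ≤ KK w μ β τ := by
  have hZ1 : ∑ R ∈ (univ : Finset ι).powerset, β R * ∑ x, μ x * (gdw w μ (P R) x)⁻¹ ≤ 1 := by
    refine le_trans (sum_le_sum fun R _ => ?_) hβ1
    refine mul_le_of_le_one_right (hβ0 R) ?_
    have hloc : Loc (P R) (fun x => (gdw w μ (P R) x)⁻¹) := by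
      intro x y hxy; beta_reduce; rw [loc_gdw (P R) x y hxy]
    rw [H.mu_sum hloc, ← pw_sum H.famT]
    refine sum_le_sum fun x _ => ?_
    refine mul_le_of_le_one_right (pw_nonneg H.famT x) ?_
    exact inv_mul_le_one
  have := dv_transfer H hβ0 ht0 ht1 hG (fun R x => (gdw w μ (P R) x)⁻¹)
    (fun R x _ hx => inv_pos.mpr (H.g_pos hx _)) hZ1
  simpa [Real.log_inv] using this

/-- exponential moments of weighted counts -/
lemma bt_exp_gen {q : ι → ℝ} (h0 : ∀ i, 0 ≤ q i) (h1 : ∀ i, q i ≤ 1) (c : ι → ℝ)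
    (hc : ∀ i, 0 ≤ c i) (S : Finset ι) :
    ∑ R ∈ (univ : Finset ι).powerset, bt q R * Real.exp (∑ i ∈ R ∩ S, c i)
      ≤ Real.exp (∑ i ∈ S, q i * (Real.exp (c i) - 1)) := by
  have e1 : ∀ R ∈ (univ : Finset ι).powerset, bt q R * Real.exp (∑ i ∈ R ∩ S, c i)
      = (∏ i ∈ R, (if i ∈ S then q i * Real.exp (c i) else q i)) *
        ∏ i ∈ univ \ R, (1 - q i) := by
    intro R _
    have : Real.exp (∑ i ∈ R ∩ S, c i) = ∏ i ∈ R, (if i ∈ S then Real.exp (c i) else 1) := by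
      rw [Real.exp_sum, prod_ite, prod_const_one, mul_one]
      refine prod_congr ?_ fun _ _ => rfl
      ext k; simp
    rw [this]
    unfold bt
    have e2 : ∏ i ∈ R, (if i ∈ S then q i * Real.exp (c i) else q i)
        = (∏ i ∈ R, q i) * ∏ i ∈ R, (if i ∈ S then Real.exp (c i) else 1) := by
      rw [← prod_mul_distrib]
      refine prod_congr rfl fun i _ => ?_
      split_ifs <;> ring
    rw [e2]; ring
  rw [sum_congr rfl e1, ← Finset.prod_add]
  have e3 : Real.exp (∑ i ∈ S, q i * (Real.exp (c i) - 1))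
      = ∏ i, (if i ∈ S then Real.exp (q i * (Real.exp (c i) - 1)) else 1) := by
    rw [prod_ite_mem, univ_inter, Real.exp_sum]
  rw [e3]
  refine prod_le_prod (fun i _ => ?_) fun i _ => ?_
  · have hh := h1 i
    have hh0 := h0 i
    split_ifs
    · have := mul_nonneg hh0 (Real.exp_nonneg (c i))
      linarith
    · linarith
  · split_ifs
    · have h6 := Real.add_one_le_exp (q i * (Real.exp (c i) - 1))
      linarith
    · linarith

lemma bt_exp_wt' {q : ι → ℝ} (h0 : ∀ i, 0 ≤ q i) (h1 : ∀ i, q i ≤ 1) (c : ι → ℝ)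
    (hc : ∀ i, 0 ≤ c i) (hc1 : ∀ i, c i ≤ 1) (S : Finset ι) :
    ∑ R ∈ (univ : Finset ι).powerset, bt q R * Real.exp (∑ i ∈ R ∩ S, c i)
      ≤ Real.exp (2 * ∑ i ∈ S, q i * c i) := by
  refine (bt_exp_gen h0 h1 c hc S).trans (Real.exp_le_exp.mpr ?_)
  rw [mul_sum]
  refine sum_le_sum fun i _ => ?_
  have h2 := Real.abs_exp_sub_one_sub_id_le (x := c i)
    (abs_le.mpr ⟨by linarith [hc i], hc1 i⟩)
  have h3 := (abs_le.mp h2).2
  have h4 : c i ^ 2 ≤ c i := by nlinarith [hc i, hc1 i]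
  have h5 : Real.exp (c i) - 1 ≤ 2 * c i := by linarith
  have := mul_le_mul_of_nonneg_left h5 (h0 i)
  linarith

/-- weighted number of background points -/
lemma wt_le (H : Ref w μ) {t : ι → ℝ} (h0 : ∀ i, 0 ≤ t i) (h1 : ∀ i, t i ≤ 1)
    (hβ0 : ∀ R, 0 ≤ β R) (hβ : ∀ R, β R ≤ bt t R) {τ : ι → ℝ} (ht0 : ∀ i, 0 < τ i)
    (ht1 : ∀ i, τ i < 1) (hG : 0 < Gm w (gdw w μ) β τ) {c : ι → ℝ} (hc : ∀ i, 0 ≤ c i)
    {h : ℝ} (hh : 0 < h) (hch : ∀ i, c i ≤ h) :
    JJ w μ β τ (fun _ R _ => ∑ i ∈ R, c i)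
      ≤ h * KK w μ β τ + 2 * (∑ i, t i * c i) * Gm w (gdw w μ) β τ := by
  obtain ⟨b, hb⟩ : ∃ b : ι → ℝ, b = fun i => c i / h := ⟨_, rfl⟩
  have hb0 : ∀ i, 0 ≤ b i := fun i => by rw [hb]; exact div_nonneg (hc i) hh.le
  have hb1 : ∀ i, b i ≤ 1 := fun i => by rw [hb]; exact (div_le_one hh).mpr (hch i)
  have hcb : ∀ i, c i = h * b i := fun i => by rw [hb]; field_simp
  obtain ⟨C, hC⟩ : ∃ C, C = 2 * ∑ i, t i * b i := ⟨_, rfl⟩
  have hexp := bt_exp_wt' h0 h1 b hb0 hb1 univ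
  simp only [inter_univ] at hexp
  rw [← hC] at hexp
  have hZ1 : ∑ R ∈ (univ : Finset ι).powerset, β R *
      ∑ x, μ x * Real.exp (∑ i ∈ R, b i - C) ≤ 1 := by
    have e4 : ∀ R ∈ (univ : Finset ι).powerset, β R * ∑ x, μ x * Real.exp (∑ i ∈ R, b i - C)
        ≤ (bt t R * Real.exp (∑ i ∈ R, b i)) * Real.exp (-C) := by
      intro R _
      rw [← sum_mul, H.prob.sum_eq, one_mul, Real.exp_sub, div_eq_mul_inv, ← Real.exp_neg,
        ← mul_assoc]
      exact mul_le_mul_of_nonneg_right (mul_le_mul_of_nonneg_right (hβ R) (Real.exp_nonneg _))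
        (Real.exp_nonneg _)
    refine (sum_le_sum e4).trans ?_
    rw [← sum_mul]
    have := mul_le_mul_of_nonneg_right hexp (Real.exp_nonneg (-C))
    rwa [← Real.exp_add, add_neg_cancel, Real.exp_zero] at this
  have hdv := dv_transfer H hβ0 ht0 ht1 hG (fun R _ => Real.exp (∑ i ∈ R, b i - C))
    (fun R x _ _ => Real.exp_pos _) hZ1
  simp only [Real.log_exp] at hdv
  have h6 := JJ_sub w μ β τ (fun _ R _ => ∑ i ∈ R, b i) (fun _ _ _ => C)
  rw [JJ_const H] at h6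
  rw [h6] at hdv
  have h7 : JJ w μ β τ (fun _ R _ => ∑ i ∈ R, c i)
      = h * JJ w μ β τ (fun _ R _ => ∑ i ∈ R, b i) := by
    rw [← JJ_smul]
    congr 1
    funext A R x
    rw [mul_sum]
    exact sum_congr rfl fun i _ => hcb i
  have h8 : 2 * (∑ i, t i * c i) = h * C := by
    rw [hC, mul_sum, mul_sum, mul_sum]
    refine sum_congr rfl fun i _ => ?_
    rw [hcb i]; ring
  rw [h7, h8]
  have := mul_le_mul_of_nonneg_left (show JJ w μ β τ (fun _ R _ => ∑ i ∈ R, b i)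
    ≤ KK w μ β τ + C * Gm w (gdw w μ) β τ by linarith) hh.le
  linarith

lemma JP_CDl (w : ∀ i, V i → ℝ) (μ : (∀ i, V i) → ℝ) (β : Finset ι → ℝ) (τ : ι → ℝ)
    (β' : Finset ι → ℝ) (q : ι → ℝ) (l : List ι) : ∀ T : Finset ι,
    JP w μ β τ β' (fun S _ R x => CDl w μ q ∅ T l (R ∪ S) x)
      = gc q (fun T j => JP w μ β τ β' (fun S _ R x => Di w (gdw w μ) j ((R ∪ S) ∩ T) x)) T l := by
  induction l with
  | nil =>
    intro T
    simp only [CDl, gc]
    unfold JP JJ ET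
    simp
  | cons j l ih =>
    intro T
    simp only [CDl, gc, empty_union]
    rw [← ih (insert j T), ← JP_smul, ← JP_add]

end

end Vale.Agent.P042.H779.Ab.Ll
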